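import Crest.Agent.R072.Defs

/-! Row 72: basic facts on `Em`, `Dm`, traces of positive semidefinite matrices, continuity in `t`. -/

set_option autoImplicit false
set_option linter.unusedSectionVars false

open Matrix Finset

namespace Crest.Agent.R072

variable {G : Type} [Fintype G] [DecidableEq G]

lemma psd_conj {P : Matrix G G ℝ} (hP : P.PosSemidef) (M : Matrix G G ℝ) :
    (M * P * Mᵀ).PosSemidef := by
  simpa only [conjTranspose_eq_transpose_of_trivial] using hP.mul_mul_conjTranspose_same M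

lemma psd_symm {P : Matrix G G ℝ} (hP : P.PosSemidef) : Pᵀ = P := by
  simpa only [conjTranspose_eq_transpose_of_trivial] using hP.1.eq

lemma psd_mul_transpose (M : Matrix G G ℝ) : (M * Mᵀ).PosSemidef := by
  simpa only [conjTranspose_eq_transpose_of_trivial] using posSemidef_self_mul_conjTranspose M

lemma psd_transpose_mul (M : Matrix G G ℝ) : (Mᵀ * M).PosSemidef := by
  simpa only [conjTranspose_eq_transpose_of_trivial] using posSemidef_conjTranspose_mul_self M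

open scoped MatrixOrder in
/-- A positive semidefinite real matrix has a symmetric square root. -/
lemma psd_exists_sqrt {P : Matrix G G ℝ} (hP : P.PosSemidef) :
    ∃ T : Matrix G G ℝ, Tᵀ = T ∧ T * T = P :=
  ⟨CFC.sqrt P, psd_symm (CFC.sqrt_nonneg P).posSemidef, CFC.sqrt_mul_sqrt_self P hP.nonneg⟩

lemma trace_mul_nonneg {P Q : Matrix G G ℝ} (hP : P.PosSemidef) (hQ : Q.PosSemidef) :
    0 ≤ (P * Q).trace := by
  obtain ⟨T, hT, rfl⟩ := psd_exists_sqrt hP
  have := (psd_conj hQ T).trace_nonneg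
  rwa [hT, trace_mul_comm, ← Matrix.mul_assoc] at this

lemma posDef_add_smul {τ : ℝ} (hτ : 0 < τ) {P : Matrix G G ℝ} (hP : P.PosSemidef) :
    (P + τ • (1 : Matrix G G ℝ)).PosDef :=
  PosDef.posSemidef_add hP (PosDef.one.smul hτ)

lemma Em_psd {τ : ℝ} (hτ : 0 < τ) {P : Matrix G G ℝ} (hP : P.PosSemidef) :
    (Em τ P).PosSemidef :=
  (posDef_add_smul hτ hP).inv.posSemidef.smul hτ.le

lemma Basic_isUnit_det {τ : ℝ} (hτ : 0 < τ) {P : Matrix G G ℝ} (hP : P.PosSemidef) :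
    IsUnit (P + τ • (1 : Matrix G G ℝ)).det :=
  (posDef_add_smul hτ hP).det_pos.ne'.isUnit

lemma Em_mul {τ : ℝ} (hτ : 0 < τ) {P : Matrix G G ℝ} (hP : P.PosSemidef) :
    Em τ P * P = τ • Dm τ P := by
  have h := nonsing_inv_mul _ (Basic_isUnit_det hτ hP)
  rw [Matrix.mul_add, Matrix.mul_smul, Matrix.mul_one] at h
  rw [Dm, Em, Matrix.smul_mul, eq_sub_of_add_eq h]

lemma mul_Em {τ : ℝ} (hτ : 0 < τ) {P : Matrix G G ℝ} (hP : P.PosSemidef) :
    P * Em τ P = τ • Dm τ P := by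
  have h := mul_nonsing_inv _ (Basic_isUnit_det hτ hP)
  rw [Matrix.add_mul, Matrix.smul_mul, Matrix.one_mul] at h
  rw [Dm, Em, Matrix.mul_smul, eq_sub_of_add_eq h]

lemma Dm_mul_Em_comm (τ : ℝ) (P : Matrix G G ℝ) : Dm τ P * Em τ P = Em τ P * Dm τ P := by
  rw [Dm, Matrix.sub_mul, Matrix.mul_sub, Matrix.one_mul, Matrix.mul_one]

lemma Dm_mul_Em_psd {τ : ℝ} (hτ : 0 < τ) {P : Matrix G G ℝ} (hP : P.PosSemidef) :
    (Dm τ P * Em τ P).PosSemidef := by
  have h := (psd_conj hP (Em τ P)).smul (inv_pos.2 hτ).le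
  rwa [psd_symm (Em_psd hτ hP), Em_mul hτ hP, Matrix.smul_mul, smul_smul,
    inv_mul_cancel₀ hτ.ne', one_smul] at h

lemma Dm_psd {τ : ℝ} (hτ : 0 < τ) {P : Matrix G G ℝ} (hP : P.PosSemidef) :
    (Dm τ P).PosSemidef := by
  have hs : (Dm τ P)ᵀ = Dm τ P := by
    rw [Dm, transpose_sub, transpose_one, psd_symm (Em_psd hτ hP)]
  have h := (Dm_mul_Em_psd hτ hP).add (psd_mul_transpose (Dm τ P))
  rw [hs, ← Matrix.mul_add] at h
  have e : Em τ P + Dm τ P = 1 := by rw [Dm, add_sub_cancel]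
  rwa [e, Matrix.mul_one] at h

lemma gn_nonneg {τ : ℝ} (hτ : 0 < τ) {P H : Matrix G G ℝ} (hP : P.PosSemidef) (hH : Hᵀ = H) :
    0 ≤ gn τ P H := by
  have h := trace_mul_nonneg (Dm_psd hτ hP) (psd_conj (Dm_psd hτ hP) H)
  rw [hH] at h
  simpa only [gn, Matrix.mul_assoc] using h

lemma Qm_psd (X : Matrix G G ℝ) {Wa : G → ℝ} (hWa : ∀ x, 0 ≤ Wa x) : (Qm X Wa).PosSemidef := by
  have := psd_conj (PosSemidef.diagonal (d := Wa) hWa) Xᵀ
  rwa [transpose_transpose] at this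

lemma sqw_conj_psd {Q : Matrix G G ℝ} (hQ : Q.PosSemidef) (W : G → ℝ) :
    (sqw W * Q * sqw W).PosSemidef := by
  have := psd_conj hQ (sqw W)
  rwa [sqw, diagonal_transpose] at this

lemma Pm_psd (X Y : Matrix G G ℝ) {Wa Wb : G → ℝ} (W : G → ℝ) (hWa : ∀ x, 0 ≤ Wa x)
    (hWb : ∀ x, 0 ≤ Wb x) : (Pm X Y Wa W Wb).PosSemidef :=
  sqw_conj_psd ((Qm_psd X hWa).add (Qm_psd Y hWb)) W

lemma Pm_comm (X Y : Matrix G G ℝ) (Wa W Wb : G → ℝ) : Pm X Y Wa W Wb = Pm Y X Wb W Wa := by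
  rw [Pm, Pm, add_comm]

lemma Hm_symm (h W : G → ℝ) : (Hm h W)ᵀ = Hm h W := diagonal_transpose _

lemma Hm_contr {h W : G → ℝ} (hh : ∀ x, |h x| ≤ W x) :
    (1 - Hm h W * Hm h W).PosSemidef := by
  rw [Hm, diagonal_mul_diagonal, ← diagonal_one, diagonal_sub]
  refine PosSemidef.diagonal fun x => ?_
  have h1 : |h x / W x| ≤ 1 := by
    rw [abs_div, abs_of_nonneg ((abs_nonneg _).trans (hh x))]
    exact div_le_one_of_le₀ (hh x) ((abs_nonneg _).trans (hh x))
  have h2 := abs_le.1 h1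
  simp only [Pi.zero_apply]
  nlinarith

lemma continuousOn_Em {P : Matrix G G ℝ} (hP : P.PosSemidef) :
    ContinuousOn (fun t : ℝ => Em (t ^ 2) P) (Set.Ioi 0) := by
  have h1 : Continuous fun t : ℝ => P + t ^ 2 • (1 : Matrix G G ℝ) := by fun_prop
  simp only [Em, Matrix.inv_def, Ring.inverse_eq_inv]
  refine ContinuousOn.smul (f := fun t : ℝ => t ^ 2) (by fun_prop)
    (ContinuousOn.smul (f := fun t : ℝ => (P + t ^ 2 • (1 : Matrix G G ℝ)).det⁻¹) ?_
      h1.matrix_adjugate.continuousOn)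
  exact h1.matrix_det.continuousOn.inv₀ fun t ht =>
    (posDef_add_smul (pow_pos ht 2) hP).det_pos.ne'

lemma continuousOn_Dm {P : Matrix G G ℝ} (hP : P.PosSemidef) :
    ContinuousOn (fun t : ℝ => Dm (t ^ 2) P) (Set.Ioi 0) :=
  continuousOn_const.sub (continuousOn_Em hP)

lemma continuousOn_phi {P : Matrix G G ℝ} (hP : P.PosSemidef) :
    ContinuousOn (fun t : ℝ => phi (t ^ 2) P) (Set.Ioi 0) := by
  have h0 : ∀ t ∈ Set.Ioi (0 : ℝ), t ^ 2 ≠ 0 := fun t ht => (pow_pos ht 2).ne'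
  have h1 : ContinuousOn (fun t : ℝ => 1 + (t ^ 2)⁻¹ • P) (Set.Ioi 0) :=
    continuousOn_const.add ((ContinuousOn.inv₀ (by fun_prop) h0).smul continuousOn_const)
  refine ContinuousOn.sub (continuousOn_const.div (by fun_prop) h0) (ContinuousOn.log ?_ ?_)
  · exact (continuous_id.matrix_det).comp_continuousOn h1
  · intro t ht
    exact (PosDef.one.add_posSemidef (hP.smul (inv_pos.2 (pow_pos ht 2)).le)).det_pos.ne'

lemma continuousOn_gn {P : Matrix G G ℝ} (hP : P.PosSemidef) (H : Matrix G G ℝ) :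
    ContinuousOn (fun t : ℝ => gn (t ^ 2) P H) (Set.Ioi 0) := by
  have h : Continuous fun D : Matrix G G ℝ => (D * H * D * H).trace := by fun_prop
  exact h.comp_continuousOn (continuousOn_Dm hP)

/-- Functions continuous on `(0, ∞)` are interval integrable on `η..T`. -/
lemma intervalIntegrable_of_continuousOn_Ioi {f : ℝ → ℝ} (hf : ContinuousOn f (Set.Ioi 0))
    {η T : ℝ} (hη : 0 < η) (hT : η ≤ T) : IntervalIntegrable f MeasureTheory.volume η T := by
  refine (hf.mono ?_).intervalIntegrable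
  rw [Set.uIcc_of_le hT]
  exact fun x hx => lt_of_lt_of_le hη hx.1

/-- Weighted AM-GM for three numbers. -/
lemma amgm3 {a b c : ℝ} (ha : 0 ≤ a) (hb : 0 ≤ b) (hc : 0 ≤ c) :
    a * b * c ≤ (a ^ 3 + b ^ 3 + c ^ 3) / 3 := by
  nlinarith [mul_nonneg (add_nonneg (add_nonneg ha hb) hc)
    (add_nonneg (add_nonneg (sq_nonneg (a - b)) (sq_nonneg (b - c))) (sq_nonneg (a - c)))]

lemma n3_nonneg (X : Matrix G G ℝ) : 0 ≤ n3 X :=
  sum_nonneg fun _ _ => sum_nonneg fun _ _ => by positivity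

lemma n3_transpose (X : Matrix G G ℝ) : n3 Xᵀ = n3 X := by
  rw [n3, n3, sum_comm]; rfl

end Crest.Agent.R072
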