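import Crest.Agent.R072.LogDet

/-! Row 72: box weights and the Bellman inequalities on the planes `qa + q + qb = r`. -/

set_option autoImplicit false

open Matrix Finset

namespace Crest.Agent.R072

variable {G : Type} [Fintype G] [DecidableEq G] [AddCommGroup G]

lemma box_nonneg (e : G) (k : ℕ) (q x : G) : 0 ≤ box e k q x := by
  unfold box
  refine div_nonneg (sum_nonneg fun i _ => ?_) (by positivity)
  split_ifs <;> norm_num

lemma box_zero (e q : G) : box e 0 q = Pi.single q 1 := by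
  ext x
  rw [box, pow_zero, sum_range_one, zero_nsmul, add_zero, pow_zero, div_one, Pi.single_apply]

lemma box_succ (e : G) (k : ℕ) (q x : G) :
    box e (k + 1) q x = (box e k q x + box e k (q + (2 ^ k : ℕ) • e) x) / 2 := by
  unfold box
  rw [pow_succ, mul_two, sum_range_add]
  have : ∀ i : ℕ, q + (2 ^ k + i) • e = q + (2 ^ k : ℕ) • e + i • e := fun i => by
    rw [add_nsmul, add_assoc]
  simp only [this]
  rw [pow_succ]
  field_simp

lemma abs_haar_le (e : G) (k : ℕ) (q x : G) : |haar e k q x| ≤ box e (k + 1) q x := by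
  rw [box_succ, haar, abs_le]
  have h1 := box_nonneg e k q x
  have h2 := box_nonneg e k (q + (2 ^ k : ℕ) • e) x
  constructor <;> linarith

lemma sum_box_mul (e : G) (k : ℕ) (q : G) (f : G → ℝ) :
    ∑ x, box e k q x * f x = (∑ i ∈ range (2 ^ k), f (q + i • e)) / 2 ^ k := by
  unfold box
  simp only [div_mul_eq_mul_div, sum_mul, ite_mul, one_mul, zero_mul]
  rw [← sum_div, sum_comm]
  simp

lemma sum_box_mul' (e : G) (k : ℕ) (x : G) (f : G → ℝ) :
    ∑ q, box e k q x * f q = (∑ i ∈ range (2 ^ k), f (x - i • e)) / 2 ^ k := by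
  unfold box
  have : ∀ (q : G) (i : ℕ), (x = q + i • e) ↔ (q = x - i • e) := fun q i => by
    rw [eq_sub_iff_add_eq, eq_comm]
  simp only [div_mul_eq_mul_div, sum_mul, ite_mul, one_mul, zero_mul, this]
  rw [← sum_div, sum_comm]
  simp

lemma sum_box_pos (e : G) (k : ℕ) (x : G) : ∑ q, box e k q x = 1 := by
  have := sum_box_mul' e k x fun _ => 1
  simpa using this

lemma box_ne_zero {e : G} {k : ℕ} {q x : G} (h : box e k q x ≠ 0) :
    ∃ i < 2 ^ k, x = q + i • e := by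
  by_contra hn
  push Not at hn
  apply h
  unfold box
  rw [sum_eq_zero, zero_div]
  intro i hi
  rw [if_neg (hn i (mem_range.1 hi))]

lemma U_nonneg (e : G) {τ : ℝ} (hτ : 0 < τ) (X Y : Matrix G G ℝ) (k : ℕ) (r : G) :
    0 ≤ U e τ X Y k r := by
  exact sum_nonneg fun _ _ => sum_nonneg fun _ _ =>
    phi_nonneg hτ (Pm_psd X Y _ (box_nonneg e k _) (box_nonneg e k _))

lemma Gn_nonneg (e : G) {τ : ℝ} (hτ : 0 < τ) (X Y : Matrix G G ℝ) (k : ℕ) (r : G) :
    0 ≤ Gn e τ X Y k r := by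
  exact sum_nonneg fun _ _ => sum_nonneg fun _ _ =>
    gn_nonneg hτ (Pm_psd X Y _ (box_nonneg e _ _) (box_nonneg e _ _)) (Hm_symm _ _)

lemma U_comm (e : G) (τ : ℝ) (X Y : Matrix G G ℝ) (k : ℕ) (r : G) :
    U e τ X Y k r = U e τ Y X k r := by
  unfold U
  rw [sum_comm, sum_comm (f := fun qa q => phi τ (Pm Y X _ _ _))]
  refine sum_congr rfl fun q _ => ?_
  rw [← Equiv.sum_comp (Equiv.subLeft (r - q))]
  refine sum_congr rfl fun qa _ => ?_
  rw [Pm_comm, Equiv.subLeft_apply]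
  congr 3 <;> abel

omit [AddCommGroup G] in
lemma box_Qm_zero (W : G → ℝ) : Qm (0 : Matrix G G ℝ) W = 0 := by simp [Qm]

lemma U_zero_right (e : G) (τ : ℝ) (X : Matrix G G ℝ) (k : ℕ) (r r' : G) :
    U e τ X 0 k r = U e τ X 0 k r' := by
  simp only [U, Pm, box_Qm_zero]

lemma U_zero_left_le (e : G) {τ : ℝ} (hτ : 0 < τ) (X Y : Matrix G G ℝ) (k : ℕ) (r : G) :
    U e τ 0 Y k r ≤ U e τ X Y k r := by
  refine sum_le_sum fun qa _ => sum_le_sum fun q _ => ?_
  have := phi_mono hτ (sqw_conj_psd (Qm_psd Y (box_nonneg e k (r - qa - q))) (box e k q))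
    (sqw_conj_psd (Qm_psd X (box_nonneg e k qa)) (box e k q))
  rw [← Matrix.add_mul, ← Matrix.mul_add, add_comm] at this
  simpa only [Pm, box_Qm_zero, zero_add] using this

lemma continuousOn_U (e : G) (X Y : Matrix G G ℝ) (k : ℕ) (r : G) :
    ContinuousOn (fun t : ℝ => U e (t ^ 2) X Y k r) (Set.Ioi 0) := by
  exact continuousOn_finsetSum _ fun _ _ => continuousOn_finsetSum _ fun _ _ =>
    continuousOn_phi (Pm_psd X Y _ (box_nonneg e k _) (box_nonneg e k _))

lemma continuousOn_Gn (e : G) (X Y : Matrix G G ℝ) (k : ℕ) (r : G) :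
    ContinuousOn (fun t : ℝ => Gn e (t ^ 2) X Y k r) (Set.Ioi 0) := by
  exact continuousOn_finsetSum _ fun _ _ => continuousOn_finsetSum _ fun _ _ =>
    continuousOn_gn (Pm_psd X Y _ (box_nonneg e _ _) (box_nonneg e _ _)) _

omit [DecidableEq G] in
lemma box_sum_shift (F : G → G → ℝ) (α β : G) :
    ∑ a, ∑ q, F (a + α) (q + β) = ∑ a, ∑ q, F a q := by
  rw [← Equiv.sum_comp (Equiv.addRight α) fun a => ∑ q, F a q]
  refine sum_congr rfl fun a _ => ?_
  exact Equiv.sum_comp (Equiv.addRight β) fun q => F (a + α) q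

lemma box_U_shift (e : G) (τ : ℝ) (X Y : Matrix G G ℝ) (k : ℕ) (r α β γ : G) :
    ∑ a, ∑ q, phi τ (Pm X Y (box e k (a + α)) (box e k (q + β)) (box e k (r - a - q + γ))) =
      U e τ X Y k (r + (α + β + γ)) := by
  unfold U
  refine Eq.trans ?_ (box_sum_shift _ α β)
  refine sum_congr rfl fun a _ => sum_congr rfl fun q _ => ?_
  congr 3
  abel

theorem U_step (e : G) {τ : ℝ} (hτ : 0 < τ) (X Y : Matrix G G ℝ) (k : ℕ) (r : G) :
    U e τ X Y (k + 1) r + Gn e τ X Y k r / 2 ≤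
      (U e τ X Y k (r + (2 ^ k : ℕ) • e) + U e τ X Y k (r + (2 ^ (k + 1) : ℕ) • e)) / 2 := by
  set g : G := (2 ^ k : ℕ) • e with hg
  have h2g : (2 ^ (k + 1) : ℕ) • e = g + g := by rw [pow_succ, mul_two, add_nsmul]
  have e1 := box_U_shift e τ X Y k r 0 0 g
  have e2 := box_U_shift e τ X Y k r g 0 0
  have e3 := box_U_shift e τ X Y k r 0 g g
  have e4 := box_U_shift e τ X Y k r g g 0
  simp only [add_zero, zero_add] at e1 e2 e3 e4
  have key : U e τ X Y (k + 1) r + Gn e τ X Y k r / 2 ≤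
      (U e τ X Y k (r + g) + U e τ X Y k (r + g) + U e τ X Y k (r + (g + g)) +
        U e τ X Y k (r + (g + g))) / 4 := by
    nth_rewrite 1 [← e1]
    nth_rewrite 1 [← e3]
    rw [← e2, ← e4]
    unfold U Gn
    simp only [sum_div, ← sum_add_distrib]
    refine sum_le_sum fun qa _ => sum_le_sum fun q _ => ?_
    exact phi_step hτ X Y (box_nonneg e k _) (box_nonneg e k _) (box_nonneg e k _)
      (box_nonneg e k _) (box_nonneg e k _) (box_nonneg e k _) (box_nonneg e k _)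
      (box_nonneg e k _) (box_nonneg e k _) (box_nonneg e k _) (box_succ e k qa) (box_succ e k qa)
      (box_succ e k q) (fun _ => rfl) (fun x => by rw [box_succ, add_comm])
      (fun x => by rw [box_succ, add_comm])
  rw [h2g]
  linarith

theorem Phi_succ_le (e : G) {τ : ℝ} (hτ : 0 < τ) (X : Matrix G G ℝ) (k : ℕ) :
    Phi e τ X (k + 1) ≤ Phi e τ X k := by
  have h1 := U_step e hτ ((√2 : ℝ) • X) 0 k 0
  have h2 := Gn_nonneg e hτ ((√2 : ℝ) • X) 0 k 0
  rw [U_zero_right e τ _ k (0 + (2 ^ k : ℕ) • e) 0,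
    U_zero_right e τ _ k (0 + (2 ^ (k + 1) : ℕ) • e) 0] at h1
  unfold Phi
  linarith

/-- One half of the sandwiched matrix. -/
noncomputable def boxP (e : G) (X : Matrix G G ℝ) (ka k : ℕ) (a q : G) : Matrix G G ℝ :=
  sqw (box e k q) * Qm X (box e ka a) * sqw (box e k q)

/-- Pure Bellman quantity with two different levels. -/
noncomputable def boxPhi2 (e : G) (τ : ℝ) (X : Matrix G G ℝ) (ka k : ℕ) : ℝ :=
  ∑ a, ∑ q, phi τ ((2 : ℝ) • boxP e X ka k a q)

lemma box_Phi_eq (e : G) (τ : ℝ) (X : Matrix G G ℝ) (k : ℕ) :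
    Phi e τ X k = boxPhi2 e τ X k k := by
  unfold Phi U boxPhi2
  refine sum_congr rfl fun a _ => sum_congr rfl fun q _ => ?_
  congr 1
  rw [Pm, box_Qm_zero]
  simp only [add_zero, boxP, Qm, transpose_smul, Matrix.smul_mul,
    Matrix.mul_smul, smul_smul]
  rw [Real.mul_self_sqrt (by norm_num)]

lemma boxPhi2_succ (e : G) {τ : ℝ} (hτ : 0 < τ) (X : Matrix G G ℝ) (ka k : ℕ) :
    boxPhi2 e τ X ka (k + 1) ≤ boxPhi2 e τ X ka k := by
  have h1 : boxPhi2 e τ X ka k = (∑ a, ∑ q, phi τ ((2 : ℝ) • boxP e X ka k a q) +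
      ∑ a, ∑ q, phi τ ((2 : ℝ) • boxP e X ka k a (q + (2 ^ k : ℕ) • e))) / 2 := by
    have := box_sum_shift (fun a q => phi τ ((2 : ℝ) • boxP e X ka k a q)) 0 ((2 ^ k : ℕ) • e)
    simp only [add_zero] at this
    rw [this, boxPhi2]
    ring
  rw [h1]
  unfold boxPhi2
  simp only [sum_div, ← sum_add_distrib]
  refine sum_le_sum fun a _ => sum_le_sum fun q _ => ?_
  have hQ : ((2 : ℝ) • Qm X (box e ka a)).PosSemidef :=
    (Qm_psd X (box_nonneg e ka a)).smul (by norm_num)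
  have h2 := phi_split hτ hQ (box_nonneg e k q) (box_nonneg e k (q + (2 ^ k : ℕ) • e))
    (box_succ e k q) (h := haar e k q) (fun _ => rfl)
  have h3 := gn_nonneg hτ (sqw_conj_psd hQ (box e (k + 1) q))
    (Hm_symm (haar e k q) (box e (k + 1) q))
  simp only [Matrix.smul_mul, Matrix.mul_smul] at h2 h3
  simp only [boxP]
  linarith

lemma boxPhi2_anti (e : G) {τ : ℝ} (hτ : 0 < τ) (X : Matrix G G ℝ) (ka k n : ℕ) :
    boxPhi2 e τ X ka (k + n) ≤ boxPhi2 e τ X ka k := by
  induction n with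
  | zero => exact le_rfl
  | succ n ih => exact (boxPhi2_succ e hτ X ka (k + n)).trans ih

lemma box_avg (e : G) (k n : ℕ) (q x : G) :
    ∑ j ∈ range (2 ^ n), box e k (q + j • ((2 ^ k : ℕ) • e)) x = 2 ^ n * box e (k + n) q x := by
  induction n generalizing q with
  | zero => simp
  | succ n ih =>
    rw [pow_succ, mul_two, sum_range_add, ih, ← add_assoc, box_succ]
    have : ∀ j : ℕ, q + (2 ^ n + j) • ((2 ^ k : ℕ) • e) =
        q + (2 ^ (k + n) : ℕ) • e + j • ((2 ^ k : ℕ) • e) := fun j => by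
      rw [add_nsmul, smul_smul, add_assoc, pow_add, mul_comm]
    simp only [this]
    rw [ih]
    ring

lemma boxP_avg (e : G) (X : Matrix G G ℝ) (k n : ℕ) (a q : G) :
    ∑ j ∈ range (2 ^ n), boxP e X k k (a + j • ((2 ^ k : ℕ) • e)) q =
      (2 ^ n : ℝ) • boxP e X (k + n) k a q := by
  have : ∑ j ∈ range (2 ^ n), diagonal (box e k (a + j • ((2 ^ k : ℕ) • e))) =
      (2 ^ n : ℝ) • diagonal (box e (k + n) a) := by
    ext x y
    rw [Matrix.sum_apply, Matrix.smul_apply]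
    by_cases h : x = y
    · subst h
      simp only [diagonal_apply_eq, box_avg, smul_eq_mul]
    · simp [diagonal_apply_ne _ h]
  simp only [boxP, Qm]
  rw [← Matrix.sum_mul, ← Matrix.mul_sum, ← Matrix.sum_mul, ← Matrix.mul_sum, this]
  simp only [Matrix.smul_mul, Matrix.mul_smul]

lemma box_Breg_sum (e : G) (τ : ℝ) (X : Matrix G G ℝ) (k n : ℕ) :
    ∑ j ∈ range (2 ^ n), ∑ a, ∑ q, Breg τ ((2 : ℝ) • boxP e X k k (a + j • ((2 ^ k : ℕ) • e)) q)
      ((2 : ℝ) • boxP e X (k + n) k a q) =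
      ((2 ^ n : ℕ) : ℝ) * (boxPhi2 e τ X k k - boxPhi2 e τ X (k + n) k) := by
  have h1 : ∑ j ∈ range (2 ^ n), ∑ a, ∑ q, (Dm τ ((2 : ℝ) • boxP e X (k + n) k a q) *
      ((2 : ℝ) • boxP e X k k (a + j • ((2 ^ k : ℕ) • e)) q -
        (2 : ℝ) • boxP e X (k + n) k a q)).trace / τ = 0 := by
    rw [sum_comm]
    refine sum_eq_zero fun a _ => ?_
    rw [sum_comm]
    refine sum_eq_zero fun q _ => ?_
    rw [← sum_div, ← trace_sum, ← Matrix.mul_sum, sum_sub_distrib, ← smul_sum, boxP_avg,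
      sum_const, card_range, ← Nat.cast_smul_eq_nsmul ℝ, smul_comm]
    simp
  have h2 : ∀ j : ℕ, ∑ a, ∑ q, phi τ ((2 : ℝ) • boxP e X k k (a + j • ((2 ^ k : ℕ) • e)) q) =
      boxPhi2 e τ X k k := by
    intro j
    have := box_sum_shift (fun a q => phi τ ((2 : ℝ) • boxP e X k k a q))
      (j • ((2 ^ k : ℕ) • e)) 0
    simpa only [add_zero, boxPhi2] using this
  simp only [Breg, sum_sub_distrib, h1, h2, sum_const, card_range, nsmul_eq_mul]
  rw [mul_sub, sub_zero]
  rfl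

theorem U_second (e : G) {τ : ℝ} (hτ : 0 < τ) (X Y : Matrix G G ℝ) (k i : ℕ) (r : G) :
    U e τ X Y k (r + (2 ^ (k + i) : ℕ) • e) + U e τ X Y k (r - (2 ^ (k + i) : ℕ) • e) -
        2 * U e τ X Y k r ≤
      2 * (Phi e τ X k - Phi e τ X (k + i + 1)) + 2 * (Phi e τ Y k - Phi e τ Y (k + i + 1)) := by
  set g : G := (2 ^ k : ℕ) • e with hg
  set m : ℕ := 2 ^ i with hm
  have hmg : (2 ^ (k + i) : ℕ) • e = m • g := by rw [hg, hm, smul_smul, pow_add, mul_comm]
  have hpsd : ∀ (Z : Matrix G G ℝ) ka a q, (boxP e Z ka k a q).PosSemidef := fun Z ka a q =>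
    sqw_conj_psd (Qm_psd Z (box_nonneg e ka a)) _
  have hT : ∀ a q b, Pm X Y (box e k a) (box e k q) (box e k b) =
      boxP e X k k a q + boxP e Y k k b q := fun a q b => by
    simp only [Pm, boxP, Matrix.mul_add, Matrix.add_mul]
  let B : Matrix G G ℝ → ℕ → ℝ := fun Z j => ∑ a, ∑ q,
    Breg τ ((2 : ℝ) • boxP e Z k k (a + j • g) q) ((2 : ℝ) • boxP e Z (k + (i + 1)) k a q)
  have hj : ∀ j : ℕ, U e τ X Y k (r + m • g) + U e τ X Y k (r - m • g) - 2 * U e τ X Y k r ≤
      (B X j + B X (m + j)) + (B Y j + B Y (m + j)) := by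
    intro j
    set r' := r - (j + j + m) • g with hr'
    have e1 := box_U_shift e τ X Y k r' ((m + j) • g) 0 ((m + j) • g)
    have e2 := box_U_shift e τ X Y k r' (j • g) 0 (j • g)
    have e3 := box_U_shift e τ X Y k r' ((m + j) • g) 0 (j • g)
    have e4 := box_U_shift e τ X Y k r' (j • g) 0 ((m + j) • g)
    rw [show r' + ((m + j) • g + 0 + (m + j) • g) = r + m • g by
      simp only [hr', add_nsmul]; abel] at e1
    rw [show r' + (j • g + 0 + j • g) = r - m • g by simp only [hr', add_nsmul]; abel] at e2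
    rw [show r' + ((m + j) • g + 0 + j • g) = r by simp only [hr', add_nsmul]; abel] at e3
    rw [show r' + (j • g + 0 + (m + j) • g) = r by simp only [hr', add_nsmul]; abel] at e4
    have hB : ∀ j : ℕ, B Y j = ∑ a, ∑ q, Breg τ ((2 : ℝ) • boxP e Y k k (r' - a - q + j • g) q)
        ((2 : ℝ) • boxP e Y (k + (i + 1)) k (r' - a - q) q) := by
      intro j
      simp only [B]
      rw [sum_comm]
      conv_rhs => rw [sum_comm]
      refine sum_congr rfl fun q _ => ?_
      rw [← Equiv.sum_comp (Equiv.subLeft (r' - q))]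
      refine sum_congr rfl fun a _ => ?_
      rw [Equiv.subLeft_apply, sub_right_comm]
    rw [two_mul]
    nth_rewrite 1 [← e3]
    rw [← e1, ← e2, ← e4, hB, hB]
    simp only [B, ← sum_add_distrib, ← sum_sub_distrib, add_zero, hT]
    refine sum_le_sum fun a _ => sum_le_sum fun q _ => ?_
    have := phi_mixed hτ (hpsd X k (a + j • g) q) (hpsd X k (a + (m + j) • g) q)
      (hpsd Y k (r' - a - q + j • g) q) (hpsd Y k (r' - a - q + (m + j) • g) q)
      (hpsd X (k + (i + 1)) a q) (hpsd Y (k + (i + 1)) (r' - a - q) q)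
    linarith
  have hsum := sum_le_sum fun j (_ : j ∈ range m) => hj j
  have hB : ∀ Z, ∑ j ∈ range m, (B Z j + B Z (m + j)) ≤
      m * (2 * (Phi e τ Z k - Phi e τ Z (k + i + 1))) := by
    intro Z
    rw [sum_add_distrib, ← sum_range_add, ← two_mul]
    have h1 := box_Breg_sum e τ Z k (i + 1)
    rw [pow_succ, mul_comm, ← hm, ← hg] at h1
    simp only [B]
    rw [h1, box_Phi_eq, box_Phi_eq]
    have h2 := boxPhi2_anti e hτ Z (k + (i + 1)) k (i + 1)
    have h3 : (0 : ℝ) ≤ m := Nat.cast_nonneg m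
    rw [← add_assoc] at h2 ⊢
    push_cast
    nlinarith
  rw [sum_add_distrib, sum_const, card_range, nsmul_eq_mul] at hsum
  have hm0 : (0 : ℝ) < m := by rw [hm]; positivity
  rw [hmg]
  have h4 := hB X
  have h5 := hB Y
  refine le_of_mul_le_mul_left ?_ hm0
  linarith

theorem thick_step (e : G) {τ : ℝ} (hτ : 0 < τ) (X Y : Matrix G G ℝ) (l k : ℕ) :
    thick e l (k + 1) (U e τ X Y (k + 1)) + thick e l (k + 1) (Gn e τ X Y k) / 2 ≤
      thick e l k (U e τ X Y k) + 2 * (Phi e τ X k - Phi e τ X (k + l + 1)) +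
        2 * (Phi e τ Y k - Phi e τ Y (k + l + 1)) := by
  set f := U e τ X Y k with hf
  set n : ℕ := 2 ^ (k + l + 1) with hn
  set g : ℤ := 2 ^ k with hg
  set L : ℤ := 2 ^ l with hL
  have hn0 : (0 : ℝ) < n := by rw [hn]; positivity
  -- step
  have hstep : ∀ (N : ℕ) (s : ℤ), win e N s (U e τ X Y (k + 1)) + win e N s (Gn e τ X Y k) / 2 ≤
      (win e N (s + g) f + win e N (s + 2 * g) f) / 2 := by
    intro N s
    unfold win
    have : ∑ i ∈ range N, U e τ X Y (k + 1) ((s + (i : ℤ)) • e) +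
        (∑ i ∈ range N, Gn e τ X Y k ((s + (i : ℤ)) • e)) / 2 ≤
        (∑ i ∈ range N, f ((s + g + (i : ℤ)) • e) +
          ∑ i ∈ range N, f ((s + 2 * g + (i : ℤ)) • e)) / 2 := by
      simp only [sum_div, ← sum_add_distrib]
      refine sum_le_sum fun i _ => ?_
      have := U_step e hτ X Y k ((s + (i : ℤ)) • e)
      rw [← natCast_zsmul, ← natCast_zsmul, ← add_zsmul, ← add_zsmul] at this
      have e1 : s + g + i = s + i + ((2 ^ k : ℕ) : ℤ) := by rw [hg]; push_cast; ring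
      have e2 : s + 2 * g + i = s + i + ((2 ^ (k + 1) : ℕ) : ℤ) := by rw [hg]; push_cast; ring
      rw [e1, e2]
      linarith
    have hN : (0 : ℝ) ≤ (N : ℝ)⁻¹ := by positivity
    have := mul_le_mul_of_nonneg_right this hN
    simp only [div_eq_mul_inv] at this ⊢
    linarith
  have hdouble : ∀ s : ℤ, win e (2 ^ (k + 1 + l + 1)) s f =
      (win e n s f + win e n (s + 2 * L * g) f) / 2 := by
    intro s
    have h1 : 2 ^ (k + 1 + l + 1) = n + n := by rw [hn]; ring
    have h2 : (n : ℤ) = 2 * L * g := by rw [hn, hL, hg]; push_cast; ring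
    unfold win
    rw [h1, sum_range_add]
    have : ∀ i : ℕ, s + ((n + i : ℕ) : ℤ) = s + 2 * L * g + i := fun i => by
      push_cast; rw [h2]; ring
    simp only [this]
    push_cast
    field_simp
    ring
  have hsec : ∀ (i : ℕ) (s : ℤ), win e n (s + 2 ^ i * g) f + win e n (s - 2 ^ i * g) f ≤
      2 * win e n s f + (2 * (Phi e τ X k - Phi e τ X (k + i + 1)) +
        2 * (Phi e τ Y k - Phi e τ Y (k + i + 1))) := by
    intro i s
    unfold win
    rw [← add_div, div_le_iff₀ hn0, add_mul, mul_assoc, div_mul_cancel₀ _ hn0.ne', mul_sum,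
      ← sum_add_distrib, mul_comm _ (n : ℝ), ← nsmul_eq_mul]
    nth_rewrite 3 [← card_range n]
    rw [← sum_const, ← sum_add_distrib]
    refine sum_le_sum fun j _ => ?_
    have := U_second e hτ X Y k i ((s + (j : ℤ)) • e)
    rw [← natCast_zsmul, ← add_zsmul, ← sub_smul] at this
    have e1 : s + 2 ^ i * g + j = s + j + ((2 ^ (k + i) : ℕ) : ℤ) := by
      rw [hg]; push_cast; ring
    have e2 : s - 2 ^ i * g + j = s + j - ((2 ^ (k + i) : ℕ) : ℤ) := by
      rw [hg]; push_cast; ring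
    rw [e1, e2]
    linarith
  have hanti : ∀ (Z : Matrix G G ℝ) (j : ℕ), Phi e τ Z (k + j + 1) ≤ Phi e τ Z (k + 0 + 1) := by
    intro Z j
    induction j with
    | zero => exact le_rfl
    | succ j ih => exact (Phi_succ_le e hτ Z (k + j + 1)).trans ih
  have a1 := hstep (2 ^ (k + 1 + l + 1)) (-(2 ^ l + 1) * 2 ^ (k + 1))
  have a2 := hstep (2 ^ (k + 1 + l + 1)) (-(2 ^ l + 2) * 2 ^ (k + 1))
  simp only [hdouble] at a1 a2
  have b1 := hsec l (-(L + 1) * g + g)
  have b2 := hsec l (-(L + 1) * g - g)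
  have b3 := hsec l (-(L + 2) * g + g)
  have b4 := hsec l (-(L + 2) * g - g)
  have c1 := hsec 0 (-(L + 1) * g)
  have c2 := hsec 0 (-(L + 2) * g)
  rw [pow_zero, one_mul] at c1 c2
  rw [← hL] at b1 b2 b3 b4
  have d1 := hanti X l
  have d2 := hanti Y l
  rw [show -(2 ^ l + 1) * 2 ^ (k + 1) + g = -(L + 2) * g + g - L * g by rw [hL, hg]; ring,
    show -(2 ^ l + 1) * 2 ^ (k + 1) + 2 * g = -(L + 1) * g + g - L * g by rw [hL, hg]; ring,
    show -(L + 2) * g + g - L * g + 2 * L * g = -(L + 2) * g + g + L * g by ring,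
    show -(L + 1) * g + g - L * g + 2 * L * g = -(L + 1) * g + g + L * g by ring] at a1
  rw [show -(2 ^ l + 2) * 2 ^ (k + 1) + g = -(L + 2) * g - g - L * g by rw [hL, hg]; ring,
    show -(2 ^ l + 2) * 2 ^ (k + 1) + 2 * g = -(L + 1) * g - g - L * g by rw [hL, hg]; ring,
    show -(L + 2) * g - g - L * g + 2 * L * g = -(L + 2) * g - g + L * g by ring,
    show -(L + 1) * g - g - L * g + 2 * L * g = -(L + 1) * g - g + L * g by ring] at a2
  unfold thick
  rw [← hn, ← hg, ← hL]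
  linarith

end Crest.Agent.R072
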