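import Crest.Agent.R072.LogDet

/-! Row 72: integrated bounds (initial value and cost of changing a matrix). -/

set_option autoImplicit false

open Matrix Finset

namespace Crest.Agent.R072

variable {G : Type} [Fintype G] [DecidableEq G]

lemma int_ratio {lam η T : ℝ} (hl : 0 ≤ lam) (hη : 0 < η) (hT : η ≤ T) :
    ∫ t in η..T, lam / (lam + t ^ 2) ≤ Real.pi / 2 * √lam := by
  rcases hl.eq_or_lt with h0 | h0
  · subst h0
    simp
  have hs : 0 < √lam := Real.sqrt_pos.2 h0
  have hss : √lam ^ 2 = lam := Real.sq_sqrt hl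
  have hd : ∀ t ∈ Set.uIcc η T, HasDerivAt (fun t : ℝ => √lam * Real.arctan (t / √lam))
      (lam / (lam + t ^ 2)) t := by
    intro t _
    have h1 : HasDerivAt (fun t : ℝ => t / √lam) (1 / √lam) t := (hasDerivAt_id t).div_const _
    have h2 := ((Real.hasDerivAt_arctan (t / √lam)).comp t h1).const_mul (√lam)
    refine h2.congr_deriv ?_
    have : lam + t ^ 2 ≠ 0 := by positivity
    rw [div_pow, hss]
    field_simp
  have hc : Continuous fun t : ℝ => lam / (lam + t ^ 2) :=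
    continuous_const.div (by fun_prop) fun t => by positivity
  rw [intervalIntegral.integral_eq_sub_of_hasDerivAt hd (hc.intervalIntegrable _ _)]
  have h1 := Real.arctan_lt_pi_div_two (T / √lam)
  have h2 : 0 ≤ Real.arctan (η / √lam) := Real.arctan_nonneg.2 (by positivity)
  nlinarith

lemma cost_ratio_cont {lam : ℝ} (hl : 0 ≤ lam) :
    ContinuousOn (fun t : ℝ => lam / (lam + t ^ 2)) (Set.Ioi 0) :=
  continuousOn_const.div (by fun_prop) fun t ht => by
    have : (0 : ℝ) < t := ht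
    positivity

lemma cost_spectral {P : Matrix G G ℝ} (hP : P.PosSemidef) :
    ∃ (U : Matrix G G ℝ) (l : G → ℝ), (∀ i, 0 ≤ l i) ∧ U * Uᵀ = 1 ∧ Uᵀ * U = 1 ∧
      P = U * diagonal l * Uᵀ := by
  have h := hP.1.spectral_theorem
  refine ⟨(hP.1.eigenvectorUnitary : Matrix G G ℝ), hP.1.eigenvalues, hP.eigenvalues_nonneg,
    ?_, ?_, ?_⟩
  · have := Matrix.mem_unitaryGroup_iff.1 hP.1.eigenvectorUnitary.2
    rwa [star_eq_conjTranspose, conjTranspose_eq_transpose_of_trivial] at this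
  · have := Matrix.mem_unitaryGroup_iff'.1 hP.1.eigenvectorUnitary.2
    rwa [star_eq_conjTranspose, conjTranspose_eq_transpose_of_trivial] at this
  · rw [Unitary.conjStarAlgAut_apply, star_eq_conjTranspose,
      conjTranspose_eq_transpose_of_trivial] at h
    exact h

lemma cost_Dm_eq {U : Matrix G G ℝ} {l : G → ℝ} (hl : ∀ i, 0 ≤ l i) (h1 : U * Uᵀ = 1)
    (h2 : Uᵀ * U = 1) {τ : ℝ} (hτ : 0 < τ) :
    Dm τ (U * diagonal l * Uᵀ) = U * diagonal (fun i => l i / (l i + τ)) * Uᵀ := by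
  have hne : ∀ i, l i + τ ≠ 0 := fun i => by have := hl i; positivity
  have e1 : U * diagonal l * Uᵀ + τ • (1 : Matrix G G ℝ) =
      U * diagonal (fun i => l i + τ) * Uᵀ := by
    have : diagonal (fun i => l i + τ) = diagonal l + τ • (1 : Matrix G G ℝ) := by
      rw [smul_one_eq_diagonal, diagonal_add]
    rw [this, Matrix.mul_add, Matrix.add_mul, Matrix.mul_smul, Matrix.mul_one, Matrix.smul_mul, h1]
  have e2 : (U * diagonal (fun i => l i + τ) * Uᵀ)⁻¹ =
      U * diagonal (fun i => (l i + τ)⁻¹) * Uᵀ := by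
    refine Matrix.inv_eq_right_inv ?_
    calc U * diagonal (fun i => l i + τ) * Uᵀ * (U * diagonal (fun i => (l i + τ)⁻¹) * Uᵀ)
        = U * (diagonal (fun i => l i + τ) * (Uᵀ * U) * diagonal (fun i => (l i + τ)⁻¹)) * Uᵀ := by
          simp only [Matrix.mul_assoc]
      _ = 1 := by
          rw [h2, Matrix.mul_one, diagonal_mul_diagonal]
          simp [hne, h1]
  have e3 : diagonal (fun i => l i / (l i + τ)) =
      1 - τ • diagonal (fun i => (l i + τ)⁻¹) := by
    rw [← diagonal_one, ← diagonal_smul, diagonal_sub]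
    congr 1
    funext i
    have := hne i
    simp only [Pi.smul_apply, smul_eq_mul]
    field_simp
    ring
  unfold Dm Em
  rw [e1, e2, e3, Matrix.mul_sub, Matrix.sub_mul, Matrix.mul_one, h1, Matrix.mul_smul,
    Matrix.smul_mul]

/-- The integrated `D` behaves like `(π / 2) √P`. -/
theorem int_Dm_apply {P : Matrix G G ℝ} (hP : P.PosSemidef) (v : G → ℝ) (x : G) {η T : ℝ}
    (hη : 0 < η) (hT : η ≤ T) :
    |∫ t in η..T, (Dm (t ^ 2) P *ᵥ v) x| ≤ Real.pi / 2 * √(P x x) * √(∑ y, v y ^ 2) := by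
  obtain ⟨U, l, hl, h1, h2, rfl⟩ := cost_spectral hP
  set w : G → ℝ := Uᵀ *ᵥ v with hw
  have e1 : ∫ t in η..T, (Dm (t ^ 2) (U * diagonal l * Uᵀ) *ᵥ v) x =
      ∫ t in η..T, ∑ i, (U x i * w i) * (l i / (l i + t ^ 2)) := by
    refine intervalIntegral.integral_congr fun t ht => ?_
    have ht0 : 0 < t := by
      rw [Set.uIcc_of_le hT] at ht
      exact hη.trans_le ht.1
    rw [cost_Dm_eq hl h1 h2 (by positivity), ← mulVec_mulVec, ← mulVec_mulVec, ← hw]
    simp only [mulVec, dotProduct, diagonal_apply, ite_mul, zero_mul, Finset.sum_ite_eq,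
      Finset.mem_univ, if_true]
    exact Finset.sum_congr rfl fun i _ => by ring
  have hint : ∀ i, IntervalIntegrable (fun t : ℝ => l i / (l i + t ^ 2)) MeasureTheory.volume η T :=
    fun i => intervalIntegrable_of_continuousOn_Ioi (cost_ratio_cont (hl i)) hη hT
  rw [e1, intervalIntegral.integral_finsetSum fun i _ => (hint i).const_mul _]
  simp only [intervalIntegral.integral_const_mul]
  have hb : ∀ i, |U x i * w i * ∫ t in η..T, l i / (l i + t ^ 2)| ≤
      Real.pi / 2 * ((|U x i| * √(l i)) * |w i|) := by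
    intro i
    have h0 : 0 ≤ ∫ t in η..T, l i / (l i + t ^ 2) :=
      intervalIntegral.integral_nonneg hT fun t _ => by have := hl i; positivity
    rw [abs_mul, abs_mul, abs_of_nonneg h0]
    have := mul_le_mul_of_nonneg_left (int_ratio (hl i) hη hT)
      (mul_nonneg (abs_nonneg (U x i)) (abs_nonneg (w i)))
    linarith
  refine (Finset.abs_sum_le_sum_abs _ _).trans ((Finset.sum_le_sum fun i _ => hb i).trans ?_)
  rw [← Finset.mul_sum, mul_assoc]
  refine mul_le_mul_of_nonneg_left ?_ (by positivity)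
  refine (Real.sum_mul_le_sqrt_mul_sqrt _ _ _).trans (le_of_eq ?_)
  congr 2
  · rw [Matrix.mul_apply]
    refine Finset.sum_congr rfl fun i _ => ?_
    rw [mul_diagonal, transpose_apply, mul_pow, sq_abs, Real.sq_sqrt (hl i)]
    ring
  · have : w ⬝ᵥ w = v ⬝ᵥ v := by
      rw [hw, dotProduct_mulVec, vecMul_mulVec, transpose_transpose, h1, vecMul_one]
    simpa only [dotProduct, sq_abs, ← sq] using this

lemma cost_cube {a b : ℝ} (ha : 0 ≤ a) (hb : 0 ≤ b) :
    (a ^ 2 + b ^ 2) / 2 * √((a ^ 2 + b ^ 2) / 2) ≤ (a ^ 3 + b ^ 3) / 2 := by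
  set s := √((a ^ 2 + b ^ 2) / 2) with hs
  have hs0 : 0 ≤ s := Real.sqrt_nonneg _
  have hss : s ^ 2 = (a ^ 2 + b ^ 2) / 2 := Real.sq_sqrt (by positivity)
  -- `x ^ 3 ≥ (3 s x ^ 2 - s ^ 3) / 2`
  have h1 : 0 ≤ (a - s) ^ 2 * (2 * a + s) := by positivity
  have h2 : 0 ≤ (b - s) ^ 2 * (2 * b + s) := by positivity
  have h3 : s ^ 3 = (a ^ 2 + b ^ 2) / 2 * s := by rw [← hss]; ring
  nlinarith

/-- Initial value of the Bellman function. -/
theorem int_phi_single (X Y : Matrix G G ℝ) (a x b : G) {η T : ℝ} (hη : 0 < η) (hT : η ≤ T) :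
    ∫ t in η..T, t ^ 2 * phi (t ^ 2) (Pm X Y (Pi.single a 1) (Pi.single x 1) (Pi.single b 1)) ≤
      Real.pi / 2 * (|X a x| ^ 3 + |Y b x| ^ 3) := by
  have hs : ∀ c y : G, (0 : ℝ) ≤ (Pi.single c (1 : ℝ) : G → ℝ) y := fun c y => by
    rw [Pi.single_apply]
    split_ifs <;> norm_num
  set lam : ℝ := (X a x ^ 2 + Y b x ^ 2) / 2 with hlam
  have hl : 0 ≤ lam := by positivity
  have hP := Pm_psd X Y (Pi.single x 1) (hs a) (hs b)
  have i1 : IntervalIntegrable (fun t : ℝ => t ^ 2 *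
      phi (t ^ 2) (Pm X Y (Pi.single a 1) (Pi.single x 1) (Pi.single b 1)))
      MeasureTheory.volume η T :=
    intervalIntegrable_of_continuousOn_Ioi
      ((by fun_prop : ContinuousOn (fun t : ℝ => t ^ 2) _).mul (continuousOn_phi hP)) hη hT
  have i2 : IntervalIntegrable (fun t : ℝ => 2 * lam * (lam / (lam + t ^ 2)))
      MeasureTheory.volume η T :=
    (intervalIntegrable_of_continuousOn_Ioi (cost_ratio_cont hl) hη hT).const_mul _
  refine (intervalIntegral.integral_mono_on hT i1 i2 fun t ht => ?_).trans ?_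
  · have ht0 : 0 < t := hη.trans_le ht.1
    refine (phi_single (by positivity) X Y a x b).trans (le_of_eq ?_)
    have e : X a x ^ 2 + Y b x ^ 2 = 2 * lam := by rw [hlam]; ring
    rw [e]
    field_simp
  · rw [intervalIntegral.integral_const_mul]
    have h1 := mul_le_mul_of_nonneg_left (int_ratio hl hη hT) (by positivity : 0 ≤ 2 * lam)
    have h2 := cost_cube (abs_nonneg (X a x)) (abs_nonneg (Y b x))
    rw [sq_abs, sq_abs, ← hlam] at h2
    have h3 := mul_le_mul_of_nonneg_left h2 Real.pi_pos.le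
    linarith

lemma cost_Pm_apply (X Y : Matrix G G ℝ) (Wa W Wb : G → ℝ) (x y : G) :
    Pm X Y Wa W Wb x y =
      √(W x) * √(W y) * (∑ a, Wa a * (X a x * X a y) + ∑ b, Wb b * (Y b x * Y b y)) := by
  have hQ : ∀ (Z : Matrix G G ℝ) (V : G → ℝ), Qm Z V x y = ∑ a, V a * (Z a x * Z a y) := by
    intro Z V
    unfold Qm
    rw [Matrix.mul_apply]
    refine Finset.sum_congr rfl fun a _ => ?_
    rw [mul_diagonal, transpose_apply]
    ring
  unfold Pm sqw
  rw [mul_diagonal, diagonal_mul, Matrix.add_apply, hQ, hQ]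
  ring

lemma cost_trace {D : Matrix G G ℝ} (hD : Dᵀ = D) (X X' Y : Matrix G G ℝ) (Wa W Wb : G → ℝ) :
    (D * (Pm X Y Wa W Wb - Pm X' Y Wa W Wb)).trace =
      ∑ a, ∑ x, (Wa a * √(W x) * (X a x - X' a x)) *
        (D *ᵥ fun y => √(W y) * (X a y + X' a y)) x := by
  have hs : ∀ x y, D x y = D y x := fun x y => by
    conv_lhs => rw [← hD]
    rfl
  have e : ∀ x y, (Pm X Y Wa W Wb - Pm X' Y Wa W Wb) y x =
      ∑ a, √(W y) * √(W x) * (Wa a * (X a y * X a x - X' a y * X' a x)) := by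
    intro x y
    rw [Matrix.sub_apply, cost_Pm_apply, cost_Pm_apply, ← Finset.mul_sum]
    simp only [mul_sub, Finset.sum_sub_distrib]
    ring
  have sym : ∀ a, ∑ x, ∑ y, D x y * (√(W y) * √(W x) * (Wa a * (X a x * X' a y))) =
      ∑ x, ∑ y, D x y * (√(W y) * √(W x) * (Wa a * (X' a x * X a y))) := by
    intro a
    rw [Finset.sum_comm]
    refine Finset.sum_congr rfl fun x _ => Finset.sum_congr rfl fun y _ => ?_
    rw [hs y x]
    ring
  simp only [Matrix.trace, Matrix.diag, Matrix.mul_apply, e, mulVec, dotProduct, Finset.mul_sum]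
  rw [Finset.sum_congr rfl fun x _ => Finset.sum_comm, Finset.sum_comm]
  refine Finset.sum_congr rfl fun a _ => ?_
  have := sym a
  rw [← sub_eq_zero, ← Finset.sum_sub_distrib] at this
  rw [← sub_eq_zero, ← Finset.sum_sub_distrib, ← neg_eq_zero, ← this, ← Finset.sum_neg_distrib]
  refine Finset.sum_congr rfl fun x _ => ?_
  rw [← Finset.sum_sub_distrib, ← Finset.sum_sub_distrib, ← Finset.sum_neg_distrib]
  refine Finset.sum_congr rfl fun y _ => ?_
  ring

/-- Cost of replacing `X'` by `X`. -/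
theorem int_cost_local (X X' Y Cb : Matrix G G ℝ) {Wa W Wb : G → ℝ} (hWa : ∀ x, 0 ≤ Wa x)
    (hW : ∀ x, 0 ≤ W x) (hWb : ∀ x, 0 ≤ Wb x) (hX : ∀ a x, |X a x| ≤ Cb a x)
    (hX' : ∀ a x, |X' a x| ≤ Cb a x) {η T : ℝ} (hη : 0 < η) (hT : η ≤ T) :
    ∫ t in η..T, t ^ 2 * (phi (t ^ 2) (Pm X Y Wa W Wb) - phi (t ^ 2) (Pm X' Y Wa W Wb)) ≤
      Real.pi * ∑ a, ∑ x, Wa a * W x * |X a x - X' a x| * √(∑ y, W y * Cb a y ^ 2) *
        √(∑ a', Wa a' * Cb a' x ^ 2 + ∑ b, Wb b * Y b x ^ 2) := by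
  have hP := Pm_psd X Y W hWa hWb
  have hP' := Pm_psd X' Y W hWa hWb
  set P := Pm X Y Wa W Wb with hPdef
  set P' := Pm X' Y Wa W Wb with hP'def
  set v : G → G → ℝ := fun a y => √(W y) * (X a y + X' a y) with hv
  set c : G → G → ℝ := fun a x => Wa a * √(W x) * (X a x - X' a x) with hc
  have i1 : IntervalIntegrable (fun t : ℝ => t ^ 2 * (phi (t ^ 2) P - phi (t ^ 2) P'))
      MeasureTheory.volume η T :=
    intervalIntegrable_of_continuousOn_Ioi
      ((by fun_prop : ContinuousOn (fun t : ℝ => t ^ 2) _).mul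
        ((continuousOn_phi hP).sub (continuousOn_phi hP'))) hη hT
  have i0 : ∀ a x, IntervalIntegrable (fun t : ℝ => (Dm (t ^ 2) P *ᵥ v a) x)
      MeasureTheory.volume η T := by
    intro a x
    refine intervalIntegrable_of_continuousOn_Ioi ?_ hη hT
    simp only [mulVec, dotProduct]
    refine continuousOn_finsetSum _ fun y _ => ContinuousOn.mul ?_ continuousOn_const
    exact (continuousOn_pi.1 (continuousOn_pi.1 (continuousOn_Dm hP) x) y)
  have i2 : ∀ a, IntervalIntegrable (fun t : ℝ => ∑ x, c a x * (Dm (t ^ 2) P *ᵥ v a) x)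
      MeasureTheory.volume η T := fun a => by
    have := IntervalIntegrable.sum (s := Finset.univ) fun x _ => (i0 a x).const_mul (c a x)
    rwa [Finset.sum_fn] at this
  have i3 : IntervalIntegrable (fun t : ℝ => ∑ a, ∑ x, c a x * (Dm (t ^ 2) P *ᵥ v a) x)
      MeasureTheory.volume η T := by
    have := IntervalIntegrable.sum (s := Finset.univ) fun a _ => i2 a
    rwa [Finset.sum_fn] at this
  refine (intervalIntegral.integral_mono_on hT i1 i3 fun t ht => ?_).trans ?_
  · have ht0 : 0 < t := hη.trans_le ht.1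
    have hτ : 0 < t ^ 2 := by positivity
    have h1 := Breg_nonneg hτ hP' hP
    have h2 := cost_trace (psd_symm (Dm_psd hτ hP)) X X' Y Wa W Wb
    unfold Breg at h1
    rw [← hPdef, ← hP'def] at h2
    rw [← neg_sub P P', Matrix.mul_neg, trace_neg, h2] at h1
    have h3 := mul_nonneg hτ.le h1
    rw [mul_sub, mul_div_cancel₀ _ hτ.ne'] at h3
    simp only [hc, hv]
    linarith
  rw [intervalIntegral.integral_finsetSum fun a _ => i2 a, Finset.mul_sum]
  refine Finset.sum_le_sum fun a _ => ?_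
  rw [intervalIntegral.integral_finsetSum fun x _ => (i0 a x).const_mul (c a x), Finset.mul_sum]
  refine Finset.sum_le_sum fun x _ => ?_
  rw [intervalIntegral.integral_const_mul]
  refine (le_abs_self _).trans ?_
  rw [abs_mul]
  have hCb : ∀ a x, 0 ≤ Cb a x := fun a x => (abs_nonneg _).trans (hX a x)
  have hA : √(P x x) ≤ √(W x) * √(∑ a', Wa a' * Cb a' x ^ 2 + ∑ b, Wb b * Y b x ^ 2) := by
    rw [← Real.sqrt_mul (hW x)]
    refine Real.sqrt_le_sqrt ?_
    rw [hPdef, cost_Pm_apply, Real.mul_self_sqrt (hW x)]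
    refine mul_le_mul_of_nonneg_left (add_le_add (Finset.sum_le_sum fun a' _ => ?_)
      (le_of_eq (Finset.sum_congr rfl fun b _ => by ring))) (hW x)
    refine mul_le_mul_of_nonneg_left ?_ (hWa a')
    rw [← sq, ← sq_abs]
    exact pow_le_pow_left₀ (abs_nonneg _) (hX a' x) 2
  have hB : √(∑ y, v a y ^ 2) ≤ 2 * √(∑ y, W y * Cb a y ^ 2) := by
    have e : 2 * √(∑ y, W y * Cb a y ^ 2) = √(2 ^ 2 * ∑ y, W y * Cb a y ^ 2) := by
      rw [Real.sqrt_mul (by positivity), Real.sqrt_sq (by positivity)]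
    rw [e, Finset.mul_sum]
    refine Real.sqrt_le_sqrt (Finset.sum_le_sum fun y _ => ?_)
    simp only [hv]
    rw [mul_pow, Real.sq_sqrt (hW y), mul_left_comm, ← mul_pow, ← sq_abs (X a y + X' a y)]
    refine mul_le_mul_of_nonneg_left (pow_le_pow_left₀ (abs_nonneg _) ?_ 2) (hW y)
    have := abs_add_le (X a y) (X' a y)
    linarith [hX a y, hX' a y]
  have hI := int_Dm_apply hP (v a) x hη hT
  have hI2 : |∫ t in η..T, (Dm (t ^ 2) P *ᵥ v a) x| ≤ Real.pi / 2 *
      (√(W x) * √(∑ a', Wa a' * Cb a' x ^ 2 + ∑ b, Wb b * Y b x ^ 2)) *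
        (2 * √(∑ y, W y * Cb a y ^ 2)) := by
    refine hI.trans (mul_le_mul (mul_le_mul_of_nonneg_left hA (by positivity)) hB
      (Real.sqrt_nonneg _) (by positivity))
  refine (mul_le_mul_of_nonneg_left hI2 (abs_nonneg _)).trans (le_of_eq ?_)
  simp only [hc]
  rw [abs_mul, abs_mul, abs_of_nonneg (hWa a), abs_of_nonneg (Real.sqrt_nonneg _)]
  have := Real.mul_self_sqrt (hW x)
  linear_combination (Real.pi * Wa a * |X a x - X' a x| * √(∑ y, W y * Cb a y ^ 2) *
    √(∑ a', Wa a' * Cb a' x ^ 2 + ∑ b, Wb b * Y b x ^ 2)) * this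

end Crest.Agent.R072
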