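import Crest.Agent.R072.Defs

/-! Row 72: the maximal inequality on a finite group (Hopf's lemma). -/

set_option autoImplicit false

open Finset

namespace Crest.Agent.R072

variable {G : Type} [Fintype G] [AddCommGroup G]

/-- Garsia's recursion. -/
noncomputable def maxH (e : G) (g : G → ℝ) : ℕ → G → ℝ
  | 0 => fun _ => 0
  | n + 1 => fun x => max 0 (g x + maxH e g n (x + e))

omit [Fintype G] in
theorem maxH_nonneg (e : G) (g : G → ℝ) (n : ℕ) (x : G) : 0 ≤ maxH e g n x := by
  cases n with
  | zero => simp [maxH]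
  | succ n => simp [maxH]

omit [Fintype G] in
theorem maxH_mono (e : G) (g : G → ℝ) (n : ℕ) : ∀ x : G, maxH e g n x ≤ maxH e g (n + 1) x := by
  induction n with
  | zero => intro x; exact maxH_nonneg e g 1 x
  | succ n ih =>
    intro x
    show max 0 (g x + maxH e g n (x + e)) ≤ max 0 (g x + maxH e g (n + 1) (x + e))
    exact max_le_max le_rfl (by linarith [ih (x + e)])

omit [Fintype G] in
theorem max_sum_shift (e : G) (g : G → ℝ) (x : G) (j : ℕ) :
    ∑ i ∈ range (j + 1), g (x + i • e) = g x + ∑ i ∈ range j, g (x + e + i • e) := by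
  rw [Finset.sum_range_succ', add_comm]
  congr 1
  · simp
  · refine Finset.sum_congr rfl fun i _ => ?_
    congr 1
    rw [succ_nsmul]; abel

omit [Fintype G] in
theorem maxH_ge (e : G) (g : G → ℝ) (n : ℕ) :
    ∀ (x : G) (j : ℕ), j ≤ n → ∑ i ∈ range j, g (x + i • e) ≤ maxH e g n x := by
  induction n with
  | zero =>
    intro x j hj
    obtain rfl : j = 0 := by omega
    simp [maxH]
  | succ n ih =>
    intro x j hj
    cases j with
    | zero => simpa using maxH_nonneg e g (n + 1) x
    | succ j =>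
      rw [max_sum_shift]
      show _ ≤ max 0 (g x + maxH e g n (x + e))
      exact le_max_of_le_right (by linarith [ih (x + e) j (by omega)])

omit [Fintype G] in
theorem maxH_eq (e : G) (g : G → ℝ) (n : ℕ) :
    ∀ x : G, ∃ j ≤ n, maxH e g n x = ∑ i ∈ range j, g (x + i • e) := by
  induction n with
  | zero => intro x; exact ⟨0, le_rfl, by simp [maxH]⟩
  | succ n ih =>
    intro x
    obtain ⟨j, hj, h⟩ := ih (x + e)
    rcases le_total 0 (g x + maxH e g n (x + e)) with h0 | h0
    · refine ⟨j + 1, by omega, ?_⟩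
      rw [max_sum_shift, ← h]
      exact max_eq_right h0
    · refine ⟨0, by omega, ?_⟩
      simp only [range_zero, sum_empty]
      exact max_eq_left h0

/-- Hopf's maximal lemma. -/
theorem maxH_hopf (e : G) (g : G → ℝ) (n : ℕ) :
    0 ≤ ∑ x, if 0 < maxH e g n x then g x else 0 := by
  cases n with
  | zero => simp [maxH]
  | succ n =>
    have h1 : ∑ x, maxH e g (n + 1) (x + e) = ∑ x, maxH e g (n + 1) x :=
      Equiv.sum_comp (Equiv.addRight e) (maxH e g (n + 1))
    have h2 : ∀ x, maxH e g (n + 1) x - maxH e g (n + 1) (x + e) ≤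
        if 0 < maxH e g (n + 1) x then g x else 0 := by
      intro x
      split_ifs with h
      · have h3 : maxH e g (n + 1) x = g x + maxH e g n (x + e) := by
          have h4 : maxH e g (n + 1) x = max 0 (g x + maxH e g n (x + e)) := rfl
          rw [h4] at h ⊢
          rcases le_total 0 (g x + maxH e g n (x + e)) with h0 | h0
          · exact max_eq_right h0
          · rw [max_eq_left h0] at h; exact absurd h (lt_irrefl _)
        linarith [maxH_mono e g n (x + e)]
      · linarith [maxH_nonneg e g (n + 1) (x + e), not_lt.mp h]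
    have h5 := Finset.sum_le_sum fun x (_ : x ∈ (univ : Finset G)) => h2 x
    rw [Finset.sum_sub_distrib, h1, sub_self] at h5
    exact h5

omit [AddCommGroup G] in
/-- Layer cake. -/
theorem max_layer (m y : G → ℝ) (hm : ∀ x, 0 ≤ m x)
    (h : ∀ s : ℝ, 0 < s → 0 ≤ ∑ x, if s < m x then y x ^ 2 - s ^ 2 else 0) :
    0 ≤ ∑ x, (y x ^ 2 * m x - m x ^ 3 / 3) := by
  have hint : ∀ x, MeasureTheory.Integrable
      ((Set.Ioo 0 (m x)).indicator fun s : ℝ => y x ^ 2 - s ^ 2) := by
    intro x
    rw [MeasureTheory.integrable_indicator_iff measurableSet_Ioo]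
    exact (Continuous.integrableOn_Icc (by fun_prop)).mono_set Set.Ioo_subset_Icc_self
  have hval : ∀ x, ∫ s, ((Set.Ioo 0 (m x)).indicator fun s : ℝ => y x ^ 2 - s ^ 2) s =
      y x ^ 2 * m x - m x ^ 3 / 3 := by
    intro x
    rw [MeasureTheory.integral_indicator measurableSet_Ioo,
      ← MeasureTheory.integral_Ioc_eq_integral_Ioo, ← intervalIntegral.integral_of_le (hm x),
      intervalIntegral.integral_sub (by simp) (by simp)]
    simp only [intervalIntegral.integral_const, integral_pow, smul_eq_mul]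
    norm_num
    ring
  simp_rw [← hval]
  rw [← MeasureTheory.integral_finsetSum _ fun x _ => hint x]
  refine MeasureTheory.integral_nonneg fun s => ?_
  rcases le_or_gt s 0 with hs | hs
  · simp only [Pi.zero_apply]
    refine Finset.sum_nonneg fun x _ => ?_
    rw [Set.indicator_of_notMem]
    intro hx
    exact absurd hx.1 (not_lt.mpr hs)
  · simp only [Pi.zero_apply]
    refine (h s hs).trans (le_of_eq ?_)
    refine Finset.sum_congr rfl fun x _ => ?_
    by_cases hx : s < m x
    · rw [if_pos hx, Set.indicator_of_mem (show s ∈ Set.Ioo 0 (m x) from ⟨hs, hx⟩)]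
    · rw [if_neg hx, Set.indicator_of_notMem]
      intro hx'
      exact hx hx'.2

theorem max_young (m y : ℝ) (hm : 0 ≤ m) : 3 * (y ^ 2 * m) ≤ m ^ 3 / 2 + 3 * |y| ^ 3 := by
  have ha : 0 ≤ |y| := abs_nonneg y
  rw [← sq_abs y]
  generalize |y| = a at ha ⊢
  nlinarith [mul_nonneg (add_nonneg hm (mul_nonneg (by norm_num : (0:ℝ) ≤ 17/6) ha))
    (sq_nonneg (m - 17/12 * a)), mul_nonneg ha (sq_nonneg a), mul_nonneg hm (sq_nonneg a),
    mul_nonneg ha (sq_nonneg m)]

/-- One-sided maximal function of `y²`, with the `ℓ³` bound of its square root. -/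
theorem max_one (e : G) (y : G → ℝ) :
    ∃ m : G → ℝ, (∀ x, 0 ≤ m x) ∧
      (∀ (x : G) (n : ℕ), ∑ i ∈ range n, y (x + i • e) ^ 2 ≤ n * m x ^ 2) ∧
      ∑ x, m x ^ 3 ≤ 6 * ∑ x, |y x| ^ 3 := by
  set d := addOrderOf e with hd
  have hd0 : 0 < d := addOrderOf_pos e
  have hne : (Finset.Icc 1 d).Nonempty := ⟨1, by simp; omega⟩
  set A : G → ℕ → ℝ := fun x j => (∑ i ∈ range j, y (x + i • e) ^ 2) / j with hA
  set M : G → ℝ := fun x => (Finset.Icc 1 d).sup' hne (A x) with hM
  have hAM : ∀ x j, 1 ≤ j → j ≤ d → A x j ≤ M x := fun x j h1 h2 =>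
    Finset.le_sup' (A x) (Finset.mem_Icc.mpr ⟨h1, h2⟩)
  have hA0 : ∀ x j, 0 ≤ A x j := fun x j =>
    div_nonneg (Finset.sum_nonneg fun i _ => sq_nonneg _) (Nat.cast_nonneg j)
  have hM0 : ∀ x, 0 ≤ M x := fun x => (hA0 x 1).trans (hAM x 1 le_rfl hd0)
  have hsm : ∀ x j, j ≤ d → ∑ i ∈ range j, y (x + i • e) ^ 2 ≤ j * M x := by
    intro x j hj
    rcases Nat.eq_zero_or_pos j with rfl | hj0
    · simp
    · have h1 := hAM x j hj0 hj
      have h2 : (0 : ℝ) < j := by exact_mod_cast hj0
      simp only [hA] at h1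
      rw [div_le_iff₀ h2] at h1
      linarith
  have hall : ∀ n x, ∑ i ∈ range n, y (x + i • e) ^ 2 ≤ n * M x := by
    intro n
    induction n using Nat.strong_induction_on with
    | _ n ih =>
      intro x
      rcases le_or_gt n d with hn | hn
      · exact hsm x n hn
      · obtain ⟨k, rfl⟩ : ∃ k, n = d + k := ⟨n - d, by omega⟩
        rw [Finset.sum_range_add]
        have h1 : ∑ i ∈ range k, y (x + (d + i) • e) ^ 2 = ∑ i ∈ range k, y (x + i • e) ^ 2 := by
          refine Finset.sum_congr rfl fun i _ => ?_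
          rw [add_nsmul, hd, addOrderOf_nsmul_eq_zero, zero_add]
        rw [h1]
        have h2 := ih k (by omega) x
        have h3 := hsm x d le_rfl
        push_cast
        linarith
  refine ⟨fun x => √(M x), fun x => Real.sqrt_nonneg _, fun x n => ?_, ?_⟩
  · rw [Real.sq_sqrt (hM0 x)]
    exact hall n x
  · have hw : ∀ s : ℝ, 0 < s → 0 ≤ ∑ x, if s < √(M x) then y x ^ 2 - s ^ 2 else 0 := by
      intro s hs
      refine (maxH_hopf e (fun x => y x ^ 2 - s ^ 2) d).trans (le_of_eq ?_)
      refine Finset.sum_congr rfl fun x _ => ?_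
      have hiff : 0 < maxH e (fun x => y x ^ 2 - s ^ 2) d x ↔ s < √(M x) := by
        rw [Real.lt_sqrt hs.le]
        constructor
        · intro h
          obtain ⟨j, hj, hj'⟩ := maxH_eq e (fun x => y x ^ 2 - s ^ 2) d x
          rw [hj', Finset.sum_sub_distrib] at h
          simp only [sum_const, card_range, nsmul_eq_mul] at h
          have h1 := hsm x j hj
          by_contra h2
          have h3 : (j : ℝ) * M x ≤ j * s ^ 2 :=
            mul_le_mul_of_nonneg_left (not_lt.mp h2) (Nat.cast_nonneg j)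
          linarith
        · intro h
          obtain ⟨j, hj, hj'⟩ := Finset.exists_mem_eq_sup' hne (A x)
          have hj1 := (Finset.mem_Icc.mp hj).1
          have hj2 := (Finset.mem_Icc.mp hj).2
          have h1 := maxH_ge e (fun x => y x ^ 2 - s ^ 2) d x j hj2
          rw [Finset.sum_sub_distrib] at h1
          simp only [sum_const, card_range, nsmul_eq_mul] at h1
          have h2 : (0 : ℝ) < j := by exact_mod_cast hj1
          have h3 : s ^ 2 < A x j := by rw [← hj']; exact h
          simp only [hA] at h3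
          rw [lt_div_iff₀ h2] at h3
          linarith
      simp only [hiff]
    have h1 := max_layer (fun x => √(M x)) y (fun x => Real.sqrt_nonneg _) hw
    have h2 := Finset.sum_le_sum fun x (_ : x ∈ (univ : Finset G)) =>
      max_young (√(M x)) (y x) (Real.sqrt_nonneg _)
    rw [Finset.sum_sub_distrib, ← Finset.sum_div] at h1
    rw [Finset.sum_add_distrib, ← Finset.sum_div, ← Finset.mul_sum, ← Finset.mul_sum] at h2
    linarith

/-- Two-sided version: every window inside `(-M, M)` is dominated. -/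
theorem max_two (e : G) (y : G → ℝ) :
    ∃ m : G → ℝ, (∀ x, 0 ≤ m x) ∧
      (∀ (x : G) (s : ℤ) (n M : ℕ), -(M : ℤ) < s → s + n ≤ M →
        ∑ i ∈ range n, y (x + (s + (i : ℤ)) • e) ^ 2 ≤ M * m x ^ 2) ∧
      ∑ x, m x ^ 3 ≤ 48 * ∑ x, |y x| ^ 3 := by
  classical
  obtain ⟨p, hp0, hp1, hp2⟩ := max_one e y
  obtain ⟨q, hq0, hq1, hq2⟩ := max_one (-e) y
  refine ⟨fun x => p x + q x, fun x => add_nonneg (hp0 x) (hq0 x), ?_, ?_⟩
  · intro x s n M hs hn
    set f : ℤ → ℝ := fun t => y (x + t • e) ^ 2 with hf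
    have hf0 : ∀ t, 0 ≤ f t := fun t => sq_nonneg _
    have h1 : ∑ i ∈ range n, y (x + (s + (i : ℤ)) • e) ^ 2 =
        ∑ t ∈ (range n).image (fun i : ℕ => s + (i : ℤ)), f t := by
      rw [Finset.sum_image]
      intro a _ b _ hab
      simpa using hab
    have h2 : ∑ t ∈ (range M).image (fun i : ℕ => (i : ℤ)), f t =
        ∑ i ∈ range M, y (x + i • e) ^ 2 := by
      rw [Finset.sum_image]
      · simp [hf]
      · intro a _ b _ hab
        simpa using hab
    have h3 : ∑ t ∈ (range M).image (fun i : ℕ => -(i : ℤ)), f t =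
        ∑ i ∈ range M, y (x + i • (-e)) ^ 2 := by
      rw [Finset.sum_image]
      · simp [hf]
      · intro a _ b _ hab
        simpa using hab
    have h4 : (range n).image (fun i : ℕ => s + (i : ℤ)) ⊆
        (range M).image (fun i : ℕ => (i : ℤ)) ∪ (range M).image (fun i : ℕ => -(i : ℤ)) := by
      intro t ht
      simp only [mem_image, mem_range, mem_union] at ht ⊢
      obtain ⟨i, hi, rfl⟩ := ht
      rcases le_total 0 (s + i) with h | h
      · left
        exact ⟨(s + i).toNat, by omega, by omega⟩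
      · right
        exact ⟨(-(s + i)).toNat, by omega, by omega⟩
    have h5 := Finset.sum_le_sum_of_subset_of_nonneg h4 (f := f) fun t _ _ => hf0 t
    have h6 := Finset.sum_union_inter (s₁ := (range M).image (fun i : ℕ => (i : ℤ)))
      (s₂ := (range M).image (fun i : ℕ => -(i : ℤ))) (f := f)
    have h7 : 0 ≤ ∑ t ∈ (range M).image (fun i : ℕ => (i : ℤ)) ∩
        (range M).image (fun i : ℕ => -(i : ℤ)), f t := Finset.sum_nonneg fun t _ => hf0 t
    have h8 := hp1 x M
    have h9 := hq1 x M
    have h10 : (M : ℝ) * p x ^ 2 + M * q x ^ 2 ≤ M * (p x + q x) ^ 2 := by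
      rw [← mul_add]
      refine mul_le_mul_of_nonneg_left ?_ (Nat.cast_nonneg M)
      nlinarith [mul_nonneg (hp0 x) (hq0 x)]
    rw [h1]
    linarith
  · have h1 : ∀ x, (p x + q x) ^ 3 ≤ 4 * p x ^ 3 + 4 * q x ^ 3 := by
      intro x
      nlinarith [mul_nonneg (add_nonneg (hp0 x) (hq0 x)) (sq_nonneg (p x - q x))]
    have h2 := Finset.sum_le_sum fun x (_ : x ∈ (univ : Finset G)) => h1 x
    rw [Finset.sum_add_distrib, ← Finset.mul_sum, ← Finset.mul_sum] at h2
    linarith

end Crest.Agent.R072
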