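import Crest.Agent.R072.Box
import Crest.Agent.R072.Cost
import Crest.Agent.R072.Max

/-! Row 72: the cost of changing the variable matrix, averaged over a window of planes. -/

set_option autoImplicit false

open Matrix Finset

namespace Crest.Agent.R072

section Aux

variable {G : Type} [Fintype G] [DecidableEq G] [AddCommGroup G]

omit [AddCommGroup G] in
lemma cw_int_phi {P : Matrix G G ℝ} (hP : P.PosSemidef) {η T : ℝ} (hη : 0 < η) (hT : η ≤ T) :
    IntervalIntegrable (fun t : ℝ => t ^ 2 * phi (t ^ 2) P) MeasureTheory.volume η T :=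
  intervalIntegrable_of_continuousOn_Ioi
    ((continuous_pow 2).continuousOn.mul (continuousOn_phi hP)) hη hT

lemma cw_Pm_psd (e : G) (X Y : Matrix G G ℝ) (k : ℕ) (qa q qb : G) :
    (Pm X Y (box e k qa) (box e k q) (box e k qb)).PosSemidef :=
  Pm_psd X Y _ (box_nonneg e k qa) (box_nonneg e k qb)

/-- Exchange of the integral and the sums defining `U`. -/
lemma cw_int_U (e : G) (X Y : Matrix G G ℝ) (k : ℕ) (r : G) {η T : ℝ} (hη : 0 < η)
    (hT : η ≤ T) :
    ∫ t in η..T, t ^ 2 * U e (t ^ 2) X Y k r =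
      ∑ qa, ∑ q, ∫ t in η..T,
        t ^ 2 * phi (t ^ 2) (Pm X Y (box e k qa) (box e k q) (box e k (r - qa - q))) := by
  have h1 : ∀ qa : G, ∑ q, ∫ t in η..T,
        t ^ 2 * phi (t ^ 2) (Pm X Y (box e k qa) (box e k q) (box e k (r - qa - q))) =
      ∫ t in η..T, ∑ q,
        t ^ 2 * phi (t ^ 2) (Pm X Y (box e k qa) (box e k q) (box e k (r - qa - q))) := by
    intro qa
    rw [intervalIntegral.integral_finsetSum]
    intro q _
    exact cw_int_phi (cw_Pm_psd e X Y k _ _ _) hη hT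
  simp_rw [h1]
  rw [← intervalIntegral.integral_finsetSum]
  · congr 1
    ext t
    simp only [U, Finset.mul_sum]
  · intro qa _
    have := IntervalIntegrable.sum (μ := MeasureTheory.volume) (a := η) (b := T) Finset.univ
      (f := fun (q : G) (t : ℝ) =>
        t ^ 2 * phi (t ^ 2) (Pm X Y (box e k qa) (box e k q) (box e k (r - qa - q))))
      (fun q _ => cw_int_phi (cw_Pm_psd e X Y k _ _ _) hη hT)
    rwa [Finset.sum_fn] at this

lemma cw_int_U_integrable (e : G) (X Y : Matrix G G ℝ) (k : ℕ) (r : G) {η T : ℝ} (hη : 0 < η)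
    (hT : η ≤ T) :
    IntervalIntegrable (fun t : ℝ => t ^ 2 * U e (t ^ 2) X Y k r) MeasureTheory.volume η T :=
  intervalIntegrable_of_continuousOn_Ioi
    ((continuous_pow 2).continuousOn.mul (continuousOn_U e X Y k r)) hη hT

/-- A box average is dominated by the maximal function at any point of the box. -/
lemma cw_window (e : G) (k : ℕ) {q x : G} (f m : G → ℝ)
    (hm : ∀ (x : G) (s : ℤ) (n M : ℕ), -(M : ℤ) < s → s + n ≤ M →
        ∑ i ∈ range n, f (x + (s + (i : ℤ)) • e) ^ 2 ≤ M * m x ^ 2)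
    (h : box e k q x ≠ 0) : ∑ y, box e k q y * f y ^ 2 ≤ m x ^ 2 := by
  obtain ⟨i0, hi0, rfl⟩ := box_ne_zero h
  rw [sum_box_mul e k q (fun y => f y ^ 2)]
  have h1 := hm (q + i0 • e) (-(i0 : ℤ)) (2 ^ k) (2 ^ k) (by omega) (by omega)
  have h2 : ∀ i : ℕ, q + i0 • e + (-(i0 : ℤ) + (i : ℤ)) • e = q + i • e := by
    intro i
    rw [add_smul, neg_smul, natCast_zsmul, natCast_zsmul]
    abel
  simp_rw [h2] at h1
  rw [div_le_iff₀ (by positivity)]
  push_cast at h1
  linarith

/-- The average over the window of planes of the third box average. -/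
lemma cw_beta (e : G) {k n : ℕ} {s : ℤ} (hk : 2 ^ k ≤ n) (hs : |s| ≤ 3 * n) {qa q u x : G}
    (g m : G → ℝ)
    (hm : ∀ (x : G) (s : ℤ) (n M : ℕ), -(M : ℤ) < s → s + n ≤ M →
        ∑ i ∈ range n, g (x + (s + (i : ℤ)) • e) ^ 2 ≤ M * m x ^ 2)
    (h1 : box e k qa u ≠ 0) (h0 : box e k q x ≠ 0) :
    ∑ i ∈ range n, ∑ b, box e k ((s + (i : ℤ)) • e - qa - q) b * g b ^ 2 ≤
      7 * n * m (-u - x) ^ 2 := by
  obtain ⟨i0, hi0, rfl⟩ := box_ne_zero h0
  obtain ⟨i1, hi1, rfl⟩ := box_ne_zero h1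
  have hpos : 0 < 2 ^ k := by positivity
  have hs' := abs_le.mp hs
  simp_rw [sum_box_mul e k _ (fun y => g y ^ 2)]
  rw [← Finset.sum_div, Finset.sum_comm, div_le_iff₀ (by positivity)]
  have key : ∀ j ∈ range (2 ^ k),
      ∑ i ∈ range n, g ((s + (i : ℤ)) • e - qa - q + j • e) ^ 2 ≤
        7 * n * m (-(qa + i1 • e) - (q + i0 • e)) ^ 2 := by
    intro j hj
    have hj' := Finset.mem_range.mp hj
    have h3 := hm (-(qa + i1 • e) - (q + i0 • e)) (s + i0 + i1 + j) n (7 * n)
      (by push_cast; omega) (by push_cast; omega)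
    have h4 : ∀ i : ℕ, -(qa + i1 • e) - (q + i0 • e) + (s + i0 + i1 + j + (i : ℤ)) • e =
        (s + (i : ℤ)) • e - qa - q + j • e := by
      intro i
      simp only [add_smul, natCast_zsmul]
      abel
    simp_rw [h4] at h3
    push_cast at h3
    exact h3
  calc ∑ j ∈ range (2 ^ k), ∑ i ∈ range n, g ((s + (i : ℤ)) • e - qa - q + j • e) ^ 2
      ≤ ∑ _j ∈ range (2 ^ k), 7 * n * m (-(qa + i1 • e) - (q + i0 • e)) ^ 2 :=
        Finset.sum_le_sum key
    _ = _ := by
        rw [Finset.sum_const, Finset.card_range, nsmul_eq_mul]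
        push_cast
        ring

/-- Cauchy-Schwarz over the window. -/
lemma cw_cs {n : ℕ} (hn : 0 < n) (d β : ℕ → ℝ) (hβ : ∀ i, 0 ≤ β i) {A B δ : ℝ} (hA : 0 ≤ A)
    (hB : 0 ≤ B) (hδ : 0 ≤ δ) (hd : (∑ i ∈ range n, d i ^ 2) / n ≤ δ ^ 2)
    (hb : ∑ i ∈ range n, β i ≤ 7 * n * B ^ 2) :
    ∑ i ∈ range n, |d i| * √(A ^ 2 + β i) ≤ n * (δ * (A + 3 * B)) := by
  have hn' : (0 : ℝ) < n := by exact_mod_cast hn
  have h1 := Finset.sum_mul_sq_le_sq_mul_sq (range n) (fun i => |d i|) (fun i => √(A ^ 2 + β i))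
  have h2 : ∑ i ∈ range n, |d i| ^ 2 ≤ n * δ ^ 2 := by
    simp_rw [sq_abs]
    rw [div_le_iff₀ hn'] at hd
    linarith
  have h3 : ∑ i ∈ range n, √(A ^ 2 + β i) ^ 2 ≤ n * (A + 3 * B) ^ 2 := by
    have : ∀ i, √(A ^ 2 + β i) ^ 2 = A ^ 2 + β i := fun i =>
      Real.sq_sqrt (add_nonneg (sq_nonneg A) (hβ i))
    simp_rw [this]
    rw [Finset.sum_add_distrib, Finset.sum_const, Finset.card_range, nsmul_eq_mul]
    have h4 : 0 ≤ (n : ℝ) * (A * B) := by positivity
    have h5 : 0 ≤ (n : ℝ) * B ^ 2 := by positivity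
    nlinarith
  have h6 : (∑ i ∈ range n, |d i| * √(A ^ 2 + β i)) ^ 2 ≤ (n * (δ * (A + 3 * B))) ^ 2 := by
    calc _ ≤ _ := h1
      _ ≤ (n * δ ^ 2) * (n * (A + 3 * B) ^ 2) :=
          mul_le_mul h2 h3 (Finset.sum_nonneg fun i _ => sq_nonneg _) (by positivity)
      _ = _ := by ring
  exact (pow_le_pow_iff_left₀ (Finset.sum_nonneg fun i _ => by positivity) (by positivity)
    two_ne_zero).mp h6

/-- The cost on one plane. -/
lemma cw_plane (e : G) (C Y : Matrix G G ℝ) (k : ℕ) (r : G) {lam : ℝ} (hl : 0 ≤ lam)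
    (a a' : G → G → ℝ) (ha : ∀ u x, |a u x| ≤ 1) (ha' : ∀ u x, |a' u x| ≤ 1) {η T : ℝ}
    (hη : 0 < η) (hT : η ≤ T) :
    ∫ t in η..T, t ^ 2 * (U e (t ^ 2) (cut lam a C) Y k r - U e (t ^ 2) (cut lam a' C) Y k r) ≤
      Real.pi * ∑ qa, ∑ q, ∑ u, ∑ x, box e k qa u * box e k q x *
        (lam * |a u x - a' u x| * |C u x|) * √(∑ y, box e k q y * (lam * |C u y|) ^ 2) *
          √(∑ v, box e k qa v * (lam * |C v x|) ^ 2 +
            ∑ b, box e k (r - qa - q) b * Y b x ^ 2) := by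
  simp_rw [mul_sub (_ ^ 2 : ℝ)]
  rw [intervalIntegral.integral_sub (cw_int_U_integrable e _ Y k r hη hT)
    (cw_int_U_integrable e _ Y k r hη hT), cw_int_U e _ Y k r hη hT, cw_int_U e _ Y k r hη hT,
    ← Finset.sum_sub_distrib, Finset.mul_sum]
  refine Finset.sum_le_sum fun qa _ => ?_
  rw [← Finset.sum_sub_distrib, Finset.mul_sum]
  refine Finset.sum_le_sum fun q _ => ?_
  rw [← intervalIntegral.integral_sub (cw_int_phi (cw_Pm_psd e _ Y k _ _ _) hη hT)
    (cw_int_phi (cw_Pm_psd e _ Y k _ _ _) hη hT)]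
  have hcut : ∀ (b : G → G → ℝ), (∀ u x, |b u x| ≤ 1) → ∀ u x,
      |cut lam b C u x| ≤ (Matrix.of fun u x => lam * |C u x| : Matrix G G ℝ) u x := by
    intro b hb u x
    simp only [cut, Matrix.of_apply, abs_mul, abs_of_nonneg hl]
    have := hb u x
    have h2 : 0 ≤ lam * |C u x| := by positivity
    nlinarith
  have h := int_cost_local (cut lam a C) (cut lam a' C) Y
    (Matrix.of fun u x => lam * |C u x|) (box_nonneg e k qa) (box_nonneg e k q)
    (box_nonneg e k (r - qa - q)) (hcut a ha) (hcut a' ha') hη hT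
  simp_rw [mul_sub (_ ^ 2 : ℝ)] at h
  refine h.trans (le_of_eq ?_)
  congr 1
  refine Finset.sum_congr rfl fun u _ => Finset.sum_congr rfl fun x _ => ?_
  have : |cut lam a C u x - cut lam a' C u x| = lam * |a u x - a' u x| * |C u x| := by
    simp only [cut, Matrix.of_apply]
    rw [show lam * a u x * C u x - lam * a' u x * C u x = lam * (a u x - a' u x) * C u x by ring,
      abs_mul, abs_mul, abs_of_nonneg hl]
  rw [this]
  simp only [Matrix.of_apply]

end Aux

/-- Initial value of `U`. -/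
theorem int_U_zero {G : Type} [Fintype G] [DecidableEq G] [AddCommGroup G] (e : G)
    (X Y : Matrix G G ℝ) (r : G) {η T : ℝ} (hη : 0 < η) (hT : η ≤ T) :
    ∫ t in η..T, t ^ 2 * U e (t ^ 2) X Y 0 r ≤ Real.pi / 2 * (n3 X + n3 Y) := by
  rw [cw_int_U e X Y 0 r hη hT]
  simp_rw [box_zero]
  calc _ ≤ ∑ qa, ∑ q, Real.pi / 2 * (|X qa q| ^ 3 + |Y (r - qa - q) q| ^ 3) :=
        Finset.sum_le_sum fun qa _ => Finset.sum_le_sum fun q _ =>
          int_phi_single X Y qa q (r - qa - q) hη hT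
    _ = Real.pi / 2 * (n3 X + n3 Y) := by
        simp_rw [← Finset.mul_sum, Finset.sum_add_distrib]
        congr 2
        unfold n3
        rw [Finset.sum_comm, Finset.sum_comm (f := fun a x => |Y a x| ^ 3)]
        refine Finset.sum_congr rfl fun q _ => ?_
        refine Fintype.sum_equiv (Equiv.subLeft (r - q)) _ _ fun qa => ?_
        simp only [Equiv.subLeft_apply]
        rw [sub_right_comm]

theorem cost_win : ∃ c : ℝ, 0 ≤ c ∧
    ∀ (G : Type) [Fintype G] [DecidableEq G] [AddCommGroup G] (e : G) (C Y : Matrix G G ℝ),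
      ∃ w1 w2 : G → G → ℝ, (∀ u x, 0 ≤ w1 u x) ∧ (∀ u x, 0 ≤ w2 u x) ∧
        ∑ u, ∑ x, |C u x| * w1 u x ≤ c * (n3 C + n3 Y) ∧
        ∑ u, ∑ x, |C u x| * w2 u x ≤ c * n3 C ∧
        ∀ (k n : ℕ) (s : ℤ), 2 ^ k ≤ n → |s| ≤ 3 * n →
          ∀ (lam : ℝ), 0 ≤ lam → ∀ (a a' : ℕ → G → G → ℝ) (δ : G → G → ℝ),
            (∀ i u x, |a i u x| ≤ 1) → (∀ i u x, |a' i u x| ≤ 1) → (∀ u x, 0 ≤ δ u x) →
            (∀ u x, (∑ i ∈ range n, (a i u x - a' i u x) ^ 2) / n ≤ δ u x ^ 2) →
            ∀ η T : ℝ, 0 < η → η ≤ T →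
              ∫ t in η..T, t ^ 2 * ((∑ i ∈ range n,
                (U e (t ^ 2) (cut lam (a i) C) Y k ((s + (i : ℤ)) • e) -
                  U e (t ^ 2) (cut lam (a' i) C) Y k ((s + (i : ℤ)) • e))) / n) ≤
                ∑ u, ∑ x, δ u x * |C u x| * (lam ^ 2 * w1 u x + lam ^ 3 * w2 u x) := by
  refine ⟨49 * Real.pi, by positivity, fun G _ _ _ e C Y => ?_⟩
  choose F0 hF0 hF0' hF0'' using fun u : G => max_two e (fun y => C u y)
  choose F2 hF2 hF2' hF2'' using fun x : G => max_two e (fun a => C a x)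
  choose F1 hF1 hF1' hF1'' using fun x : G => max_two e (fun b => Y b x)
  have hpi := Real.pi_pos
  have hC := n3_nonneg C
  have hY := n3_nonneg Y
  have s0 : ∑ u, ∑ x, F0 u x ^ 3 ≤ 48 * n3 C := by
    unfold n3
    rw [Finset.mul_sum]
    exact Finset.sum_le_sum fun u _ => hF0'' u
  have s2 : ∑ u, ∑ x, F2 x u ^ 3 ≤ 48 * n3 C := by
    unfold n3
    rw [Finset.sum_comm, Finset.sum_comm (f := fun a x => |C a x| ^ 3), Finset.mul_sum]
    exact Finset.sum_le_sum fun x _ => hF2'' x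
  have s1 : ∑ u, ∑ x, F1 x (-u - x) ^ 3 ≤ 48 * n3 Y := by
    unfold n3
    rw [Finset.sum_comm, Finset.sum_comm (f := fun a x => |Y a x| ^ 3), Finset.mul_sum]
    refine Finset.sum_le_sum fun x _ => le_trans (le_of_eq ?_) (hF1'' x)
    refine Fintype.sum_equiv (Equiv.subLeft (-x)) _ _ fun u => ?_
    simp only [Equiv.subLeft_apply]
    rw [show -u - x = -x - u by abel]
  refine ⟨fun u x => 3 * Real.pi * F0 u x * F1 x (-u - x), fun u x => Real.pi * F0 u x * F2 x u,
    fun u x => mul_nonneg (mul_nonneg (by positivity) (hF0 u x)) (hF1 x _),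
    fun u x => mul_nonneg (mul_nonneg (by positivity) (hF0 u x)) (hF2 x _), ?_, ?_, ?_⟩
  · calc ∑ u, ∑ x, |C u x| * (3 * Real.pi * F0 u x * F1 x (-u - x))
        ≤ ∑ u, ∑ x, Real.pi * (|C u x| ^ 3 + F0 u x ^ 3 + F1 x (-u - x) ^ 3) := by
          refine Finset.sum_le_sum fun u _ => Finset.sum_le_sum fun x _ => ?_
          have := amgm3 (abs_nonneg (C u x)) (hF0 u x) (hF1 x (-u - x))
          nlinarith
      _ = Real.pi * (n3 C + ∑ u, ∑ x, F0 u x ^ 3 + ∑ u, ∑ x, F1 x (-u - x) ^ 3) := by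
          simp_rw [← Finset.mul_sum, Finset.sum_add_distrib]
          rfl
      _ ≤ 49 * Real.pi * (n3 C + n3 Y) := by nlinarith
  · calc ∑ u, ∑ x, |C u x| * (Real.pi * F0 u x * F2 x u)
        ≤ ∑ u, ∑ x, Real.pi / 3 * (|C u x| ^ 3 + F0 u x ^ 3 + F2 x u ^ 3) := by
          refine Finset.sum_le_sum fun u _ => Finset.sum_le_sum fun x _ => ?_
          have := amgm3 (abs_nonneg (C u x)) (hF0 u x) (hF2 x u)
          nlinarith
      _ = Real.pi / 3 * (n3 C + ∑ u, ∑ x, F0 u x ^ 3 + ∑ u, ∑ x, F2 x u ^ 3) := by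
          simp_rw [← Finset.mul_sum, Finset.sum_add_distrib]
          rfl
      _ ≤ 49 * Real.pi * n3 C := by nlinarith
  intro k n s hk hs lam hl a a' δ ha ha' hδ hd η T hη hT
  have hn : 0 < n := lt_of_lt_of_le (by positivity) hk
  have hn' : (0 : ℝ) < n := by exact_mod_cast hn
  -- exchange the integral and the average
  have hex : ∫ t in η..T, t ^ 2 * ((∑ i ∈ range n,
        (U e (t ^ 2) (cut lam (a i) C) Y k ((s + (i : ℤ)) • e) -
          U e (t ^ 2) (cut lam (a' i) C) Y k ((s + (i : ℤ)) • e))) / n) =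
      (∑ i ∈ range n, ∫ t in η..T, t ^ 2 *
        (U e (t ^ 2) (cut lam (a i) C) Y k ((s + (i : ℤ)) • e) -
          U e (t ^ 2) (cut lam (a' i) C) Y k ((s + (i : ℤ)) • e))) / n := by
    rw [← intervalIntegral.integral_finsetSum, ← intervalIntegral.integral_div]
    · congr 1
      ext t
      rw [← Finset.mul_sum, mul_div_assoc]
    · intro i _
      simp_rw [mul_sub (_ ^ 2 : ℝ)]
      exact (cw_int_U_integrable e _ Y k _ hη hT).sub (cw_int_U_integrable e _ Y k _ hη hT)
  rw [hex, div_le_iff₀ hn']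
  -- the local estimate
  have hloc : ∀ qa q u x : G, ∑ i ∈ range n, box e k qa u * box e k q x *
        (lam * |a i u x - a' i u x| * |C u x|) * √(∑ y, box e k q y * (lam * |C u y|) ^ 2) *
          √(∑ v, box e k qa v * (lam * |C v x|) ^ 2 +
            ∑ b, box e k ((s + (i : ℤ)) • e - qa - q) b * Y b x ^ 2) ≤
      box e k qa u * box e k q x *
        (n * (lam ^ 2 * |C u x| * F0 u x * (δ u x * (lam * F2 x u + 3 * F1 x (-u - x))))) := by
    intro qa q u x
    by_cases h1 : box e k qa u = 0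
    · simp [h1]
    by_cases h0 : box e k q x = 0
    · simp [h0]
    have hb1 := box_nonneg e k qa u
    have hb0 := box_nonneg e k q x
    have hsq : ∀ (q' : G) (f : G → ℝ), ∑ y, box e k q' y * (lam * |f y|) ^ 2 =
        lam ^ 2 * ∑ y, box e k q' y * f y ^ 2 := by
      intro q' f
      rw [Finset.mul_sum]
      refine Finset.sum_congr rfl fun y _ => ?_
      rw [mul_pow, sq_abs]
      ring
    have e0 : √(∑ y, box e k q y * (lam * |C u y|) ^ 2) ≤ lam * F0 u x := by
      rw [hsq q (fun y => C u y)]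
      refine Real.sqrt_le_iff.mpr ⟨mul_nonneg hl (hF0 u x), ?_⟩
      rw [mul_pow]
      exact mul_le_mul_of_nonneg_left (cw_window e k (fun y => C u y) (F0 u) (hF0' u) h0)
        (sq_nonneg _)
    have e2 : ∑ v, box e k qa v * (lam * |C v x|) ^ 2 ≤ (lam * F2 x u) ^ 2 := by
      rw [hsq qa (fun v => C v x), mul_pow]
      exact mul_le_mul_of_nonneg_left (cw_window e k (fun v => C v x) (F2 x) (hF2' x) h1)
        (sq_nonneg _)
    have e1 := cw_beta e hk hs (fun b => Y b x) (F1 x) (hF1' x) h1 h0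
    have hcs := cw_cs hn (fun i => a i u x - a' i u x)
      (fun i => ∑ b, box e k ((s + (i : ℤ)) • e - qa - q) b * Y b x ^ 2)
      (fun i => Finset.sum_nonneg fun b _ => mul_nonneg (box_nonneg _ _ _ _) (sq_nonneg _))
      (mul_nonneg hl (hF2 x u)) (hF1 x (-u - x)) (hδ u x) (hd u x) e1
    have hK : 0 ≤ box e k qa u * box e k q x * (lam ^ 2 * |C u x| * F0 u x) :=
      mul_nonneg (mul_nonneg hb1 hb0) (mul_nonneg (by positivity) (hF0 u x))
    calc _ ≤ ∑ i ∈ range n, box e k qa u * box e k q x * (lam ^ 2 * |C u x| * F0 u x) *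
          (|a i u x - a' i u x| * √((lam * F2 x u) ^ 2 +
            ∑ b, box e k ((s + (i : ℤ)) • e - qa - q) b * Y b x ^ 2)) := by
          refine Finset.sum_le_sum fun i _ => ?_
          have e3 : √(∑ v, box e k qa v * (lam * |C v x|) ^ 2 +
              ∑ b, box e k ((s + (i : ℤ)) • e - qa - q) b * Y b x ^ 2) ≤
              √((lam * F2 x u) ^ 2 +
                ∑ b, box e k ((s + (i : ℤ)) • e - qa - q) b * Y b x ^ 2) :=
            Real.sqrt_le_sqrt (by linarith)
          have hK' : 0 ≤ box e k qa u * box e k q x * (lam * |a i u x - a' i u x| * |C u x|) :=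
            mul_nonneg (mul_nonneg hb1 hb0) (by positivity)
          calc _ ≤ box e k qa u * box e k q x * (lam * |a i u x - a' i u x| * |C u x|) *
                (lam * F0 u x) * √((lam * F2 x u) ^ 2 +
                  ∑ b, box e k ((s + (i : ℤ)) • e - qa - q) b * Y b x ^ 2) :=
                mul_le_mul (mul_le_mul_of_nonneg_left e0 hK') e3 (Real.sqrt_nonneg _)
                  (mul_nonneg hK' (mul_nonneg hl (hF0 u x)))
            _ = _ := by ring
      _ = box e k qa u * box e k q x * (lam ^ 2 * |C u x| * F0 u x) *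
          ∑ i ∈ range n, (|a i u x - a' i u x| * √((lam * F2 x u) ^ 2 +
            ∑ b, box e k ((s + (i : ℤ)) • e - qa - q) b * Y b x ^ 2)) := by
          rw [Finset.mul_sum]
      _ ≤ box e k qa u * box e k q x * (lam ^ 2 * |C u x| * F0 u x) *
          (n * (δ u x * (lam * F2 x u + 3 * F1 x (-u - x)))) :=
          mul_le_mul_of_nonneg_left hcs hK
      _ = _ := by ring
  calc _ ≤ ∑ i ∈ range n, Real.pi * ∑ qa, ∑ q, ∑ u, ∑ x, box e k qa u * box e k q x *
        (lam * |a i u x - a' i u x| * |C u x|) * √(∑ y, box e k q y * (lam * |C u y|) ^ 2) *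
          √(∑ v, box e k qa v * (lam * |C v x|) ^ 2 +
            ∑ b, box e k ((s + (i : ℤ)) • e - qa - q) b * Y b x ^ 2) :=
        Finset.sum_le_sum fun i _ => cw_plane e C Y k _ hl (a i) (a' i) (ha i) (ha' i) hη hT
    _ = Real.pi * ∑ qa, ∑ q, ∑ u, ∑ x, ∑ i ∈ range n, box e k qa u * box e k q x *
        (lam * |a i u x - a' i u x| * |C u x|) * √(∑ y, box e k q y * (lam * |C u y|) ^ 2) *
          √(∑ v, box e k qa v * (lam * |C v x|) ^ 2 +
            ∑ b, box e k ((s + (i : ℤ)) • e - qa - q) b * Y b x ^ 2) := by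
        rw [← Finset.mul_sum]
        congr 1
        rw [Finset.sum_comm]
        refine Finset.sum_congr rfl fun qa _ => ?_
        rw [Finset.sum_comm]
        refine Finset.sum_congr rfl fun q _ => ?_
        rw [Finset.sum_comm]
        refine Finset.sum_congr rfl fun u _ => ?_
        rw [Finset.sum_comm]
    _ ≤ Real.pi * ∑ qa, ∑ q, ∑ u, ∑ x, box e k qa u * box e k q x *
        (n * (lam ^ 2 * |C u x| * F0 u x * (δ u x * (lam * F2 x u + 3 * F1 x (-u - x))))) := by
        refine mul_le_mul_of_nonneg_left ?_ hpi.le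
        exact Finset.sum_le_sum fun qa _ => Finset.sum_le_sum fun q _ =>
          Finset.sum_le_sum fun u _ => Finset.sum_le_sum fun x _ => hloc qa q u x
    _ = Real.pi * ∑ u, ∑ x,
        (n * (lam ^ 2 * |C u x| * F0 u x * (δ u x * (lam * F2 x u + 3 * F1 x (-u - x))))) := by
        congr 1
        have : ∀ Z : G → G → ℝ, ∑ qa, ∑ q, ∑ u, ∑ x, box e k qa u * box e k q x * Z u x =
            ∑ u, ∑ x, Z u x := by
          intro Z
          calc ∑ qa, ∑ q, ∑ u, ∑ x, box e k qa u * box e k q x * Z u x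
              = ∑ qa, ∑ u, ∑ x, ∑ q, box e k qa u * box e k q x * Z u x := by
                refine Finset.sum_congr rfl fun qa _ => ?_
                rw [Finset.sum_comm]
                refine Finset.sum_congr rfl fun u _ => ?_
                rw [Finset.sum_comm]
            _ = ∑ u, ∑ x, ∑ qa, ∑ q, box e k qa u * box e k q x * Z u x := by
                rw [Finset.sum_comm]
                refine Finset.sum_congr rfl fun u _ => ?_
                rw [Finset.sum_comm]
            _ = ∑ u, ∑ x, Z u x := by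
                refine Finset.sum_congr rfl fun u _ => Finset.sum_congr rfl fun x _ => ?_
                simp_rw [← Finset.sum_mul, ← Finset.mul_sum, sum_box_pos, mul_one,
                  sum_box_pos, one_mul]
        exact this _
    _ = _ := by
        rw [Finset.mul_sum, Finset.sum_mul]
        refine Finset.sum_congr rfl fun u _ => ?_
        rw [Finset.mul_sum, Finset.sum_mul]
        refine Finset.sum_congr rfl fun x _ => ?_
        ring

end Crest.Agent.R072
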