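import Crest.Agent.R072.DT1

/-! Row 72: the discrete theorem on `ℤ × ℤ` for complex functions. -/

set_option autoImplicit false

open Finset
open scoped ENNReal

namespace Crest.Agent.R072

/-- real version of `dHT` -/
noncomputable def DTr (f g : ℤ × ℤ → ℝ) (θ ε R : ℝ) (N : ℕ) (z : ℤ × ℤ) : ℝ :=
  ∑ i ∈ Finset.Ico (-(N : ℤ)) N, if ε < |(i : ℝ) + θ| ∧ |(i : ℝ) + θ| < R then
    f (z.1 + i, z.2) * g (z.1, z.2 + i) / ((i : ℝ) + θ) else 0

theorem DT_norm_le (F G : ℤ × ℤ → ℂ) (θ ε R : ℝ) (N : ℕ) (z : ℤ × ℤ) :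
    ‖dHT F G θ ε R N z‖ ≤ |DTr (fun z => (F z).re) (fun z => (G z).re) θ ε R N z| +
      |DTr (fun z => (F z).im) (fun z => (G z).im) θ ε R N z| +
      |DTr (fun z => (F z).re) (fun z => (G z).im) θ ε R N z| +
      |DTr (fun z => (F z).im) (fun z => (G z).re) θ ε R N z| := by
  have h1 : (dHT F G θ ε R N z).re = DTr (fun z => (F z).re) (fun z => (G z).re) θ ε R N z -
      DTr (fun z => (F z).im) (fun z => (G z).im) θ ε R N z := by
    rw [dHT, DTr, DTr, Complex.re_sum, ← sum_sub_distrib]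
    refine sum_congr rfl fun i _ => ?_
    split_ifs
    · rw [Complex.div_ofReal_re, Complex.mul_re, sub_div]
    · simp
  have h2 : (dHT F G θ ε R N z).im = DTr (fun z => (F z).re) (fun z => (G z).im) θ ε R N z +
      DTr (fun z => (F z).im) (fun z => (G z).re) θ ε R N z := by
    rw [dHT, DTr, DTr, Complex.im_sum, ← sum_add_distrib]
    refine sum_congr rfl fun i _ => ?_
    split_ifs
    · rw [Complex.div_ofReal_im, Complex.mul_im, add_div]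
    · simp
  refine (Complex.norm_le_abs_re_add_abs_im _).trans ?_
  rw [h1, h2, add_assoc]
  exact add_le_add (abs_sub _ _) (abs_add_le _ _)

theorem DT_real : ∃ c : ℝ, 0 ≤ c ∧
    ∀ (n N : ℕ) (θ : ℝ), 1 ≤ n → 0 ≤ θ → θ < 1 → ∀ (f g C : ℤ × ℤ → ℝ) (a b : ℝ)
      (s : Finset (ℤ × ℤ)) (m : ℤ × ℤ → ℕ) (ε R : (z : ℤ × ℤ) → Fin (m z) → ℝ), (∀ z, m z ≤ n) →
      (∀ z j, 1 ≤ ε z j ∧ ε z j < R z j ∧ R z j ≤ N) →
      (∀ z i j, i ≠ j → R z i ≤ ε z j ∨ R z j ≤ ε z i) →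
      (∀ T : Finset (ℤ × ℤ), ∑ z ∈ T, |f z| ^ 3 ≤ a) →
      (∀ T : Finset (ℤ × ℤ), ∑ z ∈ T, |g z| ^ 3 ≤ b) →
      ∑ z ∈ s, C z * ∑ j, |DTr f g θ (ε z j) (R z j) N z| ≤
        c * √n * (a + b + ∑ z ∈ s, |C z| ^ 3) := by
  obtain ⟨c, c0, h⟩ := DT1
  refine ⟨c, c0, fun n N θ hn θ0 θ1 f g C a b s m ε R hm hε hd ha hb => ?_⟩
  obtain ⟨L, hL⟩ : ∃ L : ℕ, ∀ z ∈ s, z.1.natAbs ≤ L ∧ z.2.natAbs ≤ L :=
    ⟨s.sup fun z => z.1.natAbs + z.2.natAbs, fun z hz => by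
      have := le_sup (f := fun z : ℤ × ℤ => z.1.natAbs + z.2.natAbs) hz
      omega⟩
  obtain ⟨Q, hQ, hQ'⟩ : ∃ Q, Q = 2 ^ (2 * (L + N)) ∧ 2 * (L + N) < Q :=
    ⟨_, rfl, Nat.lt_two_pow_self⟩
  have : NeZero Q := ⟨by omega⟩
  have vi := ZMod.injective_valMinAbs (n := Q)
  have vc : ∀ x : ℤ, x.natAbs ≤ L + N → (x : ZMod Q).valMinAbs = x := fun x hx =>
    (ZMod.valMinAbs_spec _ _).2 ⟨rfl, by constructor <;> omega⟩
  set ι : ZMod Q → ZMod Q → ℤ × ℤ := fun u x => ((-x).valMinAbs, (-u).valMinAbs) with hι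
  have tr : ∀ Φ : ℤ × ℤ → ℝ, ∑ u, ∑ x, (if ι u x ∈ s then Φ (ι u x) else 0) = ∑ z ∈ s, Φ z := by
    intro Φ
    rw [← Fintype.sum_prod_type', ← sum_filter]
    refine sum_nbij (fun p => ι p.1 p.2) (fun p hp => (mem_filter.1 hp).2) (fun p _ q _ e => ?_)
      (fun z hz => ?_) fun _ _ => rfl
    · simp only [hι, Prod.mk.injEq, vi.eq_iff, neg_inj] at e
      exact Prod.ext e.2 e.1
    · have e : ι (-(z.2 : ZMod Q)) (-(z.1 : ZMod Q)) = z := by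
        have := hL z hz
        simp only [hι, neg_neg]
        rw [vc _ (by omega), vc _ (by omega)]
      exact ⟨(-(z.2 : ZMod Q), -(z.1 : ZMod Q)), by simpa [e] using hz, e⟩
  have nb : ∀ (φ : ℤ × ℤ → ℝ) (κ : ZMod Q × ZMod Q → ℤ × ℤ) (y : ℝ), Function.Injective κ →
      (∀ T : Finset (ℤ × ℤ), ∑ z ∈ T, |φ z| ^ 3 ≤ y) →
      n3 (Matrix.of fun u x => φ (κ (u, x))) ≤ y := fun φ κ y hκ hy => by
    have := hy (univ.image κ)
    rw [sum_image fun _ _ _ _ e => hκ e, Fintype.sum_prod_type] at this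
    exact this
  have H := h (ZMod Q) 1 (2 * (L + N)) (by rw [← hQ]; simp)
    (Matrix.of fun u x => g ((-u).valMinAbs, (x + u).valMinAbs))
    (Matrix.of fun u x => f ((u + x).valMinAbs, (-x).valMinAbs))
    (Matrix.of fun u x => if ι u x ∈ s then C (ι u x) else 0) n N θ hn θ0 θ1
    (fun u x => m (ι u x)) (fun u x => ε (ι u x)) (fun u x => R (ι u x))
    (fun u x j => if 0 ≤ DTr f g θ (ε (ι u x) j) (R (ι u x) j) N (ι u x) then 1 else -1)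
    (fun _ _ => hm _) (fun u x j => ⟨(hε _ j).1, (hε _ j).2.1, (hε _ j).2.2, by
      split_ifs <;> simp⟩) (fun _ _ => hd _)
  have h1 := nb g (fun p => ((-p.1).valMinAbs, (p.2 + p.1).valMinAbs)) b (fun p q e => by
    simp only [Prod.mk.injEq, vi.eq_iff, neg_inj] at e
    exact Prod.ext e.1 (by simpa [e.1] using e.2)) hb
  have h2 := nb f (fun p => ((p.1 + p.2).valMinAbs, (-p.2).valMinAbs)) a (fun p q e => by
    simp only [Prod.mk.injEq, vi.eq_iff, neg_inj] at e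
    exact Prod.ext (by simpa [e.2] using e.1) e.2) ha
  have h3 : n3 (Matrix.of fun u x => if ι u x ∈ s then C (ι u x) else 0) = ∑ z ∈ s, |C z| ^ 3 := by
    rw [← tr]
    exact sum_congr rfl fun u _ => sum_congr rfl fun x _ => by
      rw [Matrix.of_apply]; split_ifs <;> simp
  rw [h3] at H
  refine le_trans (le_of_eq ?_) ((le_abs_self _).trans (H.trans
    (mul_le_mul_of_nonneg_left (by linarith) (by positivity))))
  rw [← tr]
  refine sum_congr rfl fun u _ => sum_congr rfl fun x _ => ?_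
  rw [Matrix.of_apply]
  by_cases hz : ι u x ∈ s
  · rw [if_pos hz, if_pos hz]
    congr 1
    refine sum_congr rfl fun j _ => ?_
    have e : ∀ i ∈ Finset.Ico (-(N : ℤ)) N, line (1 : ZMod Q)
        (Matrix.of fun u x => g ((-u).valMinAbs, (x + u).valMinAbs))
        (Matrix.of fun u x => f ((u + x).valMinAbs, (-x).valMinAbs)) x u i =
        f ((ι u x).1 + i, (ι u x).2) * g ((ι u x).1, (ι u x).2 + i) := fun i hi => by
      have := hL _ hz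
      rw [mem_Ico] at hi
      rw [← vc ((ι u x).1 + i) (by omega), ← vc ((ι u x).2 + i) (by omega)]
      simp only [line, Matrix.of_apply, hι, Int.cast_add, ZMod.coe_valMinAbs, zsmul_eq_mul, mul_one]
      rw [mul_comm]
      congr 4 <;> ring
    rw [sum_congr rfl fun i hi => by rw [e i hi]]
    change _ = _ * DTr f g θ (ε (ι u x) j) (R (ι u x) j) N (ι u x)
    split_ifs with q
    · rw [abs_of_nonneg q, one_mul]
    · rw [abs_of_neg (not_le.1 q), neg_one_mul]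
  · rw [if_neg hz, if_neg hz, zero_mul]

theorem DT_fin {F : ℤ × ℤ → ℂ} (h : ∑' z, ‖F z‖ₑ ^ 3 ≠ ⊤) {f : ℤ × ℤ → ℝ}
    (hf : ∀ z, |f z| ≤ ‖F z‖) (T : Finset (ℤ × ℤ)) :
    ∑ z ∈ T, |f z| ^ 3 ≤ (∑' z, ‖F z‖ₑ ^ 3).toReal := by
  rw [← ENNReal.ofReal_le_iff_le_toReal h, ENNReal.ofReal_sum_of_nonneg fun _ _ => by positivity]
  refine le_trans (sum_le_sum fun z _ => ?_) (ENNReal.sum_le_tsum T)
  rw [← ofReal_norm, ← ENNReal.ofReal_pow (norm_nonneg _)]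
  exact ENNReal.ofReal_le_ofReal (pow_le_pow_left₀ (abs_nonneg _) (hf z) 3)

theorem DT_pow {x : ℝ} (hx : 0 ≤ x) : x ^ (3 / 2 : ℝ) = √x ^ 3 := by
  rw [Real.sqrt_eq_rpow, ← Real.rpow_natCast, ← Real.rpow_mul hx]
  norm_num

theorem DT : ∃ c : ℝ, 0 ≤ c ∧
    ∀ (n N : ℕ) (θ : ℝ), 1 ≤ n → 0 ≤ θ → θ < 1 → ∀ (F G : ℤ × ℤ → ℂ) (s : Finset (ℤ × ℤ))
      (m : ℤ × ℤ → ℕ) (ε R : (z : ℤ × ℤ) → Fin (m z) → ℝ), (∀ z, m z ≤ n) →
      (∀ z j, 1 ≤ ε z j ∧ ε z j < R z j ∧ R z j ≤ N) →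
      (∀ z i j, i ≠ j → R z i ≤ ε z j ∨ R z j ≤ ε z i) →
      ∑ z ∈ s, (∑ j, ‖dHT F G θ (ε z j) (R z j) N z‖ₑ) ^ (3 / 2 : ℝ) ≤
        ENNReal.ofReal ((c * √n) ^ (3 / 2 : ℝ)) *
          (∑' z, ‖F z‖ₑ ^ 3 + ∑' z, ‖G z‖ₑ ^ 3) := by
  obtain ⟨c, c0, h⟩ := DT_real
  refine ⟨8 * (c + 1), by positivity, fun n N θ hn θ0 θ1 F G s m ε R hm hε hd => ?_⟩
  have n0 : 0 < √(n : ℝ) := Real.sqrt_pos.2 (by exact_mod_cast hn)
  have k0 : 0 < 8 * (c + 1) * √n := by positivity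
  by_cases hT : ∑' z, ‖F z‖ₑ ^ 3 + ∑' z, ‖G z‖ₑ ^ 3 = ⊤
  · rw [hT, ENNReal.mul_top (by simpa using Real.rpow_pos_of_pos k0 _)]
    exact le_top
  obtain ⟨hF, hG⟩ := ENNReal.add_ne_top.1 hT
  set S : ℤ × ℤ → ℝ := fun z => ∑ j, ‖dHT F G θ (ε z j) (R z j) N z‖ with hS
  have S0 : ∀ z, 0 ≤ S z := fun z => sum_nonneg fun _ _ => norm_nonneg _
  have e : ∀ z, (∑ j, ‖dHT F G θ (ε z j) (R z j) N z‖ₑ) ^ (3 / 2 : ℝ) =
      ENNReal.ofReal (√(S z) ^ 3) := fun z => by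
    rw [← DT_pow (S0 z), ← ENNReal.ofReal_rpow_of_nonneg (S0 z) (by norm_num), hS,
      ENNReal.ofReal_sum_of_nonneg fun _ _ => norm_nonneg _]
    simp only [ofReal_norm]
  simp only [e]
  rw [← ENNReal.ofReal_sum_of_nonneg fun _ _ => by positivity, ← ENNReal.ofReal_toReal hT,
    ← ENNReal.ofReal_mul (by positivity), ENNReal.toReal_add hF hG, DT_pow k0.le]
  refine ENNReal.ofReal_le_ofReal ?_
  set t := √(8 * (c + 1) * √n) with ht
  have t0 : 0 < t := Real.sqrt_pos.2 k0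
  have t2 : t ^ 2 = 8 * (c + 1) * √n := Real.sq_sqrt k0.le
  have H := fun f g hf hg => h n N θ hn θ0 θ1 f g (fun z => √(S z) / t) _ _ s m ε R hm hε hd
    (DT_fin hF (f := f) hf) (DT_fin hG (f := g) hg)
  have H1 := H _ _ (fun z => Complex.abs_re_le_norm (F z)) fun z => Complex.abs_re_le_norm (G z)
  have H2 := H _ _ (fun z => Complex.abs_im_le_norm (F z)) fun z => Complex.abs_im_le_norm (G z)
  have H3 := H _ _ (fun z => Complex.abs_re_le_norm (F z)) fun z => Complex.abs_im_le_norm (G z)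
  have H4 := H _ _ (fun z => Complex.abs_im_le_norm (F z)) fun z => Complex.abs_re_le_norm (G z)
  have H5 := add_le_add (add_le_add (add_le_add H1 H2) H3) H4
  simp only [← sum_add_distrib, ← mul_add] at H5
  have H6 := (sum_le_sum fun z _ => mul_le_mul_of_nonneg_left
    (sum_le_sum fun j _ => DT_norm_le F G θ (ε z j) (R z j) N z) (by positivity)).trans H5
  have e1 : ∑ z ∈ s, √(S z) / t * ∑ j, ‖dHT F G θ (ε z j) (R z j) N z‖ =
      (∑ z ∈ s, √(S z) ^ 3) / t := by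
    rw [sum_div]
    refine sum_congr rfl fun z _ => ?_
    rw [pow_succ', Real.sq_sqrt (S0 z)]
    ring
  have e2 : ∑ z ∈ s, |√(S z) / t| ^ 3 = (∑ z ∈ s, √(S z) ^ 3) / t ^ 3 := by
    rw [sum_div]
    exact sum_congr rfl fun z _ => by rw [abs_of_nonneg (by positivity), div_pow]
  rw [e1, e2] at H6
  have X0 : 0 ≤ ∑ z ∈ s, √(S z) ^ 3 := sum_nonneg fun _ _ => by positivity
  have a0 : 0 ≤ (∑' z, ‖F z‖ₑ ^ 3).toReal + (∑' z, ‖G z‖ₑ ^ 3).toReal := by positivity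
  generalize ∑ z ∈ s, √(S z) ^ 3 = X at *
  generalize (∑' z, ‖F z‖ₑ ^ 3).toReal + (∑' z, ‖G z‖ₑ ^ 3).toReal = y at *
  have H7 := H6.trans (mul_le_mul_of_nonneg_right (show c * √n ≤ t ^ 2 / 8 by linarith)
    (by positivity))
  rw [div_le_iff₀ t0, show t ^ 2 / 8 * (y + X / t ^ 3 + (y + X / t ^ 3) + (y + X / t ^ 3) +
    (y + X / t ^ 3)) * t = t ^ 3 * y / 2 + X / 2 by field_simp; ring] at H7
  linarith

end Crest.Agent.R072
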