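import Crest.Agent.R072.Defs

/-! Row 72: dyadic tent partition of unity and the pieces of the kernel `cf m / m`. -/

set_option autoImplicit false

open Finset

namespace Crest.Agent.R072

noncomputable section

/-- Piecewise linear ramp from `0` at `2^j / 2` to `1` at `2^j`. -/
def ramp (j m : ℕ) : ℝ := max 0 (min 1 (2 * (m : ℝ) / 2 ^ j - 1))

/-- Tent partition of unity. -/
def chi (j m : ℕ) : ℝ := ramp j m - ramp (j + 1) m

/-- The full piece of the kernel. -/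
def y0 (j m : ℕ) : ℝ := chi j m / m

/-- Variation on `[2^j / 2, 2^j]`. -/
def Dv (cf : ℕ → ℝ) (j : ℕ) : ℝ := ∑ m ∈ Ico (2 ^ j / 2) (2 ^ j), |cf (m + 1) - cf m|

/-- Variation on `[2^j / 2, 2^(j+1)]`. -/
def Vv (cf : ℕ → ℝ) (j : ℕ) : ℝ := ∑ m ∈ Ico (2 ^ j / 2) (2 ^ (j + 1)), |cf (m + 1) - cf m|

/-- The partial piece of the kernel. -/
def yx (cf : ℕ → ℝ) (j m : ℕ) : ℝ := (cf m - cf (2 ^ j)) * y0 j m

lemma ramp_nonneg (j m : ℕ) : 0 ≤ ramp j m := le_max_left _ _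

lemma ramp_le_one (j m : ℕ) : ramp j m ≤ 1 := max_le zero_le_one (min_le_left _ _)

lemma ramp_eq_zero {j m : ℕ} (h : 2 * m ≤ 2 ^ j) : ramp j m = 0 := by
  have h1 : (2 * (m : ℝ)) ≤ 2 ^ j := by exact_mod_cast h
  have h2 : 2 * (m : ℝ) / 2 ^ j ≤ 1 := by rw [div_le_one (by positivity)]; exact h1
  exact max_eq_left (le_trans (min_le_right _ _) (by linarith))

lemma ramp_eq_one {j m : ℕ} (h : 2 ^ j ≤ m) : ramp j m = 1 := by
  have h1 : (2 : ℝ) ^ j ≤ m := by exact_mod_cast h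
  have h2 : 2 ≤ 2 * (m : ℝ) / 2 ^ j := by rw [le_div_iff₀ (by positivity)]; linarith
  unfold ramp
  rw [min_eq_left (by linarith), max_eq_right zero_le_one]

lemma ramp_lip (j m : ℕ) : |ramp j (m + 1) - ramp j m| ≤ 2 / 2 ^ j := by
  unfold ramp
  refine (abs_max_sub_max_le_max _ _ _ _).trans ?_
  rw [sub_self, abs_zero]
  refine max_le (by positivity) ((abs_min_sub_min_le_max _ _ _ _).trans ?_)
  rw [sub_self, abs_zero]
  refine max_le (by positivity) (le_of_eq ?_)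
  rw [abs_of_nonneg]
  · push_cast; ring
  · have : (2 * (((m + 1 : ℕ) : ℝ)) / 2 ^ j - 1 - (2 * (m : ℝ) / 2 ^ j - 1)) = 2 / 2 ^ j := by
      push_cast; ring
    rw [this]; positivity

lemma abs_chi_le (j m : ℕ) : |chi j m| ≤ 1 := by
  have := ramp_nonneg j m; have := ramp_le_one j m
  have := ramp_nonneg (j + 1) m; have := ramp_le_one (j + 1) m
  unfold chi; rw [abs_le]; constructor <;> linarith

lemma chi_eq_zero_of_le {j m : ℕ} (h : 2 * m ≤ 2 ^ j) : chi j m = 0 := by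
  unfold chi
  rw [ramp_eq_zero h, ramp_eq_zero (h.trans (Nat.pow_le_pow_right (by norm_num) (by omega))),
    sub_self]

lemma chi_eq_zero_of_ge {j m : ℕ} (h : 2 ^ (j + 1) ≤ m) : chi j m = 0 := by
  unfold chi
  rw [ramp_eq_one h, ramp_eq_one ((Nat.pow_le_pow_right (by norm_num) (by omega)).trans h),
    sub_self]

lemma chi_lip (j m : ℕ) : |chi j (m + 1) - chi j m| ≤ 3 / 2 ^ j := by
  have h1 := ramp_lip j m
  have h2 := ramp_lip (j + 1) m
  have h3 : (2 : ℝ) / 2 ^ (j + 1) = 1 / 2 ^ j := by rw [pow_succ]; field_simp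
  have h4 : (3 : ℝ) / 2 ^ j = 2 / 2 ^ j + 1 / 2 ^ j := by ring
  rw [h3] at h2
  unfold chi
  rw [abs_le] at *
  constructor <;> linarith [h1.1, h1.2, h2.1, h2.2]

lemma sum_chi {J m : ℕ} (h1 : 1 ≤ m) (h2 : 2 * m ≤ 2 ^ J) : ∑ j ∈ range J, chi j m = 1 := by
  have := Finset.sum_range_sub' (fun j => ramp j m) J
  unfold chi
  rw [this, ramp_eq_zero h2, ramp_eq_one (by simpa using h1), sub_zero]

lemma y0_zero (j : ℕ) : y0 j 0 = 0 := by simp [y0]

lemma y0_eq_zero_of_ge {j m : ℕ} (h : 2 ^ (j + 1) ≤ m) : y0 j m = 0 := by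
  simp [y0, chi_eq_zero_of_ge h]

lemma y0_eq_zero_of_le {j m : ℕ} (h : 2 * m ≤ 2 ^ j) : y0 j m = 0 := by
  simp [y0, chi_eq_zero_of_le h]

lemma mul_abs_y0_le (j m : ℕ) : (m : ℝ) * |y0 j m| ≤ 1 := by
  rcases Nat.eq_zero_or_pos m with rfl | hm
  · simp
  · have : (0 : ℝ) < m := by exact_mod_cast hm
    unfold y0
    rw [abs_div, abs_of_pos this, mul_div_cancel₀ _ this.ne']
    exact abs_chi_le j m

lemma abs_y0_le (j m : ℕ) : |y0 j m| ≤ 2 / 2 ^ j := by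
  by_cases h : 2 * m ≤ 2 ^ j
  · rw [y0_eq_zero_of_le h, abs_zero]; positivity
  · have h1 : (2 : ℝ) ^ j < 2 * m := by exact_mod_cast not_le.mp h
    have h2 := mul_abs_y0_le j m
    rw [le_div_iff₀ (by positivity)]
    nlinarith [abs_nonneg (y0 j m)]

lemma y0_lip (j m : ℕ) : |y0 j (m + 1) - y0 j m| ≤ 10 / 4 ^ j := by
  have hp : (0 : ℝ) < 2 ^ j := by positivity
  have h4 : (4 : ℝ) ^ j = 2 ^ j * 2 ^ j := by rw [← mul_pow]; norm_num
  by_cases h : 2 * (m + 1) ≤ 2 ^ j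
  · rw [y0_eq_zero_of_le h, y0_eq_zero_of_le (by omega), sub_self, abs_zero]; positivity
  have h1 : (2 : ℝ) ^ j < 2 * (m + 1) := by exact_mod_cast not_le.mp h
  have hm : (0 : ℝ) < m + 1 := by positivity
  have e : y0 j (m + 1) - y0 j m = ((chi j (m + 1) - chi j m) - y0 j m) / (m + 1) := by
    rcases Nat.eq_zero_or_pos m with rfl | hm0
    · simp [y0, chi_eq_zero_of_le (j := j) (m := 0) (by simp)]
    · have : (m : ℝ) ≠ 0 := by exact_mod_cast hm0.ne'
      unfold y0; push_cast; field_simp; ring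
  rw [e, abs_div, abs_of_pos hm, div_le_div_iff₀ hm (by positivity), h4]
  have h2 : |chi j (m + 1) - chi j m - y0 j m| ≤ 5 / 2 ^ j := by
    have := abs_sub (chi j (m + 1) - chi j m) (y0 j m)
    have h5 : (5 : ℝ) / 2 ^ j = 3 / 2 ^ j + 2 / 2 ^ j := by ring
    linarith [chi_lip j m, abs_y0_le j m]
  rw [le_div_iff₀ hp] at h2
  nlinarith [abs_nonneg (chi j (m + 1) - chi j m - y0 j m)]

lemma sum_mul_abs_y0_le (j : ℕ) : ∑ m ∈ range (2 ^ (j + 1)), (m : ℝ) * |y0 j m| ≤ 2 ^ (j + 1) := by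
  refine (Finset.sum_le_sum fun m _ => mul_abs_y0_le j m).trans ?_
  simp

/-- Variation between two points. -/
lemma abs_sub_le_var (cf : ℕ → ℝ) {a b : ℕ} (h : a ≤ b) :
    |cf b - cf a| ≤ ∑ m ∈ Ico a b, |cf (m + 1) - cf m| := by
  rw [← Finset.sum_Ico_sub cf h]
  exact Finset.abs_sum_le_sum_abs _ _

lemma var_le {cf : ℕ → ℝ} {S : ℕ} {ν : ℝ} (h0 : ∀ m, S ≤ m → cf m = 0)
    (h : ∑ m ∈ range S, |cf (m + 1) - cf m| ≤ ν) (s : Finset ℕ) :
    ∑ m ∈ s, |cf (m + 1) - cf m| ≤ ν := by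
  refine le_trans ?_ h
  rw [← Finset.sum_filter_add_sum_filter_not s (fun m => m < S)]
  have : ∑ m ∈ s.filter (fun m => ¬ m < S), |cf (m + 1) - cf m| = 0 := by
    refine Finset.sum_eq_zero fun m hm => ?_
    have := (Finset.mem_filter.mp hm).2
    rw [h0 m (by omega), h0 (m + 1) (by omega), sub_self, abs_zero]
  rw [this, add_zero]
  refine Finset.sum_le_sum_of_subset_of_nonneg (fun m hm => ?_) fun _ _ _ => abs_nonneg _
  simpa using (Finset.mem_filter.mp hm).2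

lemma var_mono (cf : ℕ → ℝ) {φ : ℕ → ℕ} (hφ : Monotone φ) (K : ℕ) :
    ∑ k ∈ range K, |cf (φ (k + 1)) - cf (φ k)| ≤ ∑ m ∈ Ico (φ 0) (φ K), |cf (m + 1) - cf m| := by
  induction K with
  | zero => simp
  | succ K ih =>
    rw [Finset.sum_range_succ,
      ← Finset.sum_Ico_consecutive _ (hφ (Nat.zero_le K)) (hφ (Nat.le_succ K))]
    exact add_le_add ih (abs_sub_le_var cf (hφ (Nat.le_succ K)))

lemma Vv_nonneg (cf : ℕ → ℝ) (j : ℕ) : 0 ≤ Vv cf j := Finset.sum_nonneg fun _ _ => abs_nonneg _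

lemma Vv_eq (cf : ℕ → ℝ) (j : ℕ) : Vv cf j = Dv cf j + Dv cf (j + 1) := by
  unfold Vv Dv
  have e : 2 ^ (j + 1) / 2 = 2 ^ j := by rw [pow_succ]; omega
  rw [e, Finset.sum_Ico_consecutive _ (Nat.div_le_self _ _)
    (Nat.pow_le_pow_right (by norm_num) (by omega))]

lemma sum_Dv (cf : ℕ → ℝ) (J : ℕ) :
    ∑ j ∈ range J, Dv cf j = ∑ m ∈ range (2 ^ J / 2), |cf (m + 1) - cf m| := by
  induction J with
  | zero => simp
  | succ J ih =>
    have e : 2 ^ (J + 1) / 2 = 2 ^ J := by rw [pow_succ]; omega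
    rw [Finset.sum_range_succ, ih, e, Dv, Finset.sum_range_add_sum_Ico _ (Nat.div_le_self _ _)]

lemma sum_Vv_le {cf : ℕ → ℝ} {S : ℕ} {ν : ℝ} (h0 : ∀ m, S ≤ m → cf m = 0)
    (h : ∑ m ∈ range S, |cf (m + 1) - cf m| ≤ ν) (J : ℕ) : ∑ j ∈ range J, Vv cf j ≤ 2 * ν := by
  simp only [Vv_eq, Finset.sum_add_distrib]
  have h1 := var_le h0 h (range (2 ^ J / 2))
  have h2 := var_le h0 h (range (2 ^ (J + 1) / 2))
  rw [← sum_Dv] at h1 h2
  rw [Finset.sum_range_succ'] at h2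
  have : 0 ≤ Dv cf 0 := Finset.sum_nonneg fun _ _ => abs_nonneg _
  linarith

lemma abs_sub_le_Vv (cf : ℕ → ℝ) {j m : ℕ} (h1 : 2 ^ j / 2 ≤ m) (h2 : m ≤ 2 ^ (j + 1)) :
    |cf m - cf (2 ^ j)| ≤ Vv cf j := by
  have h3 : 2 ^ j ≤ 2 ^ (j + 1) := Nat.pow_le_pow_right (by norm_num) (by omega)
  rcases le_total m (2 ^ j) with h | h
  · rw [abs_sub_comm]
    refine (abs_sub_le_var cf h).trans ?_
    exact Finset.sum_le_sum_of_subset_of_nonneg (Finset.Ico_subset_Ico h1 h3)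
      fun _ _ _ => abs_nonneg _
  · refine (abs_sub_le_var cf h).trans ?_
    exact Finset.sum_le_sum_of_subset_of_nonneg (Finset.Ico_subset_Ico (Nat.div_le_self _ _) h2)
      fun _ _ _ => abs_nonneg _

lemma yx_zero (cf : ℕ → ℝ) (j : ℕ) : yx cf j 0 = 0 := by simp [yx, y0_zero]

lemma yx_eq_zero_of_ge (cf : ℕ → ℝ) {j m : ℕ} (h : 2 ^ (j + 1) ≤ m) : yx cf j m = 0 := by
  simp [yx, y0_eq_zero_of_ge h]

lemma abs_yx_le_mul {cf : ℕ → ℝ} (h1 : ∀ m, |cf m| ≤ 1) (j m : ℕ) :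
    |yx cf j m| ≤ min 2 (Vv cf j) * |y0 j m| := by
  unfold yx
  rw [abs_mul]
  by_cases ha : 2 * m ≤ 2 ^ j
  · simp [y0_eq_zero_of_le ha]
  by_cases hb : 2 ^ (j + 1) ≤ m
  · simp [y0_eq_zero_of_ge hb]
  refine mul_le_mul_of_nonneg_right (le_min ?_ (abs_sub_le_Vv cf (by omega) (by omega)))
    (abs_nonneg _)
  have := abs_sub (cf m) (cf (2 ^ j))
  linarith [h1 m, h1 (2 ^ j)]

lemma abs_yx_le {cf : ℕ → ℝ} (h1 : ∀ m, |cf m| ≤ 1) (j m : ℕ) :
    |yx cf j m| ≤ min 2 (Vv cf j) * (2 / 2 ^ j) :=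
  (abs_yx_le_mul h1 j m).trans (mul_le_mul_of_nonneg_left (abs_y0_le j m)
    (le_min (by norm_num) (Vv_nonneg cf j)))

lemma sum_mul_abs_yx_le {cf : ℕ → ℝ} (h1 : ∀ m, |cf m| ≤ 1) (j : ℕ) :
    ∑ m ∈ range (2 ^ (j + 1)), (m : ℝ) * |yx cf j m| ≤ min 2 (Vv cf j) * 2 ^ (j + 1) := by
  have h0 : 0 ≤ min 2 (Vv cf j) := le_min (by norm_num) (Vv_nonneg cf j)
  refine le_trans ?_ (mul_le_mul_of_nonneg_left (sum_mul_abs_y0_le j) h0)
  rw [Finset.mul_sum]
  refine Finset.sum_le_sum fun m _ => ?_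
  have := mul_le_mul_of_nonneg_left (abs_yx_le_mul h1 j m) (Nat.cast_nonneg (α := ℝ) m)
  linarith

lemma yx_tv (cf : ℕ → ℝ) (j : ℕ) :
    ∑ m ∈ range (2 ^ (j + 1)), |yx cf j (m + 1) - yx cf j m| ≤ 22 * Vv cf j / 2 ^ j := by
  have hV := Vv_nonneg cf j
  have key : ∀ m ∈ range (2 ^ (j + 1)), |yx cf j (m + 1) - yx cf j m| ≤
      (if m ∈ Ico (2 ^ j / 2) (2 ^ (j + 1)) then |cf (m + 1) - cf m| else 0) * (2 / 2 ^ j) +
        Vv cf j * (10 / 4 ^ j) := by
    intro m hm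
    have hm' := Finset.mem_range.mp hm
    by_cases h : 2 ^ j / 2 ≤ m
    · rw [if_pos (Finset.mem_Ico.mpr ⟨h, hm'⟩)]
      have e : yx cf j (m + 1) - yx cf j m = (cf (m + 1) - cf m) * y0 j (m + 1) +
          (cf m - cf (2 ^ j)) * (y0 j (m + 1) - y0 j m) := by unfold yx; ring
      rw [e]
      refine (abs_add_le _ _).trans (add_le_add ?_ ?_)
      · rw [abs_mul]; exact mul_le_mul_of_nonneg_left (abs_y0_le _ _) (abs_nonneg _)
      · rw [abs_mul]
        exact mul_le_mul (abs_sub_le_Vv cf h hm'.le) (y0_lip j m) (abs_nonneg _) hV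
    · have h2 : 2 * (m + 1) ≤ 2 ^ j := by omega
      unfold yx
      rw [y0_eq_zero_of_le h2, y0_eq_zero_of_le (by omega)]
      simp only [mul_zero, sub_self, abs_zero]
      have : 0 ≤ (if m ∈ Ico (2 ^ j / 2) (2 ^ (j + 1)) then |cf (m + 1) - cf m| else 0) := by
        split_ifs
        · exact abs_nonneg _
        · exact le_rfl
      positivity
  refine (Finset.sum_le_sum key).trans ?_
  rw [Finset.sum_add_distrib, ← Finset.sum_mul, Finset.sum_ite_mem, Finset.sum_const,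
    Finset.card_range, nsmul_eq_mul]
  have h1 : ∑ m ∈ range (2 ^ (j + 1)) ∩ Ico (2 ^ j / 2) (2 ^ (j + 1)), |cf (m + 1) - cf m| ≤
      Vv cf j :=
    Finset.sum_le_sum_of_subset_of_nonneg Finset.inter_subset_right fun _ _ _ => abs_nonneg _
  have h4 : (4 : ℝ) ^ j = 2 ^ j * 2 ^ j := by rw [← mul_pow]; norm_num
  have h5 : ((2 ^ (j + 1) : ℕ) : ℝ) * (Vv cf j * (10 / 4 ^ j)) = 20 * Vv cf j / 2 ^ j := by
    rw [h4]; push_cast; rw [pow_succ]; field_simp; ring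
  have h6 := mul_le_mul_of_nonneg_right h1 (show (0 : ℝ) ≤ 2 / 2 ^ j by positivity)
  have h7 : 22 * Vv cf j / 2 ^ j = Vv cf j * (2 / 2 ^ j) + 20 * Vv cf j / 2 ^ j := by ring
  rw [h5, h7]
  linarith

lemma odd_eq_of_le {S S' : ℕ} (h : S ≤ S') {y : ℕ → ℝ} (h0 : ∀ m, S ≤ m → y m = 0) (f : ℤ → ℝ) :
    odd S y f = odd S' y f := by
  unfold odd
  refine Finset.sum_subset (Finset.range_mono h) fun m _ hm => ?_
  rw [h0 m (by simpa using hm), zero_mul]

/-- Decomposition of the kernel into pieces. -/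
lemma odd_decomp {cf : ℕ → ℝ} {S J : ℕ} (h0 : ∀ m, S ≤ m → cf m = 0) (hJ : 2 * S ≤ 2 ^ J)
    (f : ℤ → ℝ) :
    odd S (fun m => cf m / m) f = ∑ j ∈ range J,
      (cf (2 ^ j) * odd (2 ^ (j + 1)) (y0 j) f + odd (2 ^ (j + 1)) (yx cf j) f) := by
  have e1 : ∀ j ∈ range J, cf (2 ^ j) * odd (2 ^ (j + 1)) (y0 j) f + odd (2 ^ (j + 1)) (yx cf j) f =
      ∑ m ∈ range (2 ^ J), cf m * y0 j m * (f m - f (-(m : ℤ))) := by
    intro j hj
    have hj' : 2 ^ (j + 1) ≤ 2 ^ J :=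
      Nat.pow_le_pow_right (by norm_num) (Finset.mem_range.mp hj)
    rw [odd_eq_of_le hj' (fun m hm => y0_eq_zero_of_ge hm),
      odd_eq_of_le hj' (fun m hm => yx_eq_zero_of_ge cf hm)]
    unfold odd yx
    rw [Finset.mul_sum, ← Finset.sum_add_distrib]
    exact Finset.sum_congr rfl fun m _ => by ring
  rw [Finset.sum_congr rfl e1, Finset.sum_comm,
    odd_eq_of_le (S' := 2 ^ J) (by omega) (fun m hm => by simp [h0 m hm])]
  unfold odd
  refine Finset.sum_congr rfl fun m _ => ?_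
  rw [← Finset.sum_mul, ← Finset.mul_sum]
  congr 1
  rcases Nat.eq_zero_or_pos m with rfl | hm
  · simp [y0_zero]
  by_cases hS : S ≤ m
  · simp [h0 m hS]
  unfold y0
  rw [← Finset.sum_div, sum_chi hm (by omega), mul_one_div]

/-- Splitting a double sum along diagonals. -/
lemma sum_diag (J K : ℕ) (g : ℕ → ℕ → ℝ) :
    ∑ j ∈ range J, ∑ k ∈ range K, g j k =
      ∑ i ∈ range J, ∑ k ∈ range K, (if k + i < J then g (k + i) k else 0) +
        ∑ i ∈ range K, ∑ k ∈ range K,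
          (if i + 1 ≤ k ∧ k - (i + 1) < J then g (k - (i + 1)) k else 0) := by
  rw [Finset.sum_comm, Finset.sum_comm (s := range J), Finset.sum_comm (s := range K) (t := range K),
    ← Finset.sum_add_distrib]
  refine Finset.sum_congr rfl fun k hk => ?_
  have hk' := Finset.mem_range.mp hk
  rw [← Finset.sum_filter, ← Finset.sum_filter,
    ← Finset.sum_filter_add_sum_filter_not (range J) (fun j => k ≤ j)]
  congr 1
  · refine Finset.sum_nbij' (fun j => j - k) (fun i => k + i) ?_ ?_ ?_ ?_ ?_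
    · intro j hj; simp only [Finset.mem_filter, Finset.mem_range] at hj ⊢; omega
    · intro i hi; simp only [Finset.mem_filter, Finset.mem_range] at hi ⊢; omega
    · intro j hj; simp only [Finset.mem_filter, Finset.mem_range] at hj ⊢; omega
    · intro i _; omega
    · intro j hj; simp only [Finset.mem_filter, Finset.mem_range] at hj
      rw [show k + (j - k) = j by omega]
  · refine Finset.sum_nbij' (fun j => k - j - 1) (fun i => k - (i + 1)) ?_ ?_ ?_ ?_ ?_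
    · intro j hj; simp only [Finset.mem_filter, Finset.mem_range] at hj ⊢; omega
    · intro i hi; simp only [Finset.mem_filter, Finset.mem_range] at hi ⊢; omega
    · intro j hj; simp only [Finset.mem_filter, Finset.mem_range] at hj ⊢; omega
    · intro i hi; simp only [Finset.mem_filter, Finset.mem_range] at hi ⊢; omega
    · intro j hj; simp only [Finset.mem_filter, Finset.mem_range] at hj
      rw [show k - (k - j - 1 + 1) = j by omega]

lemma sum_geo_le : ∃ c : ℝ, 0 ≤ c ∧ ∀ n : ℕ,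
    ∑ i ∈ range n, ((i : ℝ) + 5) * (10 / 11 : ℝ) ^ i ≤ c := by
  have h1 : Summable fun i : ℕ => ((i : ℝ) + 5) * (10 / 11 : ℝ) ^ i := by
    have a := summable_pow_mul_geometric_of_norm_lt_one (R := ℝ) 1 (r := 10 / 11)
      (by rw [Real.norm_eq_abs, abs_of_pos] <;> norm_num)
    have b := (summable_geometric_of_lt_one (r := 10 / 11) (by norm_num) (by norm_num)).mul_left 5
    refine (a.add b).congr fun i => by ring
  exact ⟨_, tsum_nonneg fun i => by positivity,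
    fun n => h1.sum_le_tsum _ fun i _ => by positivity⟩

end

end Crest.Agent.R072
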