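import Crest.Agent.R072.Basic

/-! Row 72: the trivial bound for error kernels, and the error `sig0`. -/

set_option autoImplicit false

open Matrix Finset

namespace Crest.Agent.R072

lemma triv_amgm {a b c om : ℝ} (ha : 0 ≤ a) (hb : 0 ≤ b) (hc : 0 ≤ c) (hom : 0 < om) :
    a * b * c ≤ (om ^ 2 * a ^ 3 + b ^ 3 / om + c ^ 3 / om) / 3 := by
  obtain ⟨u, hu, rfl⟩ : ∃ u : ℝ, 0 < u ∧ u ^ 3 = om :=
    ⟨om ^ ((3 : ℕ) : ℝ)⁻¹, Real.rpow_pos_of_pos hom _,
      Real.rpow_inv_natCast_pow hom.le (by norm_num)⟩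
  have key : ∀ x y z : ℝ, 0 ≤ x → 0 ≤ y → 0 ≤ z → x * y * z ≤ (x ^ 3 + y ^ 3 + z ^ 3) / 3 := by
    intro x y z hx hy hz
    have h1 : 0 ≤ (x + y + z) * ((x - y) ^ 2 + (y - z) ^ 2 + (z - x) ^ 2) := by positivity
    nlinarith [h1]
  have h := key (u ^ 2 * a) (b / u) (c / u) (by positivity) (by positivity) (by positivity)
  have e1 : u ^ 2 * a * (b / u) * (c / u) = a * b * c := by field_simp
  have e2 : ((u ^ 2 * a) ^ 3 + (b / u) ^ 3 + (c / u) ^ 3) / 3 =
      ((u ^ 3) ^ 2 * a ^ 3 + b ^ 3 / u ^ 3 + c ^ 3 / u ^ 3) / 3 := by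
    field_simp
  rw [e1, e2] at h
  exact h

lemma triv_summable :
    Summable (fun n : ℤ => 1 / ((1 + |(n : ℝ)|) * √(1 + |(n : ℝ)|))) := by
  have h0 : Summable (fun n : ℕ => 1 / ((1 + (n : ℝ)) * √(1 + (n : ℝ)))) := by
    have h1 : Summable (fun n : ℕ => ((n : ℝ) ^ ((3 : ℝ) / 2))⁻¹) :=
      Real.summable_nat_rpow_inv.2 (by norm_num)
    have h2 := (summable_nat_add_iff 1).2 h1
    refine h2.congr fun n => ?_
    have hp : (0 : ℝ) < 1 + n := by positivity
    have e : ((n + 1 : ℕ) : ℝ) = 1 + n := by push_cast; ring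
    rw [e, one_div, Real.sqrt_eq_rpow, show (3 : ℝ) / 2 = 1 + 1 / 2 by norm_num,
      Real.rpow_add hp, Real.rpow_one]
  refine Summable.of_nat_of_neg ?_ ?_
  · refine h0.congr fun n => ?_
    simp
  · refine h0.congr fun n => ?_
    simp

theorem triv : ∃ c : ℝ, 0 ≤ c ∧
    ∀ (G : Type) [Fintype G] [DecidableEq G] [AddCommGroup G] (e : G) (A B C : Matrix G G ℝ)
      (R : Finset ℤ) (w : G → G → ℤ → ℝ) (ν : ℝ), 1 ≤ ν →
      (∀ x2 x0, ∑ n ∈ R, ((1 + |(n : ℝ)|) * |w x2 x0 n|) ^ 3 ≤ ν) →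
      |∑ x2, ∑ x0, C x2 x0 * ∑ n ∈ R, w x2 x0 n * line e A B x0 x2 n| ≤
        c * √ν * (n3 A + n3 B + n3 C) := by
  set g : ℤ → ℝ := fun n => 1 / ((1 + |(n : ℝ)|) * √(1 + |(n : ℝ)|)) with hg
  have hg0 : ∀ n, 0 ≤ g n := fun n => by simp only [hg]; positivity
  set K : ℝ := ∑' n, g n with hK
  have hK0 : 0 ≤ K := tsum_nonneg hg0
  refine ⟨1 + K, by linarith, ?_⟩
  intro G _ _ _ e A B C R w ν hν hw
  have hν0 : 0 < ν := by linarith
  have hs : 1 ≤ √ν := by
    rw [show (1 : ℝ) = √1 by simp]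
    exact Real.sqrt_le_sqrt hν
  have hs0 : 0 < √ν := by linarith
  have hRK : ∑ n ∈ R, g n ≤ K := triv_summable.sum_le_tsum R fun n _ => hg0 n
  have hA0 : 0 ≤ n3 A := by unfold n3; positivity
  have hB0 : 0 ≤ n3 B := by unfold n3; positivity
  have hC0 : 0 ≤ n3 C := by unfold n3; positivity
  -- pointwise bound
  have pt : ∀ x2 x0 n, |C x2 x0 * (w x2 x0 n * line e A B x0 x2 n)| ≤
      |C x2 x0| ^ 3 * (((1 + |(n : ℝ)|) * |w x2 x0 n|) ^ 3 / ν) +
        √ν * g n * |A x0 (n • e - x0 - x2)| ^ 3 + √ν * g n * |B (n • e - x0 - x2) x2| ^ 3 := by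
    intro x2 x0 n
    have hp : (0 : ℝ) < 1 + |(n : ℝ)| := by positivity
    have hq : 0 < √(1 + |(n : ℝ)|) := Real.sqrt_pos.2 hp
    have hom : 0 < (1 + |(n : ℝ)|) * √(1 + |(n : ℝ)|) / √ν := by positivity
    have h := triv_amgm (a := |C x2 x0| * |w x2 x0 n|) (b := |A x0 (n • e - x0 - x2)|)
      (c := |B (n • e - x0 - x2) x2|) (by positivity) (abs_nonneg _) (abs_nonneg _) hom
    have e1 : |C x2 x0 * (w x2 x0 n * line e A B x0 x2 n)| =
        |C x2 x0| * |w x2 x0 n| * |A x0 (n • e - x0 - x2)| * |B (n • e - x0 - x2) x2| := by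
      simp only [line, abs_mul]; ring
    have e2 : ((1 + |(n : ℝ)|) * √(1 + |(n : ℝ)|) / √ν) ^ 2 * (|C x2 x0| * |w x2 x0 n|) ^ 3 =
        |C x2 x0| ^ 3 * (((1 + |(n : ℝ)|) * |w x2 x0 n|) ^ 3 / ν) := by
      rw [div_pow, mul_pow, Real.sq_sqrt hp.le, Real.sq_sqrt hν0.le]
      field_simp
    have e3 : ∀ t : ℝ, t / ((1 + |(n : ℝ)|) * √(1 + |(n : ℝ)|) / √ν) = √ν * g n * t := by
      intro t
      simp only [hg]
      field_simp
    rw [e2, e3, e3] at h
    rw [e1]
    have t1 : 0 ≤ |C x2 x0| ^ 3 * (((1 + |(n : ℝ)|) * |w x2 x0 n|) ^ 3 / ν) := by positivity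
    have t2 : 0 ≤ √ν * g n * |A x0 (n • e - x0 - x2)| ^ 3 := by
      have := hg0 n; positivity
    have t3 : 0 ≤ √ν * g n * |B (n • e - x0 - x2) x2| ^ 3 := by
      have := hg0 n; positivity
    linarith
  have sA : ∀ y : G, ∑ x2, ∑ x0, |A x0 (y - x0 - x2)| ^ 3 = n3 A := by
    intro y
    rw [Finset.sum_comm]
    unfold n3
    refine Finset.sum_congr rfl fun x0 _ => ?_
    exact (Equiv.subLeft (y - x0)).sum_comp (fun x => |A x0 x| ^ 3)
  have sB : ∀ y : G, ∑ x2, ∑ x0, |B (y - x0 - x2) x2| ^ 3 = n3 B := by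
    intro y
    unfold n3
    rw [Finset.sum_comm (f := fun a x => |B a x| ^ 3)]
    refine Finset.sum_congr rfl fun x2 _ => ?_
    have := (Equiv.subLeft (y - x2)).sum_comp (fun x => |B x x2| ^ 3)
    rw [← this]
    refine Finset.sum_congr rfl fun x0 _ => ?_
    simp only [Equiv.subLeft_apply]
    rw [sub_right_comm]
  calc |∑ x2, ∑ x0, C x2 x0 * ∑ n ∈ R, w x2 x0 n * line e A B x0 x2 n|
      ≤ ∑ x2, ∑ x0, ∑ n ∈ R, |C x2 x0 * (w x2 x0 n * line e A B x0 x2 n)| := by
        refine (Finset.abs_sum_le_sum_abs _ _).trans (Finset.sum_le_sum fun x2 _ => ?_)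
        refine (Finset.abs_sum_le_sum_abs _ _).trans (Finset.sum_le_sum fun x0 _ => ?_)
        rw [Finset.mul_sum]
        exact Finset.abs_sum_le_sum_abs _ _
    _ ≤ ∑ x2, ∑ x0, ∑ n ∈ R, (|C x2 x0| ^ 3 * (((1 + |(n : ℝ)|) * |w x2 x0 n|) ^ 3 / ν) +
        √ν * g n * |A x0 (n • e - x0 - x2)| ^ 3 + √ν * g n * |B (n • e - x0 - x2) x2| ^ 3) :=
        Finset.sum_le_sum fun x2 _ => Finset.sum_le_sum fun x0 _ =>
          Finset.sum_le_sum fun n _ => pt x2 x0 n
    _ = (∑ x2, ∑ x0, |C x2 x0| ^ 3 * ((∑ n ∈ R, ((1 + |(n : ℝ)|) * |w x2 x0 n|) ^ 3) / ν)) +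
        √ν * (∑ n ∈ R, g n) * n3 A + √ν * (∑ n ∈ R, g n) * n3 B := by
        simp only [Finset.sum_add_distrib]
        congr 1
        congr 1
        · refine Finset.sum_congr rfl fun x2 _ => Finset.sum_congr rfl fun x0 _ => ?_
          rw [Finset.sum_div, Finset.mul_sum]
        · rw [Finset.mul_sum, Finset.sum_mul]
          simp_rw [Finset.sum_comm (s := (univ : Finset G)) (t := R)]
          refine Finset.sum_congr rfl fun n _ => ?_
          rw [← sA (n • e), Finset.mul_sum]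
          refine Finset.sum_congr rfl fun x2 _ => ?_
          rw [Finset.mul_sum]
        · rw [Finset.mul_sum, Finset.sum_mul]
          simp_rw [Finset.sum_comm (s := (univ : Finset G)) (t := R)]
          refine Finset.sum_congr rfl fun n _ => ?_
          rw [← sB (n • e), Finset.mul_sum]
          refine Finset.sum_congr rfl fun x2 _ => ?_
          rw [Finset.mul_sum]
    _ ≤ n3 C + √ν * K * n3 A + √ν * K * n3 B := by
        gcongr
        unfold n3
        refine Finset.sum_le_sum fun x2 _ => Finset.sum_le_sum fun x0 _ => ?_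
        have h1 : (∑ n ∈ R, ((1 + |(n : ℝ)|) * |w x2 x0 n|) ^ 3) / ν ≤ 1 :=
          (div_le_one hν0).2 (hw x2 x0)
        have h2 : 0 ≤ |C x2 x0| ^ 3 := by positivity
        nlinarith
    _ ≤ (1 + K) * √ν * (n3 A + n3 B + n3 C) := by
        have t1 : n3 C ≤ √ν * n3 C := by nlinarith
        have t2 : 0 ≤ √ν * n3 A := by positivity
        have t3 : 0 ≤ √ν * n3 B := by positivity
        have t4 : 0 ≤ K * √ν * n3 C := by positivity
        nlinarith

lemma triv_sum_Icc (h : ℤ → ℝ) (S : ℕ) :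
    ∑ n ∈ Finset.Icc (-(S : ℤ)) S, h n = ∑ m ∈ range (S + 1), (h m + h (-(m : ℤ))) - h 0 := by
  induction S with
  | zero => simp
  | succ S ih =>
    have e : Finset.Icc (-((S + 1 : ℕ) : ℤ)) ((S + 1 : ℕ) : ℤ) =
        insert ((S + 1 : ℕ) : ℤ) (insert (-((S + 1 : ℕ) : ℤ)) (Finset.Icc (-(S : ℤ)) S)) := by
      ext n
      simp only [Finset.mem_Icc, Finset.mem_insert]
      push_cast
      omega
    rw [e, Finset.sum_insert, Finset.sum_insert, ih, Finset.sum_range_succ _ (S + 1)]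
    · ring
    · simp only [Finset.mem_Icc]; push_cast; omega
    · simp only [Finset.mem_Icc, Finset.mem_insert]; push_cast; omega

lemma triv_shift (g : ℤ → ℝ) (T : Finset ℤ) (a : ℤ) (h1 : ∀ n, g n ≠ 0 → n ∈ T)
    (h2 : ∀ n, g (n + a) ≠ 0 → n ∈ T) : ∑ n ∈ T, g n = ∑ n ∈ T, g (n + a) := by
  rw [← finsum_eq_sum_of_support_subset g (fun n hn => by simpa using h1 n hn),
    ← finsum_eq_sum_of_support_subset (fun n => g (n + a)) (fun n hn => by simpa using h2 n hn)]
  exact (finsum_comp_equiv (Equiv.addRight a) (f := g)).symm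

lemma triv_inv_sq (N : ℕ) : ∑ m ∈ range N, 1 / ((m : ℝ) + 1) ^ 2 ≤ 2 := by
  have : ∀ N : ℕ, ∑ m ∈ range N, 1 / ((m : ℝ) + 1) ^ 2 ≤ 2 - 1 / ((N : ℝ) + 1 / 2) := by
    intro N
    induction N with
    | zero => simp
    | succ N ih =>
      rw [Finset.sum_range_succ]
      have hN : (0 : ℝ) ≤ N := Nat.cast_nonneg N
      have : 1 / ((N : ℝ) + 1) ^ 2 ≤ 1 / ((N : ℝ) + 1 / 2) - 1 / (((N + 1 : ℕ) : ℝ) + 1 / 2) := by
        push_cast
        rw [div_sub_div _ _ (by positivity) (by positivity), div_le_div_iff₀ (by positivity)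
          (by positivity)]
        nlinarith
      linarith
  have h := this N
  have : 0 ≤ 1 / ((N : ℝ) + 1 / 2) := by positivity
  linarith

/-- The `sig0` error of the kernel `cf |n| / n`. -/
theorem odd_sig0 : ∃ c : ℝ, 1 ≤ c ∧ ∀ (S : ℕ) (cf : ℕ → ℝ) (ν : ℝ), 1 ≤ ν → (∀ m, |cf m| ≤ 1) →
    (∀ m, S ≤ m → cf m = 0) → ∑ m ∈ range S, |cf (m + 1) - cf m| ≤ ν →
    ∃ w : ℤ → ℝ, ∑ n ∈ Finset.Icc (-(S : ℤ)) S, ((1 + |(n : ℝ)|) * |w n|) ^ 3 ≤ c * ν ∧
      ∀ f : ℤ → ℝ, odd S (fun m => cf m / m) (sig0 f) =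
        ∑ n ∈ Finset.Icc (-(S : ℤ)) S, w n * f n := by
  refine ⟨480, by norm_num, ?_⟩
  intro S cf ν hν hcf hS hvar
  set κ : ℤ → ℝ := fun n => cf n.natAbs / (n : ℝ) with hκ
  have κnat : ∀ m : ℕ, κ m = cf m / m := fun m => by simp [hκ]
  have κneg : ∀ n : ℤ, κ (-n) = -κ n := fun n => by
    simp only [hκ, Int.natAbs_neg, Int.cast_neg, div_neg]
  have κsupp : ∀ n : ℤ, κ n ≠ 0 → -(S : ℤ) < n ∧ n < S := by
    intro n hn
    by_contra hc
    apply hn
    have : S ≤ n.natAbs := by omega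
    simp only [hκ, hS _ this, zero_div]
  have κ0 : κ 0 = 0 := by simp [hκ]
  set w : ℤ → ℝ := fun n => (2 * κ n - κ (n + 1) - κ (n - 1)) / 4 with hw
  have wneg : ∀ n : ℤ, w (-n) = -w n := by
    intro n
    simp only [hw]
    rw [show -n + 1 = -(n - 1) by ring, show -n - 1 = -(n + 1) by ring, κneg, κneg, κneg]
    ring
  refine ⟨w, ?_, ?_⟩
  · set E : ℕ → ℝ := fun m => |cf (m + 1) - cf m| + 2 / ((m : ℝ) + 1) with hE
    have E0 : ∀ m, 0 ≤ E m := fun m => by simp only [hE]; positivity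
    have hd : ∀ m : ℕ, ((m : ℝ) + 1) * |κ (m + 1) - κ m| ≤ E m := by
      intro m
      have e1 : κ (m + 1) = cf (m + 1) / ((m : ℝ) + 1) := by
        have := κnat (m + 1)
        push_cast at this
        exact this
      rw [e1, κnat]
      simp only [hE]
      rcases Nat.eq_zero_or_pos m with rfl | hm
      · simp only [Nat.cast_zero, zero_add, div_zero, sub_zero, div_one, one_mul]
        have := hcf 1
        have := abs_nonneg (cf 1 - cf 0)
        linarith
      · have hm' : (1 : ℝ) ≤ m := by exact_mod_cast hm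
        have e2 : ((m : ℝ) + 1) * |cf (m + 1) / ((m : ℝ) + 1) - cf m / m| =
            |(cf (m + 1) - cf m) - cf m / m| := by
          rw [← abs_of_pos (show (0 : ℝ) < m + 1 by positivity), ← abs_mul,
            abs_of_pos (show (0 : ℝ) < m + 1 by positivity)]
          congr 1
          field_simp
          ring
        rw [e2]
        have e3 : |cf m / m| ≤ 2 / ((m : ℝ) + 1) := by
          rw [abs_div, abs_of_pos (show (0 : ℝ) < m by linarith),
            div_le_div_iff₀ (by linarith) (by positivity)]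
          have := hcf m
          have := abs_nonneg (cf m)
          nlinarith
        have := abs_sub (cf (m + 1) - cf m) (cf m / m)
        linarith
    have hE3 : ∀ m, E m ^ 3 ≤ 16 * |cf (m + 1) - cf m| + 32 * (1 / ((m : ℝ) + 1) ^ 2) := by
      intro m
      simp only [hE]
      have hD0 := abs_nonneg (cf (m + 1) - cf m)
      have hD2 : |cf (m + 1) - cf m| ≤ 2 := by
        have := abs_sub (cf (m + 1)) (cf m)
        have := hcf m
        have := hcf (m + 1)
        linarith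
      set D := |cf (m + 1) - cf m|
      have hm : (0 : ℝ) ≤ m := Nat.cast_nonneg m
      set t : ℝ := 1 / ((m : ℝ) + 1) with ht
      have ht0 : 0 ≤ t := by positivity
      have ht1 : t ≤ 1 := by rw [ht, div_le_one (by positivity)]; linarith
      have e1 : 2 / ((m : ℝ) + 1) = 2 * t := by rw [ht]; ring
      have e2 : 1 / ((m : ℝ) + 1) ^ 2 = t ^ 2 := by rw [ht]; field_simp
      rw [e1, e2]
      have h1 : (D + 2 * t) ^ 3 ≤ 4 * (D ^ 3 + (2 * t) ^ 3) := by
        have : 0 ≤ (D + 2 * t) * (D - 2 * t) ^ 2 := by positivity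
        nlinarith
      have h2 : D ^ 3 ≤ 4 * D := by
        have : D ^ 2 ≤ 4 := by nlinarith
        nlinarith
      have h3 : t ^ 3 ≤ t ^ 2 := by
        have : 0 ≤ t ^ 2 := by positivity
        nlinarith
      nlinarith
    have hEsum : ∑ m ∈ range (S + 1), E m ^ 3 ≤ 80 * ν := by
      refine (Finset.sum_le_sum fun m _ => hE3 m).trans ?_
      rw [Finset.sum_add_distrib, ← Finset.mul_sum, ← Finset.mul_sum, Finset.sum_range_succ,
        hS S le_rfl, hS (S + 1) (by omega)]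
      have := triv_inv_sq (S + 1)
      simp only [sub_self, abs_zero, add_zero]
      linarith
    have hEsum' : ∑ m ∈ range (S + 1), E (m - 1) ^ 3 ≤ 160 * ν := by
      rw [Finset.sum_range_succ']
      simp only [Nat.add_sub_cancel, Nat.zero_sub]
      have h1 : ∑ m ∈ range S, E m ^ 3 ≤ ∑ m ∈ range (S + 1), E m ^ 3 := by
        rw [Finset.sum_range_succ]
        have := pow_nonneg (E0 S) 3
        linarith
      have h2 : E 0 ^ 3 ≤ ∑ m ∈ range (S + 1), E m ^ 3 :=
        Finset.single_le_sum (f := fun m => E m ^ 3) (fun m _ => pow_nonneg (E0 m) 3)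
          (Finset.mem_range.2 (by omega))
      linarith
    have hF : ∀ m : ℕ, ((1 + |((m : ℤ) : ℝ)|) * |w m|) ^ 3 ≤ E m ^ 3 + E (m - 1) ^ 3 := by
      intro m
      have hm : (0 : ℝ) ≤ m := Nat.cast_nonneg m
      have hb : (1 + |((m : ℤ) : ℝ)|) * |w m| ≤ (E m + 2 * E (m - 1)) / 4 := by
        rcases Nat.eq_zero_or_pos m with rfl | hpos
        · have : w ((0 : ℕ) : ℤ) = 0 := by
            have := wneg 0
            simp only [neg_zero] at this
            simp only [Nat.cast_zero]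
            linarith
          rw [this]
          have := E0 0
          simp only [abs_zero, mul_zero, Nat.zero_sub]
          linarith
        · obtain ⟨k, rfl⟩ : ∃ k, m = k + 1 := ⟨m - 1, by omega⟩
          have h1 := hd (k + 1)
          have h2 := hd k
          simp only [Nat.add_sub_cancel]
          have hk : (0 : ℝ) ≤ k := Nat.cast_nonneg k
          have e1 : w ((k + 1 : ℕ) : ℤ) =
              (-(κ (((k + 1 : ℕ) : ℤ) + 1) - κ ((k + 1 : ℕ) : ℤ)) + (κ (k + 1) - κ k)) / 4 := by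
            simp only [hw]
            push_cast
            rw [show (k : ℤ) + 1 - 1 = k by ring]
            ring
          have e2 : |w ((k + 1 : ℕ) : ℤ)| ≤
              (|κ (((k + 1 : ℕ) : ℤ) + 1) - κ ((k + 1 : ℕ) : ℤ)| + |κ (k + 1) - κ k|) / 4 := by
            rw [e1, abs_div, abs_of_pos (show (0 : ℝ) < 4 by norm_num)]
            have := abs_add_le (-(κ (((k + 1 : ℕ) : ℤ) + 1) - κ ((k + 1 : ℕ) : ℤ)))
              (κ (k + 1) - κ k)
            rw [abs_neg] at this
            linarith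
          have e3 : 1 + |(((k + 1 : ℕ) : ℤ) : ℝ)| = (k : ℝ) + 2 := by
            push_cast
            rw [abs_of_nonneg (by positivity)]
            ring
          rw [e3]
          have e4 : (((k + 1 : ℕ) : ℝ) + 1) = (k : ℝ) + 2 := by push_cast; ring
          rw [e4] at h1
          have p1 := abs_nonneg (κ (((k + 1 : ℕ) : ℤ) + 1) - κ ((k + 1 : ℕ) : ℤ))
          have p2 := abs_nonneg (κ (k + 1) - κ k)
          have e5 : ((k : ℝ) + 2) * |w ((k + 1 : ℕ) : ℤ)| ≤ ((k : ℝ) + 2) *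
              ((|κ (((k + 1 : ℕ) : ℤ) + 1) - κ ((k + 1 : ℕ) : ℤ)| + |κ (k + 1) - κ k|) / 4) :=
            mul_le_mul_of_nonneg_left e2 (by positivity)
          nlinarith
      have h0 : 0 ≤ (1 + |((m : ℤ) : ℝ)|) * |w m| := by positivity
      refine (pow_le_pow_left₀ h0 hb 3).trans ?_
      have a0 := E0 m
      have b0 := E0 (m - 1)
      set a := E m
      set b := E (m - 1)
      rcases le_total a b with hab | hab
      · have : (a + 2 * b) / 4 ≤ b := by linarith
        have := pow_le_pow_left₀ (by positivity) this 3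
        have := pow_nonneg a0 3
        linarith
      · have : (a + 2 * b) / 4 ≤ a := by linarith
        have := pow_le_pow_left₀ (by positivity) this 3
        have := pow_nonneg b0 3
        linarith
    rw [triv_sum_Icc (fun n => ((1 + |(n : ℝ)|) * |w n|) ^ 3) S]
    have h0 : 0 ≤ ((1 + |((0 : ℤ) : ℝ)|) * |w 0|) ^ 3 := by positivity
    have h1 : ∑ m ∈ range (S + 1), (((1 + |((m : ℤ) : ℝ)|) * |w m|) ^ 3 +
        ((1 + |((-(m : ℤ) : ℤ) : ℝ)|) * |w (-(m : ℤ))|) ^ 3) ≤
        ∑ m ∈ range (S + 1), 2 * (E m ^ 3 + E (m - 1) ^ 3) := by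
      refine Finset.sum_le_sum fun m _ => ?_
      rw [wneg, abs_neg, Int.cast_neg, abs_neg]
      have := hF m
      linarith
    rw [← Finset.mul_sum, Finset.sum_add_distrib (f := fun m => E m ^ 3)] at h1
    linarith
  · intro f
    have e1 : odd S (fun m => cf m / m) (sig0 f) =
        ∑ n ∈ Finset.Icc (-(S : ℤ)) S, κ n * sig0 f n := by
      rw [triv_sum_Icc (fun n => κ n * sig0 f n) S, Finset.sum_range_succ, κ0, κneg, κnat,
        hS S le_rfl]
      simp only [odd, zero_div, zero_mul, neg_zero, add_zero, sub_zero]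
      refine Finset.sum_congr rfl fun m _ => ?_
      rw [κneg, κnat]
      ring
    have e2 : ∑ n ∈ Finset.Icc (-(S : ℤ)) S, κ n * f (n + 1) =
        ∑ n ∈ Finset.Icc (-(S : ℤ)) S, κ (n - 1) * f n := by
      have := triv_shift (fun n => κ (n - 1) * f n) (Finset.Icc (-(S : ℤ)) S) 1
        (fun n hn => by
          have := κsupp _ (left_ne_zero_of_mul hn)
          simp only [Finset.mem_Icc]; omega)
        (fun n hn => by
          have := κsupp _ (left_ne_zero_of_mul hn)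
          simp only [Finset.mem_Icc]; omega)
      rw [this]
      simp only [add_sub_cancel_right]
    have e3 : ∑ n ∈ Finset.Icc (-(S : ℤ)) S, κ n * f (n - 1) =
        ∑ n ∈ Finset.Icc (-(S : ℤ)) S, κ (n + 1) * f n := by
      have := triv_shift (fun n => κ (n + 1) * f n) (Finset.Icc (-(S : ℤ)) S) (-1)
        (fun n hn => by
          have := κsupp _ (left_ne_zero_of_mul hn)
          simp only [Finset.mem_Icc]; omega)
        (fun n hn => by
          have := κsupp _ (left_ne_zero_of_mul hn)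
          simp only [Finset.mem_Icc]; omega)
      rw [this]
      simp only [← sub_eq_add_neg, sub_add_cancel]
    rw [e1]
    have e4 : ∑ n ∈ Finset.Icc (-(S : ℤ)) S, κ n * sig0 f n =
        (2 * ∑ n ∈ Finset.Icc (-(S : ℤ)) S, κ n * f n -
          ∑ n ∈ Finset.Icc (-(S : ℤ)) S, κ n * f (n + 1) -
          ∑ n ∈ Finset.Icc (-(S : ℤ)) S, κ n * f (n - 1)) / 4 := by
      rw [Finset.mul_sum, ← Finset.sum_sub_distrib, ← Finset.sum_sub_distrib, Finset.sum_div]
      refine Finset.sum_congr rfl fun n _ => ?_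
      simp only [sig0]
      ring
    rw [e4, e2, e3, Finset.mul_sum, ← Finset.sum_sub_distrib, ← Finset.sum_sub_distrib,
      Finset.sum_div]
    refine Finset.sum_congr rfl fun n _ => ?_
    simp only [hw]
    ring

end Crest.Agent.R072
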