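import Crest.Agent.R072.Defs

/-! Row 72: Laurent polynomials acting on sequences; size and support of coefficients. -/

set_option autoImplicit false

open Finset LaurentPolynomial

namespace Crest.Agent.R072.Wv

/-- Real Laurent polynomials. -/
abbrev LP : Type := LaurentPolynomial ℝ

/-- The sum of the absolute values of the coefficients is at most `c`. -/
def L1 (u : LP) (c : ℝ) : Prop := ∀ A : Finset ℤ, ∑ r ∈ A, |u.coeff r| ≤ c

/-- All coefficients are at most `c` in absolute value. -/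
def Sup (u : LP) (c : ℝ) : Prop := ∀ r, |u.coeff r| ≤ c

/-- The exponents lie between `a` and `b`. -/
def Supp (u : LP) (a b : ℤ) : Prop := ∀ r, u.coeff r ≠ 0 → a ≤ r ∧ r ≤ b

variable {u v : LP} {a b c : ℝ}

lemma coeff_C_mul (c : ℝ) (u : LP) (r : ℤ) : (C c * u).coeff r = c * u.coeff r := by
  rw [← smul_eq_C_mul]; rfl

lemma coeff_mul (u v : LP) (r : ℤ) :
    (u * v).coeff r = ∑ n ∈ u.coeff.support, u.coeff n * v.coeff (-n + r) :=
  AddMonoidAlgebra.coeff_mul_apply_left u v r

lemma coeff_sum {ι : Type} (s : Finset ι) (f : ι → LP) (r : ℤ) :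
    (∑ i ∈ s, f i).coeff r = ∑ i ∈ s, (f i).coeff r := by
  rw [AddMonoidAlgebra.coeff_sum, Finsupp.finsetSum_apply]

lemma L1.nonneg (h : L1 u a) : 0 ≤ a := by simpa using h ∅

lemma L1.mono (h : L1 u a) (hab : a ≤ b) : L1 u b := fun A => (h A).trans hab

lemma L1.add (h : L1 u a) (h' : L1 v b) : L1 (u + v) (a + b) := fun A => by
  refine le_trans (Finset.sum_le_sum fun r _ => abs_add_le (u.coeff r) (v.coeff r)) ?_
  rw [Finset.sum_add_distrib]
  exact add_le_add (h A) (h' A)

lemma L1.neg (h : L1 u a) : L1 (-u) a := fun A => by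
  simpa [AddMonoidAlgebra.coeff_neg] using h A

lemma L1.sub (h : L1 u a) (h' : L1 v b) : L1 (u - v) (a + b) := by
  rw [sub_eq_add_neg]; exact h.add h'.neg

lemma L1.mul (h : L1 u a) (h' : L1 v b) : L1 (u * v) (a * b) := fun A => by
  calc ∑ r ∈ A, |(u * v).coeff r|
      ≤ ∑ r ∈ A, ∑ n ∈ u.coeff.support, |u.coeff n| * |v.coeff (-n + r)| :=
        Finset.sum_le_sum fun r _ => by
          rw [coeff_mul]
          simpa only [abs_mul] using Finset.abs_sum_le_sum_abs
            (fun n => u.coeff n * v.coeff (-n + r)) u.coeff.support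
    _ = ∑ n ∈ u.coeff.support, |u.coeff n| * ∑ r ∈ A, |v.coeff (-n + r)| := by
        rw [Finset.sum_comm]; simp only [Finset.mul_sum]
    _ ≤ ∑ n ∈ u.coeff.support, |u.coeff n| * b :=
        Finset.sum_le_sum fun n _ => mul_le_mul_of_nonneg_left (by
          have := h' (A.map (addLeftEmbedding (-n)))
          rwa [Finset.sum_map] at this) (abs_nonneg _)
    _ ≤ a * b := by
        rw [← Finset.sum_mul]; exact mul_le_mul_of_nonneg_right (h _) h'.nonneg

lemma L1.T (n : ℤ) : L1 (T n) 1 := fun A => by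
  simp only [T_apply, apply_ite abs, abs_one, abs_zero, Finset.sum_ite_eq]
  split_ifs <;> norm_num

lemma L1.one : L1 1 1 := L1.T 0

lemma L1.C_mul (c : ℝ) (h : L1 u a) : L1 (C c * u) (|c| * a) := fun A => by
  simp only [coeff_C_mul, abs_mul, ← Finset.mul_sum]
  exact mul_le_mul_of_nonneg_left (h A) (abs_nonneg _)

lemma L1.pow (h : L1 u 1) (n : ℕ) : L1 (u ^ n) 1 := by
  induction n with
  | zero => simpa using L1.one
  | succ n ih => simpa [pow_succ] using ih.mul h

lemma L1.sum {ι : Type} (s : Finset ι) {f : ι → LP} {g : ι → ℝ} (h : ∀ i ∈ s, L1 (f i) (g i)) :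
    L1 (∑ i ∈ s, f i) (∑ i ∈ s, g i) := by
  classical
  induction s using Finset.induction_on with
  | empty => intro A; simp
  | insert i s hi ih =>
    rw [Finset.sum_insert hi, Finset.sum_insert hi]
    exact (h i (by simp)).add (ih fun j hj => h j (by simp [hj]))

lemma Sup.mono (h : Sup u a) (hab : a ≤ b) : Sup u b := fun r => (h r).trans hab

lemma Sup.add (h : Sup u a) (h' : Sup v b) : Sup (u + v) (a + b) := fun r =>
  (abs_add_le (u.coeff r) (v.coeff r)).trans (add_le_add (h r) (h' r))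

lemma Sup.sub (h : Sup u a) (h' : Sup v b) : Sup (u - v) (a + b) := fun r =>
  (abs_sub (u.coeff r) (v.coeff r)).trans (add_le_add (h r) (h' r))

lemma L1.mul_sup (h : L1 u a) (h' : Sup v b) : Sup (u * v) (a * b) := fun r => by
  have hb : 0 ≤ b := (abs_nonneg _).trans (h' 0)
  rw [coeff_mul]
  refine (Finset.abs_sum_le_sum_abs _ _).trans ?_
  calc _ ≤ ∑ n ∈ u.coeff.support, |u.coeff n| * b := Finset.sum_le_sum fun n _ => by
        rw [abs_mul]; exact mul_le_mul_of_nonneg_left (h' _) (abs_nonneg _)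
    _ ≤ a * b := by rw [← Finset.sum_mul]; exact mul_le_mul_of_nonneg_right (h _) hb

lemma Sup.C_mul (c : ℝ) (h : Sup u a) : Sup (C c * u) (|c| * a) := fun r => by
  rw [coeff_C_mul, abs_mul]
  exact mul_le_mul_of_nonneg_left (h r) (abs_nonneg _)

lemma Sup.sum_T (S : ℕ) {y : ℕ → ℝ} {e : ℕ → ℤ} (he : Function.Injective e) {s : ℝ}
    (h : ∀ m, |y m| ≤ s) : Sup (∑ m ∈ range S, C (y m) * T (e m)) s := fun r => by
  rw [coeff_sum]
  simp only [coeff_C_mul, T_apply]
  by_cases hr : ∃ m ∈ range S, e m = r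
  · obtain ⟨m, hm, rfl⟩ := hr
    rw [Finset.sum_eq_single_of_mem m hm fun j _ hj => by rw [if_neg (he.ne hj), mul_zero]]
    simpa using h m
  · rw [Finset.sum_eq_zero fun j hj => by rw [if_neg fun h' => hr ⟨j, hj, h'⟩, mul_zero]]
    simpa using (abs_nonneg _).trans (h 0)

section supp
variable {i j i' j' : ℤ}

lemma Supp.mono (h : Supp u i j) (h1 : i' ≤ i) (h2 : j ≤ j') : Supp u i' j' := fun r hr =>
  ⟨h1.trans (h r hr).1, (h r hr).2.trans h2⟩

lemma Supp.add (h : Supp u i j) (h' : Supp v i j) : Supp (u + v) i j := fun r hr => by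
  by_cases h1 : u.coeff r = 0
  · refine h' r fun h2 => hr ?_
    show u.coeff r + v.coeff r = 0
    rw [h1, h2, add_zero]
  · exact h r h1

lemma Supp.neg (h : Supp u i j) : Supp (-u) i j := fun r hr =>
  h r fun h1 => hr (by show -u.coeff r = 0; rw [h1, neg_zero])

lemma Supp.sub (h : Supp u i j) (h' : Supp v i j) : Supp (u - v) i j := by
  rw [sub_eq_add_neg]; exact h.add h'.neg

lemma Supp.mul (h : Supp u i j) (h' : Supp v i' j') : Supp (u * v) (i + i') (j + j') :=
  fun r hr => by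
    rw [coeff_mul] at hr
    obtain ⟨n, -, hn⟩ := Finset.exists_ne_zero_of_sum_ne_zero hr
    have h1 := h n (left_ne_zero_of_mul hn)
    have h2 := h' _ (right_ne_zero_of_mul hn)
    omega

lemma Supp.T (n : ℤ) : Supp (T n) n n := fun r hr => by
  rw [T_apply] at hr
  split_ifs at hr with h
  · omega
  · exact absurd rfl hr

lemma Supp.one : Supp 1 0 0 := Supp.T 0

lemma Supp.C_mul (c : ℝ) (h : Supp u i j) : Supp (C c * u) i j := fun r hr =>
  h r (by rw [coeff_C_mul] at hr; exact right_ne_zero_of_mul hr)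

lemma Supp.sum {ι : Type} (s : Finset ι) {f : ι → LP} (h : ∀ k ∈ s, Supp (f k) i j) :
    Supp (∑ k ∈ s, f k) i j := fun r hr => by
  rw [coeff_sum] at hr
  obtain ⟨k, hk, hn⟩ := Finset.exists_ne_zero_of_sum_ne_zero hr
  exact h k hk r hn

end supp

/-- The shift operators. -/
noncomputable def shift : Multiplicative ℤ →* Module.End ℝ (ℤ → ℝ) where
  toFun n := LinearMap.funLeft ℝ ℝ fun r => r + n.toAdd
  map_one' := LinearMap.ext fun f => funext fun r => by simp [LinearMap.funLeft_apply]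
  map_mul' m n := LinearMap.ext fun f => funext fun r => by
    simp [LinearMap.funLeft_apply, add_assoc]

/-- The action of Laurent polynomials on sequences. -/
noncomputable def act : LP →ₐ[ℝ] Module.End ℝ (ℤ → ℝ) := AddMonoidAlgebra.lift ℝ _ ℤ shift

lemma act_T (n : ℤ) (f : ℤ → ℝ) (r : ℤ) : act (T n) f r = f (r + n) := by
  unfold act LaurentPolynomial.T
  rw [AddMonoidAlgebra.lift_single, one_smul]
  rfl

lemma act_mul (u v : LP) (f : ℤ → ℝ) : act (u * v) f = act u (act v f) := by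
  rw [map_mul]; rfl

lemma act_C_mul (c : ℝ) (u : LP) (f : ℤ → ℝ) (r : ℤ) : act (C c * u) f r = c * act u f r := by
  rw [← smul_eq_C_mul, map_smul]; rfl

lemma act_apply (u : LP) (f : ℤ → ℝ) (r : ℤ) :
    act u f r = ∑ n ∈ u.coeff.support, u.coeff n * f (r + n) := by
  unfold act
  rw [AddMonoidAlgebra.lift_apply, Finsupp.sum, LinearMap.sum_apply, Finset.sum_apply]
  rfl

lemma act_zero_of_subset (u : LP) (f : ℤ → ℝ) {A : Finset ℤ} (h : ∀ r, u.coeff r ≠ 0 → r ∈ A) :
    act u f 0 = ∑ n ∈ A, u.coeff n * f n := by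
  rw [act_apply]
  simp only [zero_add]
  exact Finset.sum_subset (fun r hr => h r (Finsupp.mem_support_iff.1 hr)) fun r _ hr => by
    rw [Finsupp.notMem_support_iff.1 hr, zero_mul]

end Crest.Agent.R072.Wv
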