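import Crest.Agent.R072.Defs
import Crest.Agent.R072.WaveletAux

/-! Row 72: expansion of an odd kernel in triple Haar differences. -/

set_option autoImplicit false

open Finset

namespace Crest.Agent.R072

namespace Wv

open LaurentPolynomial

noncomputable section

/-- one half -/
def hf : LP := C (1 / 2)
/-- the averaging kernel -/
def bb (k : ℕ) : LP := C (1 / 2 ^ k) * ∑ i ∈ range (2 ^ k), T i
/-- the shift by `2 ^ k` -/
def zz (k : ℕ) : LP := T (2 ^ k)
/-- the inverse shift -/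
def ww (k : ℕ) : LP := T (-2 ^ k)
/-- half the difference -/
def ss (k : ℕ) : LP := hf * (1 - zz k)
/-- minus a quarter of the second difference -/
def sg (k : ℕ) : LP := -(ww k * ss k ^ 2)
/-- the quotient polynomial -/
def pp (x : LP) : LP := C 13 * 1 - C 23 * x + C 16 * (x * x) - C 4 * (x * x * x)
/-- the smoothing kernel of level `k` -/
def TT (k : ℕ) : LP := T 3 * ww k ^ 3 * bb k ^ 6 * (1 + sg k)
/-- the common factor -/
def qq (k : ℕ) : LP := T 3 * ww k ^ 5 * pp (sg k)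
/-- the detail kernel of level `k` -/
def vv (k : ℕ) : LP := qq k * (bb k * bb k * (bb k * ss k))
/-- the odd kernel -/
def kap (S : ℕ) (y : ℕ → ℝ) : LP := ∑ m ∈ range S, C (y m) * (T m - T (-(m : ℤ)))

end

lemma two_hf : 2 * hf = 1 := by
  rw [hf, ← map_ofNat C 2, ← map_mul]; norm_num

lemma zz_ww (k : ℕ) : zz k * ww k = 1 := by rw [zz, ww, ← T_add]; simp

lemma zz_succ (k : ℕ) : zz (k + 1) = zz k ^ 2 := by
  rw [zz, zz, T_pow]; congr 1; push_cast; ring

lemma ww_succ (k : ℕ) : ww (k + 1) = ww k ^ 2 := by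
  rw [ww, ww, T_pow]; congr 1; push_cast; ring

lemma bb_zero : bb 0 = 1 := by simp [bb]

lemma bb_succ (k : ℕ) : bb (k + 1) = bb k * (hf * (1 + zz k)) := by
  have h1 : (C (1 / 2 ^ (k + 1)) : LP) = C (1 / 2 ^ k) * hf := by
    rw [hf, ← map_mul]; congr 1; field_simp; ring
  have h2 : ∑ i ∈ range (2 ^ k), (T ((2 ^ k + i : ℕ) : ℤ) : LP) =
      zz k * ∑ i ∈ range (2 ^ k), T i := by
    rw [Finset.mul_sum]
    exact Finset.sum_congr rfl fun i _ => by rw [zz, ← T_add]; push_cast; rfl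
  rw [bb, bb, h1, pow_succ, mul_two, Finset.sum_range_add, h2]
  ring

lemma geom (n : ℕ) : (1 - T 1 : LP) * ∑ i ∈ range n, T i = 1 - T n := by
  induction n with
  | zero => simp
  | succ n ih =>
    rw [Finset.sum_range_succ, mul_add, ih]
    push_cast
    rw [T_add]
    ring

lemma diff_bb (k : ℕ) : (1 - T 1) * bb k = C (1 / 2 ^ k) * (1 - zz k) := by
  rw [bb, mul_left_comm, geom, zz]; push_cast; rfl

lemma ss_eq (k : ℕ) : ss k = C (2 ^ k / 2) * ((1 - T 1) * bb k) := by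
  rw [diff_bb, ← mul_assoc, ← map_mul, ss, hf]
  congr 2; field_simp

lemma sg_eq (k : ℕ) : sg k = hf * hf * (2 - zz k - ww k) := by
  unfold sg ss
  linear_combination (hf * hf * (2 - zz k)) * zz_ww k

lemma TT_sub (k : ℕ) : TT k - TT (k + 1) = vv k * (bb k * ss k) ^ 3 := by
  have h1 : ww k * (hf * (1 + zz k)) ^ 2 = 1 - sg k := by
    unfold sg ss
    linear_combination (4 * hf ^ 2) * zz_ww k + (2 * hf + 1) * two_hf
  have h2 : sg (k + 1) = 4 * sg k * (1 - sg k) := by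
    rw [← h1]
    unfold sg ss
    rw [zz_succ, ww_succ]
    linear_combination (ww k ^ 2 * hf ^ 2 * (1 - zz k ^ 2) ^ 2 * (2 * hf + 1)) * two_hf
  have h3 : TT (k + 1) = T 3 * ww k ^ 3 * bb k ^ 6 * (ww k * (hf * (1 + zz k)) ^ 2) ^ 3 *
      (1 + sg (k + 1)) := by
    rw [TT, ww_succ, bb_succ]; ring
  rw [h3, h1, h2, TT, vv, qq, pp, map_ofNat, map_ofNat, map_ofNat, map_ofNat, sg]
  ring

lemma TT_zero : TT 0 = 1 + sg 0 := by
  rw [TT, bb_zero, ww, T_pow, ← T_add]; simp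

lemma diff_kap (S : ℕ) (y : ℕ → ℝ) : (1 - T 1) * kap S y =
    ∑ m ∈ range S, C (y (m + 1) - y m) * (T ((m : ℤ) + 1) + T (-(m : ℤ))) -
      C (y S) * (T S + T (-(S : ℤ)) * T 1) + C (y 0) * (1 + T 1) := by
  unfold kap
  induction S with
  | zero => simp
  | succ S ih =>
    have e : (T (-((S + 1 : ℕ) : ℤ)) : LP) * T 1 = T (-(S : ℤ)) := by
      rw [← T_add]; congr 1; push_cast; ring
    rw [Finset.sum_range_succ, Finset.sum_range_succ, mul_add, ih, e]
    push_cast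
    rw [T_add, map_sub]
    ring

/-! ### The action -/

lemma act_bb (k : ℕ) (f : ℤ → ℝ) : act (bb k) f = avg k f := by
  funext r
  rw [bb, act_C_mul, map_sum, LinearMap.sum_apply, Finset.sum_apply, avg]
  simp only [act_T]
  ring

lemma act_eta (k : ℕ) (f : ℤ → ℝ) : act (bb k * ss k) f = eta k f := by
  funext r
  rw [mul_comm, act_mul, act_bb, ss, hf, act_C_mul, map_sub, map_one, LinearMap.sub_apply,
    Pi.sub_apply, zz, act_T, eta, Module.End.one_apply]
  ring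

lemma act_eta3 (k : ℕ) (f : ℤ → ℝ) : act ((bb k * ss k) ^ 3) f = eta3 k f := by
  rw [pow_three, act_mul (bb k * ss k), act_mul (bb k * ss k), act_eta, act_eta, act_eta, eta3]

lemma act_sg (f : ℤ → ℝ) : act (sg 0) f = sig0 f := by
  funext r
  rw [sg_eq, hf, mul_assoc, act_C_mul, act_C_mul, map_sub, map_sub, map_ofNat, zz, ww]
  simp only [LinearMap.sub_apply, Pi.sub_apply, act_T, Module.End.ofNat_apply, sig0, pow_zero,
    sub_eq_add_neg r, two_smul, Pi.add_apply]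
  ring

lemma act_kap (S : ℕ) (y : ℕ → ℝ) (f : ℤ → ℝ) : act (kap S y) f 0 = odd S y f := by
  rw [kap, map_sum, LinearMap.sum_apply, Finset.sum_apply, odd]
  refine Finset.sum_congr rfl fun m _ => ?_
  rw [act_C_mul, map_sub, LinearMap.sub_apply, Pi.sub_apply, act_T, act_T, zero_add, zero_add]

lemma act_kap_TT (S : ℕ) (y : ℕ → ℝ) (K : ℕ) {f : ℤ → ℝ} (h : ∀ n, f (n + 2 ^ K) = f n) :
    act (kap S y * TT K) f 0 = 0 := by
  obtain ⟨g, hg⟩ : ∃ g, g = act (TT K) f := ⟨_, rfl⟩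
  have h0 : act (1 - zz K) f = 0 := by
    funext r
    rw [map_sub, map_one, LinearMap.sub_apply, Pi.sub_apply, zz, act_T, h]
    simp
  have h1 : act (1 - T 1) g = 0 := by
    have e : (1 - T 1) * TT K =
        T 3 * ww K ^ 3 * bb K ^ 5 * (1 + sg K) * C (1 / 2 ^ K) * (1 - zz K) := by
      rw [mul_assoc _ (C _), ← diff_bb, TT]; ring
    rw [hg, ← act_mul, e, act_mul, h0, map_zero]
  have h2 : ∀ r, g (r + 1) = g r := fun r => by
    have := congrFun h1 r
    rw [map_sub, map_one, LinearMap.sub_apply, Pi.sub_apply, act_T] at this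
    simp only [Module.End.one_apply, Pi.zero_apply] at this
    linarith
  have h3 : ∀ m : ℕ, g m = g (-(m : ℤ)) := fun m => by
    induction m with
    | zero => simp
    | succ m ih =>
      push_cast
      rw [h2, ih, ← h2 (-((m : ℤ) + 1))]
      congr 1; ring
  rw [act_mul, ← hg, act_kap, odd]
  exact Finset.sum_eq_zero fun m _ => by rw [h3, sub_self, mul_zero]

/-! ### Bounds -/

lemma L1_bb (k : ℕ) : L1 (bb k) 1 := by
  refine ((L1.sum (range (2 ^ k)) fun i _ => L1.T (i : ℕ)).C_mul (1 / 2 ^ k)).mono (le_of_eq ?_)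
  rw [abs_of_pos (by positivity)]
  simp

lemma Sup_bb (k : ℕ) : Sup (bb k) (1 / 2 ^ k) := by
  have h := (Sup.sum_T (2 ^ k) (y := fun _ => 1) (e := fun i => (i : ℤ)) Nat.cast_injective
    (s := 1) (by simp)).C_mul (1 / 2 ^ k)
  rw [abs_of_pos (by positivity), mul_one] at h
  simpa [bb] using h

lemma L1_ss (k : ℕ) : L1 (ss k) 1 :=
  ((L1.one.sub (L1.T _)).C_mul (1 / 2)).mono (by rw [abs_of_pos (by positivity)]; norm_num)

lemma L1_sg (k : ℕ) : L1 (sg k) 1 := by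
  exact (((L1.T (-2 ^ k)).mul ((L1_ss k).pow 2)).neg).mono (by norm_num)

lemma L1_qq (k : ℕ) : L1 (qq k) 56 := by
  have h := L1_sg k
  have h1 : L1 (pp (sg k)) 56 :=
    ((((L1.one.C_mul 13).sub (h.C_mul 23)).add ((h.mul h).C_mul 16)).sub
      (((h.mul h).mul h).C_mul 4)).mono (by norm_num)
  exact (((L1.T 3).mul ((L1.T (-2 ^ k)).pow 5)).mul h1).mono (by norm_num)

lemma L1_vv (k : ℕ) : L1 (vv k) 56 := by
  exact ((L1_qq k).mul (((L1_bb k).mul (L1_bb k)).mul ((L1_bb k).mul (L1_ss k)))).mono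
    (by norm_num)

lemma Supp_bb (k : ℕ) : Supp (bb k) 0 (2 ^ k - 1) :=
  (Supp.sum _ fun i hi => (Supp.T (i : ℕ)).mono (by omega) (by
    have : (i : ℤ) < 2 ^ k := by exact_mod_cast Finset.mem_range.1 hi
    omega)).C_mul _

lemma Supp_vv (k : ℕ) : Supp (vv k) (3 - 8 * 2 ^ k) (2 * 2 ^ k) := by
  have hL : (0 : ℤ) < 2 ^ k := by positivity
  have h1 : Supp (ss k) 0 (2 ^ k) :=
    ((Supp.one.mono le_rfl hL.le).sub ((Supp.T _).mono hL.le le_rfl)).C_mul _
  have h2 : Supp (sg k) (-2 ^ k) (2 ^ k) := by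
    rw [sg, sq]
    exact (((Supp.T _).mul (h1.mul h1)).mono (by omega) (by omega)).neg
  have h3 : Supp (pp (sg k)) (-(3 * 2 ^ k)) (3 * 2 ^ k) :=
    ((((Supp.one.mono (by omega) (by omega)).C_mul 13).sub
      ((h2.mono (by omega) (by omega)).C_mul 23)).add
      (((h2.mul h2).mono (by omega) (by omega)).C_mul 16)).sub
      ((((h2.mul h2).mul h2).mono (by omega) (by omega)).C_mul 4)
  have h4 : Supp (ww k ^ 5) (-(5 * 2 ^ k)) (-(5 * 2 ^ k)) := by
    rw [ww, T_pow]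
    exact (Supp.T _).mono (by push_cast; omega) (by push_cast; omega)
  exact ((((Supp.T 3).mul h4).mul h3).mul (((Supp_bb k).mul (Supp_bb k)).mul
    ((Supp_bb k).mul h1))).mono (by omega) (by omega)

lemma Supp_kap (S : ℕ) (y : ℕ → ℝ) : Supp (kap S y) (-(S : ℤ)) S :=
  Supp.sum _ fun m hm => by
    have := Finset.mem_range.1 hm
    exact (((Supp.T _).mono (by omega) (by omega)).sub
      ((Supp.T _).mono (by omega) (by omega))).C_mul _

lemma L1_odd_bb (k m : ℕ) : L1 ((T m - T (-(m : ℤ))) * bb k) (4 * m / 2 ^ k) := by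
  have e : (T m - T (-(m : ℤ))) * bb k =
      -(T (-(m : ℤ)) * (∑ i ∈ range (2 * m), T i) * (C (1 / 2 ^ k) * (1 - zz k))) := by
    have e1 : (T m : LP) = T (-(m : ℤ)) * T ((2 * m : ℕ) : ℤ) := by
      rw [← T_add]; congr 1; push_cast; ring
    rw [← diff_bb, e1]
    linear_combination (T (-(m : ℤ)) * bb k) * geom (2 * m)
  rw [e]
  refine ((((L1.T _).mul (L1.sum (range (2 * m)) fun i _ => L1.T (i : ℕ))).mul
    ((L1.one.sub (L1.T _)).C_mul _)).neg).mono (le_of_eq ?_)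
  rw [abs_of_pos (by positivity)]
  simp only [Finset.sum_const, Finset.card_range, nsmul_eq_mul]
  push_cast
  ring

end Wv

theorem wavelet : ∃ c : ℝ, 1 ≤ c ∧ ∀ (S : ℕ) (y : ℕ → ℝ), y 0 = 0 → (∀ m, S ≤ m → y m = 0) →
    ∃ co : ℕ → ℤ → ℝ,
      (∀ k r, co k r ≠ 0 → |r| < (S : ℤ) + 8 * 2 ^ k) ∧
      (∀ (K : ℕ) (f : ℤ → ℝ), (∀ n, f (n + 2 ^ K) = f n) → ∀ R : ℕ → Finset ℤ,
        (∀ k < K, ∀ r, co k r ≠ 0 → r ∈ R k) →
        odd S y f + odd S y (sig0 f) = ∑ k ∈ range K, ∑ r ∈ R k, co k r * eta3 k f r) ∧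
      (∀ s : ℝ, (∀ m, |y m| ≤ s) → ∀ k r, |co k r| ≤ c * s) ∧
      (∀ s : ℝ, (∀ m, |y (m + 1) - y m| ≤ s) → ∀ k r, |co k r| ≤ c * 2 ^ k * s) ∧
      (∀ (k : ℕ) (R : Finset ℤ),
        ∑ r ∈ R, |co k r| ≤ c * 2 ^ k * ∑ m ∈ range S, |y (m + 1) - y m|) ∧
      (∀ k r, |co k r| ≤ c * (∑ m ∈ range S, (m : ℝ) * |y m|) / 4 ^ k) := by
  refine ⟨224, by norm_num, fun S y h0 hS => ?_⟩
  have hd : (1 - LaurentPolynomial.T 1) * Wv.kap S y =
      ∑ m ∈ range S, LaurentPolynomial.C (y (m + 1) - y m) *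
        (LaurentPolynomial.T ((m : ℤ) + 1) + LaurentPolynomial.T (-(m : ℤ))) := by
    rw [Wv.diff_kap, h0, hS S le_rfl, map_zero, zero_mul, zero_mul, sub_zero, add_zero]
  have hlip : ∀ k, Wv.kap S y * Wv.vv k = LaurentPolynomial.C (2 ^ k / 2) *
      (Wv.qq k * Wv.bb k ^ 4 * ((1 - LaurentPolynomial.T 1) * Wv.kap S y)) := fun k => by
    rw [Wv.vv, Wv.ss_eq]; ring
  have hq : ∀ k, Wv.L1 (Wv.qq k * Wv.bb k ^ 4) 56 := fun k => by
    simpa using (Wv.L1_qq k).mul ((Wv.L1_bb k).pow 4)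
  refine ⟨fun k r => (Wv.kap S y * Wv.vv k).coeff r, fun k r hr => ?_, fun K f hf R hR => ?_,
    fun s hs k r => ?_, fun s hs k r => ?_, fun k R => ?_, fun k r => ?_⟩
  · have := (Wv.Supp_kap S y).mul (Wv.Supp_vv k) r hr
    have hL : (0 : ℤ) < 2 ^ k := by positivity
    rw [abs_lt]
    omega
  · have e1 : Wv.kap S y * Wv.TT 0 = ∑ k ∈ range K, Wv.kap S y * Wv.vv k *
        (Wv.bb k * Wv.ss k) ^ 3 + Wv.kap S y * Wv.TT K := by
      simp only [mul_assoc, ← Wv.TT_sub, ← Finset.mul_sum, Finset.sum_range_sub']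
      ring
    have e2 := congrArg (fun u => Wv.act u f 0) e1
    simp only [map_add, map_sum, LinearMap.add_apply, LinearMap.sum_apply, Pi.add_apply,
      Finset.sum_apply, Wv.act_kap_TT S y K hf, add_zero] at e2
    rw [Wv.TT_zero, mul_add, mul_one, map_add, LinearMap.add_apply, Pi.add_apply, Wv.act_mul,
      Wv.act_sg, Wv.act_kap, Wv.act_kap] at e2
    rw [e2]
    refine Finset.sum_congr rfl fun k hk => ?_
    rw [Wv.act_mul, Wv.act_eta3, Wv.act_zero_of_subset _ _ (hR k (Finset.mem_range.1 hk))]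
  · have h1 : Wv.Sup (Wv.kap S y) (s + s) := by
      simpa only [Wv.kap, mul_sub, Finset.sum_sub_distrib] using
        (Wv.Sup.sum_T S (e := fun m => (m : ℤ)) Nat.cast_injective hs).sub
          (Wv.Sup.sum_T S (e := fun m => -(m : ℤ))
            (neg_injective.comp Nat.cast_injective) hs)
    have h2 := (Wv.L1_vv k).mul_sup h1 r
    have h3 : 0 ≤ s := (abs_nonneg _).trans (hs 0)
    rw [mul_comm (Wv.vv k)] at h2
    linarith
  · have h1 : Wv.Sup ((1 - LaurentPolynomial.T 1) * Wv.kap S y) (s + s) := by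
      simpa only [hd, mul_add, Finset.sum_add_distrib] using
        (Wv.Sup.sum_T S (y := fun m => y (m + 1) - y m) (e := fun m => (m : ℤ) + 1)
          ((add_left_injective 1).comp Nat.cast_injective) hs).add
          (Wv.Sup.sum_T S (y := fun m => y (m + 1) - y m) (e := fun m => -(m : ℤ))
            (neg_injective.comp Nat.cast_injective) hs)
    have h2 := ((hq k).mul_sup h1).C_mul (2 ^ k / 2) r
    have h3 : 0 ≤ s := (abs_nonneg _).trans (hs 0)
    rw [← hlip, abs_of_pos (a := (2 : ℝ) ^ k / 2) (by positivity)] at h2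
    have h4 : 0 ≤ (2 : ℝ) ^ k * s := by positivity
    linarith
  · have h1 : Wv.L1 ((1 - LaurentPolynomial.T 1) * Wv.kap S y)
        (∑ m ∈ range S, |y (m + 1) - y m| * (1 + 1)) := by
      rw [hd]
      exact Wv.L1.sum _ fun m _ => ((Wv.L1.T _).add (Wv.L1.T _)).C_mul _
    have h2 := ((hq k).mul h1).C_mul (2 ^ k / 2) R
    rw [← hlip, abs_of_pos (a := (2 : ℝ) ^ k / 2) (by positivity), ← Finset.sum_mul] at h2
    have h4 : 0 ≤ (2 : ℝ) ^ k * ∑ m ∈ range S, |y (m + 1) - y m| := by positivity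
    linarith
  · have h1 : Wv.L1 (Wv.kap S y * Wv.bb k) (∑ m ∈ range S, |y m| * (4 * m / 2 ^ k)) := by
      rw [Wv.kap, Finset.sum_mul]
      exact Wv.L1.sum _ fun m _ => by rw [mul_assoc]; exact (Wv.L1_odd_bb k m).C_mul _
    have h2 := ((h1.mul ((Wv.L1_qq k).mul ((Wv.L1_bb k).mul (Wv.L1_ss k)))).mul_sup
      (Wv.Sup_bb k)) r
    have e : Wv.kap S y * Wv.bb k * (Wv.qq k * (Wv.bb k * Wv.ss k)) * Wv.bb k =
        Wv.kap S y * Wv.vv k := by rw [Wv.vv]; ring
    rw [e] at h2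
    refine h2.trans (le_of_eq ?_)
    rw [Finset.sum_mul, Finset.sum_mul, Finset.mul_sum, Finset.sum_div]
    refine Finset.sum_congr rfl fun m _ => ?_
    rw [show (4 : ℝ) ^ k = 2 ^ k * 2 ^ k by rw [← mul_pow]; norm_num]
    field_simp
    ring

end Crest.Agent.R072
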