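import Crest.Agent.R072.Forms
import Crest.Agent.R072.Wavelet
import Crest.Agent.R072.Triv
import Crest.Agent.R072.DT0Chi

/-! Row 72: the discrete theorem for odd kernels `cf |n| / n` of bounded variation. -/

set_option autoImplicit false

open Matrix Finset

namespace Crest.Agent.R072

/-- The conclusion of `wavelet`. -/
structure Wav (c : ℝ) (S : ℕ) (y : ℕ → ℝ) (co : ℕ → ℤ → ℝ) : Prop where
  supp : ∀ k r, co k r ≠ 0 → |r| < (S : ℤ) + 8 * 2 ^ k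
  rep : ∀ (K : ℕ) (f : ℤ → ℝ), (∀ n, f (n + 2 ^ K) = f n) → ∀ R : ℕ → Finset ℤ,
    (∀ k < K, ∀ r, co k r ≠ 0 → r ∈ R k) →
    odd S y f + odd S y (sig0 f) = ∑ k ∈ range K, ∑ r ∈ R k, co k r * eta3 k f r
  sup : ∀ s : ℝ, (∀ m, |y m| ≤ s) → ∀ k r, |co k r| ≤ c * s
  lip : ∀ s : ℝ, (∀ m, |y (m + 1) - y m| ≤ s) → ∀ k r, |co k r| ≤ c * 2 ^ k * s
  tv : ∀ (k : ℕ) (R : Finset ℤ),
    ∑ r ∈ R, |co k r| ≤ c * 2 ^ k * ∑ m ∈ range S, |y (m + 1) - y m|
  coarse : ∀ k r, |co k r| ≤ c * (∑ m ∈ range S, (m : ℝ) * |y m|) / 4 ^ k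

lemma wav_exists : ∃ c : ℝ, 1 ≤ c ∧ ∀ (S : ℕ) (y : ℕ → ℝ), y 0 = 0 → (∀ m, S ≤ m → y m = 0) →
    ∃ co, Wav c S y co := by
  obtain ⟨c, hc, h⟩ := wavelet
  refine ⟨c, hc, fun S y h0 h1 => ?_⟩
  obtain ⟨co, a1, a2, a3, a4, a5, a6⟩ := h S y h0 h1
  exact ⟨co, a1, a2, a3, a4, a5, a6⟩

lemma Wav.mem_rng {c : ℝ} {j : ℕ} {y : ℕ → ℝ} {co : ℕ → ℤ → ℝ} (h : Wav c (2 ^ (j + 1)) y co)
    (k : ℕ) (r : ℤ) (hr : co k r ≠ 0) : r ∈ rng (k + (j - k + 4)) := by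
  have h1 := h.supp k r hr
  have h2 : (2 : ℤ) ^ j ≤ 2 ^ (k + (j - k)) := pow_le_pow_right₀ (by norm_num) (by omega)
  have h3 : (2 : ℤ) ^ k ≤ 2 ^ (k + (j - k)) := pow_le_pow_right₀ (by norm_num) (by omega)
  have h4 : (2 : ℤ) ^ (k + (j - k + 4)) = 16 * 2 ^ (k + (j - k)) := by
    rw [← add_assoc, pow_add]; ring
  have h5 : (0 : ℤ) < 2 ^ (k + (j - k)) := by positivity
  push_cast at h1
  rw [pow_succ, abs_lt] at h1
  rw [rng, Finset.mem_Ico, h4]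
  constructor <;> linarith [h1.1, h1.2]

lemma Wav.y0_bound {c : ℝ} (hc : 1 ≤ c) {j : ℕ} {co : ℕ → ℤ → ℝ}
    (h : Wav c (2 ^ (j + 1)) (y0 j) co) (k : ℕ) (r : ℤ) :
    |co k r| ≤ 160 * c * (1 / 2) ^ ((j - k) + (k - j)) / 2 ^ (k + (j - k + 4)) := by
  have h4 : ∀ n : ℕ, (4 : ℝ) ^ n = 2 ^ n * 2 ^ n := fun n => by rw [← mul_pow]; norm_num
  rcases le_total k j with hk | hk
  · obtain ⟨i, rfl⟩ := Nat.exists_eq_add_of_le hk
    refine (h.lip _ (y0_lip _) k r).trans (le_of_eq ?_)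
    rw [show k + i - k = i by omega, show k - (k + i) = 0 by omega, h4]
    simp only [pow_add, one_div, inv_pow, add_zero]
    field_simp
    ring
  · obtain ⟨i, rfl⟩ := Nat.exists_eq_add_of_le hk
    refine (h.coarse _ r).trans ?_
    have h1 := mul_le_mul_of_nonneg_left (sum_mul_abs_y0_le j) (by linarith : 0 ≤ c)
    refine (div_le_div_of_nonneg_right h1 (by positivity)).trans ?_
    rw [show j + i - j = i by omega, show j - (j + i) = 0 by omega, h4]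
    simp only [pow_add, one_div, inv_pow, zero_add]
    rw [div_le_div_iff₀ (by positivity) (by positivity)]
    have e : 160 * c * (2 ^ i)⁻¹ * (2 ^ j * 2 ^ i * (2 ^ j * 2 ^ i)) =
        160 * (c * 2 ^ j * 2 ^ j * (2 : ℝ) ^ i) := by field_simp
    rw [e]
    have : 0 ≤ c * 2 ^ j * 2 ^ j * (2 : ℝ) ^ i := by positivity
    nlinarith

lemma Wav.yx_sup {c : ℝ} (hc : 1 ≤ c) {cf : ℕ → ℝ} (h1 : ∀ m, |cf m| ≤ 1) {j : ℕ}
    {co : ℕ → ℤ → ℝ} (h : Wav c (2 ^ (j + 1)) (yx cf j) co) (k : ℕ) (r : ℤ) :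
    |co k r| ≤ 32 * c * (1 / 2) ^ (k - j) * min 2 (Vv cf j) / 2 ^ (k + (j - k + 4)) := by
  have h4 : ∀ n : ℕ, (4 : ℝ) ^ n = 2 ^ n * 2 ^ n := fun n => by rw [← mul_pow]; norm_num
  rcases le_total k j with hk | hk
  · obtain ⟨i, rfl⟩ := Nat.exists_eq_add_of_le hk
    refine (h.sup _ (abs_yx_le h1 _) k r).trans (le_of_eq ?_)
    rw [show k + i - k = i by omega, show k - (k + i) = 0 by omega]
    simp only [pow_add, pow_zero]
    field_simp
    ring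
  · obtain ⟨i, rfl⟩ := Nat.exists_eq_add_of_le hk
    refine (h.coarse _ r).trans ?_
    have h2 := mul_le_mul_of_nonneg_left (sum_mul_abs_yx_le h1 j) (by linarith : 0 ≤ c)
    refine (div_le_div_of_nonneg_right h2 (by positivity)).trans (le_of_eq ?_)
    rw [show j + i - j = i by omega, show j - (j + i) = 0 by omega, h4]
    simp only [pow_add, one_div, inv_pow, zero_add]
    field_simp
    ring

lemma card_rng (j : ℕ) : ((rng j).card : ℝ) = 2 * 2 ^ j := by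
  have : (rng j).card = 2 * 2 ^ j := by
    rw [rng, Int.card_Ico]
    have : (2 : ℤ) ^ j - -2 ^ j = ((2 * 2 ^ j : ℕ) : ℤ) := by push_cast; ring
    rw [this, Int.toNat_natCast]
  rw [this]; push_cast; ring

lemma Wav.yx_sq {c : ℝ} (hc : 1 ≤ c) {cf : ℕ → ℝ} (h1 : ∀ m, |cf m| ≤ 1) {j : ℕ}
    {co : ℕ → ℤ → ℝ} (h : Wav c (2 ^ (j + 1)) (yx cf j) co) (k : ℕ) :
    2 ^ (k + (j - k + 4)) * ∑ r ∈ rng (k + (j - k + 4)), co k r ^ 2 ≤
      (64 * c * (1 / 2) ^ (k - j)) ^ 2 * (Vv cf j * (3 / 4) ^ (j - k)) ^ 2 := by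
  have hV := Vv_nonneg cf j
  have hs : ∀ r, |co k r| ≤ 32 * c * (1 / 2) ^ (k - j) * Vv cf j / 2 ^ (k + (j - k + 4)) :=
    fun r => (h.yx_sup hc h1 k r).trans (by gcongr; exact min_le_right _ _)
  rcases le_total k j with hk | hk
  · obtain ⟨i, rfl⟩ := Nat.exists_eq_add_of_le hk
    rw [show k + i - k = i by omega, show k - (k + i) = 0 by omega] at *
    have h2 : ∑ r ∈ rng (k + (i + 4)), co k r ^ 2 ≤
        32 * c * (1 / 2) ^ 0 * Vv cf (k + i) / 2 ^ (k + (i + 4)) *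
          ∑ r ∈ rng (k + (i + 4)), |co k r| := by
      rw [Finset.mul_sum]
      refine Finset.sum_le_sum fun r _ => ?_
      rw [← sq_abs, sq]
      exact mul_le_mul_of_nonneg_right (hs r) (abs_nonneg _)
    have h3 := (h.tv k (rng (k + (i + 4)))).trans
      (mul_le_mul_of_nonneg_left (yx_tv cf (k + i)) (by positivity))
    have h4 := h2.trans (mul_le_mul_of_nonneg_left h3 (by positivity))
    refine (mul_le_mul_of_nonneg_left h4 (by positivity)).trans ?_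
    have e1 : (2 : ℝ) ^ (k + (i + 4)) * (32 * c * (1 / 2) ^ 0 * Vv cf (k + i) / 2 ^ (k + (i + 4)) *
        (c * 2 ^ k * (22 * Vv cf (k + i) / 2 ^ (k + i)))) =
        704 * (c * Vv cf (k + i)) ^ 2 * (1 / 2) ^ i := by
      simp only [pow_add, one_div, inv_pow, pow_zero]
      field_simp
      ring
    have e2 : (64 * c * (1 / 2) ^ 0) ^ 2 * (Vv cf (k + i) * (3 / 4) ^ i) ^ 2 =
        4096 * (c * Vv cf (k + i)) ^ 2 * (9 / 16) ^ i := by
      rw [show (9 / 16 : ℝ) = (3 / 4) ^ 2 by norm_num, ← pow_mul, mul_comm 2 i, pow_mul]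
      ring
    rw [e1, e2]
    have h5 : (1 / 2 : ℝ) ^ i ≤ (9 / 16) ^ i := pow_le_pow_left₀ (by norm_num) (by norm_num) i
    have h6 : (0 : ℝ) ≤ (1 / 2) ^ i := by positivity
    have h7 := sq_nonneg (c * Vv cf (k + i))
    nlinarith [mul_le_mul_of_nonneg_left h5 h7, mul_nonneg h7 h6]
  · have e0 : j - k = 0 := by omega
    rw [e0] at hs ⊢
    have h2 : ∑ r ∈ rng (k + (0 + 4)), co k r ^ 2 ≤ ∑ _r ∈ rng (k + (0 + 4)),
        (32 * c * (1 / 2) ^ (k - j) * Vv cf j / 2 ^ (k + (0 + 4))) ^ 2 := by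
      refine Finset.sum_le_sum fun r _ => ?_
      rw [← sq_abs]
      exact pow_le_pow_left₀ (abs_nonneg _) (hs r) 2
    rw [Finset.sum_const, nsmul_eq_mul, card_rng] at h2
    refine (mul_le_mul_of_nonneg_left h2 (by positivity)).trans ?_
    have e1 : (2 : ℝ) ^ (k + (0 + 4)) * (2 * 2 ^ (k + (0 + 4)) *
        (32 * c * (1 / 2) ^ (k - j) * Vv cf j / 2 ^ (k + (0 + 4))) ^ 2) =
        2048 * (c * (1 / 2) ^ (k - j) * Vv cf j) ^ 2 := by
      field_simp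
      ring
    rw [e1]
    nlinarith [sq_nonneg (c * (1 / 2) ^ (k - j) * Vv cf j)]

section
variable {G : Type} [Fintype G] [DecidableEq G] [AddCommGroup G]

/-- The conclusion of `thmM`. -/
def HM (c : ℝ) (e : G) (A B C : Matrix G G ℝ) : Prop :=
  ∀ (K l : ℕ) (ν : ℝ) (γ : ℕ → G → G → ℝ), 1 ≤ ν → (∀ k u x, |γ k u x| ≤ 1) →
    (∀ u x, ∑ k ∈ range K, |γ (k + 1) u x - γ k u x| ≤ ν) →
    ∑ k ∈ range K, (∑ r ∈ rng (k + l), |Lam e k r A B (cut 1 (γ k) C)|) / 2 ^ (k + l) ≤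
      c * (l + 1) * √ν * (n3 A + n3 B + n3 C)

/-- The conclusion of `thmE`. -/
def HE (c : ℝ) (e : G) (A B C : Matrix G G ℝ) : Prop :=
  ∀ (K l : ℕ) (lam ν : ℝ) (a : ℕ → ℤ → G → G → ℝ) (ab : ℕ → G → G → ℝ), 0 < lam → 0 ≤ ν →
    (∀ k r u x, |a k r u x| ≤ 1) → (∀ k u x, 0 ≤ ab k u x) →
    (∀ k < K, ∀ u x, (∑ r ∈ rng (k + l), a k r u x ^ 2) / 2 ^ (k + l) ≤ ab k u x ^ 2) →
    (∀ u x, ∑ k ∈ range K, ab k u x ≤ ν) →
    ∑ k ∈ range K, (∑ r ∈ rng (k + l), |Lam e k r A B (cut 1 (a k r) C)|) / 2 ^ (k + l) ≤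
      c * (l + 1) * (1 / lam + ν * lam + ν * lam ^ 2) * (n3 A + n3 B + n3 C)

omit [DecidableEq G] in
lemma dt0_sum_eq (e : G) (A B C : Matrix G G ℝ) (K : ℕ) (R : ℕ → Finset ℤ)
    (s : ℕ → ℤ → ℝ) (a : ℕ → ℤ → G → G → ℝ) :
    ∑ x2, ∑ x0, C x2 x0 * ∑ k ∈ range K, ∑ r ∈ R k,
        s k r * a k r x2 x0 * eta3 k (line e A B x0 x2) r =
      ∑ k ∈ range K, ∑ r ∈ R k, s k r * Lam e k r A B (cut 1 (a k r) C) := by
  simp only [Lam, cut, Matrix.of_apply, Finset.mul_sum]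
  symm
  refine (Finset.sum_congr rfl fun k _ => Finset.sum_comm).trans ?_
  rw [Finset.sum_comm]
  refine Finset.sum_congr rfl fun x2 _ => ?_
  refine (Finset.sum_congr rfl fun k _ => Finset.sum_comm).trans ?_
  rw [Finset.sum_comm]
  refine Finset.sum_congr rfl fun x0 _ => Finset.sum_congr rfl fun k _ =>
    Finset.sum_congr rfl fun r _ => by ring

lemma dt0_abs_le (K l : ℕ) (s L : ℕ → ℤ → ℝ) {α : ℝ} (hs : ∀ k r, |s k r| ≤ α / 2 ^ (k + l)) :
    |∑ k ∈ range K, ∑ r ∈ rng (k + l), s k r * L k r| ≤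
      α * ∑ k ∈ range K, (∑ r ∈ rng (k + l), |L k r|) / 2 ^ (k + l) := by
  rw [Finset.mul_sum]
  refine (Finset.abs_sum_le_sum_abs _ _).trans (Finset.sum_le_sum fun k _ => ?_)
  rw [Finset.sum_div, Finset.mul_sum]
  refine (Finset.abs_sum_le_sum_abs _ _).trans (Finset.sum_le_sum fun r _ => ?_)
  rw [abs_mul]
  refine (mul_le_mul_of_nonneg_right (hs k r) (abs_nonneg _)).trans (le_of_eq (by ring))

omit [DecidableEq G] in
lemma corM {c : ℝ} {e : G} {A B C : Matrix G G ℝ} (hM : HM c e A B C) (K l : ℕ) {ν α : ℝ}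
    (γ : ℕ → G → G → ℝ) (hν : 1 ≤ ν) (hγ : ∀ k u x, |γ k u x| ≤ 1)
    (htv : ∀ u x, ∑ k ∈ range K, |γ (k + 1) u x - γ k u x| ≤ ν) (hα : 0 ≤ α)
    (s : ℕ → ℤ → ℝ) (hs : ∀ k r, |s k r| ≤ α / 2 ^ (k + l)) :
    |∑ x2, ∑ x0, C x2 x0 * ∑ k ∈ range K, ∑ r ∈ rng (k + l),
        s k r * γ k x2 x0 * eta3 k (line e A B x0 x2) r| ≤
      α * (c * (l + 1) * √ν * (n3 A + n3 B + n3 C)) := by
  rw [dt0_sum_eq e A B C K (fun k => rng (k + l)) s (fun k _ => γ k)]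
  exact (dt0_abs_le K l s _ hs).trans (mul_le_mul_of_nonneg_left (hM K l ν γ hν hγ htv) hα)

omit [DecidableEq G] in
lemma corE {c : ℝ} {e : G} {A B C : Matrix G G ℝ} (hE : HE c e A B C) (K l : ℕ) {lam ν α : ℝ}
    (s : ℕ → ℤ → G → G → ℝ) (ab : ℕ → G → G → ℝ) (hl : 0 < lam) (hν : 0 ≤ ν) (hα : 0 < α)
    (hs : ∀ k r u x, |s k r u x| ≤ α / 2 ^ (k + l)) (hab : ∀ k u x, 0 ≤ ab k u x)
    (hsq : ∀ k u x, 2 ^ (k + l) * ∑ r ∈ rng (k + l), s k r u x ^ 2 ≤ α ^ 2 * ab k u x ^ 2)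
    (hsum : ∀ u x, ∑ k ∈ range K, ab k u x ≤ ν) :
    |∑ x2, ∑ x0, C x2 x0 * ∑ k ∈ range K, ∑ r ∈ rng (k + l),
        s k r x2 x0 * eta3 k (line e A B x0 x2) r| ≤
      α * (c * (l + 1) * (1 / lam + ν * lam + ν * lam ^ 2) * (n3 A + n3 B + n3 C)) := by
  have e1 : ∀ k r u x, s k r u x = α / 2 ^ (k + l) * (s k r u x * 2 ^ (k + l) / α) := by
    intro k r u x; field_simp
  have h1 := dt0_sum_eq e A B C K (fun k => rng (k + l)) (fun k _ => α / 2 ^ (k + l))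
    (fun k r u x => s k r u x * 2 ^ (k + l) / α)
  simp only [← e1] at h1
  rw [h1]
  refine (dt0_abs_le K l (fun k _ => α / 2 ^ (k + l)) _
    (fun k r => (abs_of_nonneg (by positivity)).le)).trans
    (mul_le_mul_of_nonneg_left (hE K l lam ν _ ab hl hν ?_ hab ?_ hsum) hα.le)
  · intro k r u x
    have := hs k r u x
    rw [le_div_iff₀ (by positivity)] at this
    rw [abs_div, abs_mul, abs_of_pos hα, abs_of_pos (by positivity : (0 : ℝ) < 2 ^ (k + l)),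
      div_le_one hα]
    exact this
  · intro k _ u x
    have e2 : (∑ r ∈ rng (k + l), (s k r u x * 2 ^ (k + l) / α) ^ 2) / 2 ^ (k + l) =
        (2 ^ (k + l) * ∑ r ∈ rng (k + l), s k r u x ^ 2) / α ^ 2 := by
      rw [Finset.mul_sum, Finset.sum_div, Finset.sum_div]
      exact Finset.sum_congr rfl fun r _ => by field_simp
    rw [e2, div_le_iff₀ (by positivity), mul_comm (ab k u x ^ 2)]
    exact hsq k u x

lemma dt0_lam {ν : ℝ} (hν : 1 ≤ ν) (a : ℕ) :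
    1 / ((11 / 10) ^ a / √ν) + 2 * ν * (3 / 4) ^ a * ((11 / 10) ^ a / √ν) +
        2 * ν * (3 / 4) ^ a * ((11 / 10) ^ a / √ν) ^ 2 ≤ 5 * √ν * (10 / 11) ^ a := by
  have h1 : 1 ≤ √ν := Real.one_le_sqrt.mpr hν
  have h2 : √ν * √ν = ν := Real.mul_self_sqrt (by linarith)
  set s := √ν with hs
  have e1 : 1 / ((11 / 10 : ℝ) ^ a / s) = s * (10 / 11) ^ a := by
    rw [one_div_div, div_eq_mul_inv, ← inv_pow]; norm_num
  have e2 : 2 * ν * (3 / 4 : ℝ) ^ a * ((11 / 10) ^ a / s) = 2 * s * (33 / 40) ^ a := by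
    rw [← h2, show (33 / 40 : ℝ) = 3 / 4 * (11 / 10) by norm_num, mul_pow]; field_simp
  have e3 : 2 * ν * (3 / 4 : ℝ) ^ a * ((11 / 10) ^ a / s) ^ 2 = 2 * (363 / 400) ^ a := by
    rw [← h2, show (363 / 400 : ℝ) = 3 / 4 * (11 / 10) * (11 / 10) by norm_num, mul_pow, mul_pow]
    field_simp
  rw [e1, e2, e3]
  have h3 : (33 / 40 : ℝ) ^ a ≤ (10 / 11) ^ a := pow_le_pow_left₀ (by norm_num) (by norm_num) a
  have h4 : (363 / 400 : ℝ) ^ a ≤ (10 / 11) ^ a := pow_le_pow_left₀ (by norm_num) (by norm_num) a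
  have h5 : (0 : ℝ) ≤ (10 / 11) ^ a := by positivity
  nlinarith [mul_le_mul_of_nonneg_left h3 (by linarith : 0 ≤ s),
    mul_le_mul_of_nonneg_right h1 h5]

omit [DecidableEq G] in
/-- One diagonal of pieces. -/
lemma dt0_family {cM cE c : ℝ} (hcM : 0 ≤ cM) (hcE : 0 ≤ cE) (hc : 1 ≤ c) {e : G}
    {A B C : Matrix G G ℝ} (hM : HM cM e A B C) (hE : HE cE e A B C)
    (hN : 0 ≤ n3 A + n3 B + n3 C) {S : ℕ} {cf : G → G → ℕ → ℝ} {ν : ℝ} (hν : 1 ≤ ν)
    (h1 : ∀ u x m, |cf u x m| ≤ 1) (h0 : ∀ u x m, S ≤ m → cf u x m = 0)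
    (htv : ∀ u x, ∑ m ∈ range S, |cf u x (m + 1) - cf u x m| ≤ ν)
    {co0 : ℕ → ℕ → ℤ → ℝ} (hco0 : ∀ j, Wav c (2 ^ (j + 1)) (y0 j) (co0 j))
    {cox : G → G → ℕ → ℕ → ℤ → ℝ}
    (hcox : ∀ u x j, Wav c (2 ^ (j + 1)) (yx (cf u x) j) (cox u x j))
    (J K a b : ℕ) {φ : ℕ → ℕ} (hφ : Monotone φ) (p : ℕ → Prop) [DecidablePred p]
    (hp : ∀ k, p k → φ k - k = a ∧ k - φ k = b ∧ φ k < J) :
    |∑ x2, ∑ x0, C x2 x0 * ∑ k ∈ range K, (if p k then
        ∑ r ∈ rng (k + (φ k - k + 4)), (cf x2 x0 (2 ^ φ k) * co0 (φ k) k r + cox x2 x0 (φ k) k r) *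
          eta3 k (line e A B x0 x2) r else 0)| ≤
      (160 * c * cM + 320 * c * cE) * √ν * (n3 A + n3 B + n3 C) *
        ((((a + b : ℕ) : ℝ) + 5) * (10 / 11) ^ (a + b)) := by
  have hs1 : 1 ≤ √ν := Real.one_le_sqrt.mpr hν
  have k1 := corM hM K (a + 4) (α := 160 * c * (1 / 2) ^ (a + b))
    (fun k u x => cf u x (2 ^ φ k)) hν (fun k u x => h1 u x _)
    (fun u x => (var_mono (cf u x) (φ := fun k => 2 ^ φ k)
      (fun _ _ h => Nat.pow_le_pow_right (by norm_num) (hφ h)) K).trans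
      (var_le (h0 u x) (htv u x) _)) (by positivity)
    (fun k r => if p k then co0 (φ k) k r else 0) (fun k r => by
      split_ifs with h
      · have := (hco0 (φ k)).y0_bound hc k r
        rwa [(hp k h).1, (hp k h).2.1] at this
      · rw [abs_zero]; positivity)
  have k2 := corE hE K (a + 4) (lam := (11 / 10) ^ a / √ν) (ν := 2 * ν * (3 / 4) ^ a)
    (α := 64 * c * (1 / 2) ^ b) (fun k r u x => if p k then cox u x (φ k) k r else 0)
    (fun k u x => if p k then Vv (cf u x) (φ k) * (3 / 4) ^ a else 0) (by positivity)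
    (by positivity) (by positivity)
    (fun k r u x => by
      split_ifs with h
      · have := (hcox u x (φ k)).yx_sup hc (h1 u x) k r
        rw [(hp k h).1, (hp k h).2.1] at this
        refine this.trans (div_le_div_of_nonneg_right ?_ (by positivity))
        have h2 := mul_le_mul_of_nonneg_left (min_le_left 2 (Vv (cf u x) (φ k)))
          (show (0 : ℝ) ≤ 32 * c * (1 / 2) ^ b by positivity)
        linarith
      · rw [abs_zero]; positivity)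
    (fun k u x => by
      split_ifs
      · exact mul_nonneg (Vv_nonneg _ _) (by positivity)
      · exact le_rfl)
    (fun k u x => by
      split_ifs with h
      · have := (hcox u x (φ k)).yx_sq hc (h1 u x) k
        rwa [(hp k h).1, (hp k h).2.1] at this
      · simp)
    (fun u x => by
      rw [← Finset.sum_filter, ← Finset.sum_mul]
      refine mul_le_mul_of_nonneg_right (le_trans ?_ (sum_Vv_le (h0 u x) (htv u x) J))
        (by positivity)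
      rw [← Finset.sum_image (s := (range K).filter p) (g := φ) (f := fun j => Vv (cf u x) j)]
      · refine Finset.sum_le_sum_of_subset_of_nonneg (fun j hj => ?_) fun _ _ _ => Vv_nonneg _ _
        obtain ⟨k, hk, rfl⟩ := Finset.mem_image.mp hj
        exact Finset.mem_range.mpr (hp k (Finset.mem_filter.mp hk).2).2.2
      · intro k hk k' hk' hkk
        have a1 := hp k (Finset.mem_filter.mp hk).2
        have a2 := hp k' (Finset.mem_filter.mp hk').2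
        omega)
  have e1 : ∑ x2, ∑ x0, C x2 x0 * ∑ k ∈ range K, (if p k then
        ∑ r ∈ rng (k + (φ k - k + 4)), (cf x2 x0 (2 ^ φ k) * co0 (φ k) k r + cox x2 x0 (φ k) k r) *
          eta3 k (line e A B x0 x2) r else 0) =
      ∑ x2, ∑ x0, C x2 x0 * ∑ k ∈ range K, ∑ r ∈ rng (k + (a + 4)),
        (if p k then co0 (φ k) k r else 0) * cf x2 x0 (2 ^ φ k) * eta3 k (line e A B x0 x2) r +
      ∑ x2, ∑ x0, C x2 x0 * ∑ k ∈ range K, ∑ r ∈ rng (k + (a + 4)),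
        (if p k then cox x2 x0 (φ k) k r else 0) * eta3 k (line e A B x0 x2) r := by
    simp only [← Finset.sum_add_distrib, ← mul_add]
    refine Finset.sum_congr rfl fun x2 _ => Finset.sum_congr rfl fun x0 _ => ?_
    congr 1
    refine Finset.sum_congr rfl fun k _ => ?_
    split_ifs with h
    · rw [(hp k h).1]
      exact Finset.sum_congr rfl fun r _ => by ring
    · simp
  rw [e1]
  refine (abs_add_le _ _).trans ((add_le_add k1 k2).trans ?_)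
  set N := n3 A + n3 B + n3 C
  have b1 : (1 / 2 : ℝ) ^ (a + b) ≤ (10 / 11) ^ (a + b) :=
    pow_le_pow_left₀ (by norm_num) (by norm_num) _
  have b2 : (1 / 2 : ℝ) ^ b * (10 / 11) ^ a ≤ (10 / 11) ^ (a + b) := by
    rw [pow_add, mul_comm]
    exact mul_le_mul_of_nonneg_left (pow_le_pow_left₀ (by norm_num) (by norm_num) _) (by positivity)
  have b3 : (((a + 4 : ℕ) : ℝ) + 1) ≤ ((a + b : ℕ) : ℝ) + 5 := by
    push_cast; linarith [Nat.cast_nonneg (α := ℝ) b]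
  have b4 := dt0_lam hν a
  have c1 : 160 * c * (1 / 2) ^ (a + b) * (cM * (((a + 4 : ℕ) : ℝ) + 1) * √ν * N) ≤
      160 * c * cM * √ν * N * ((((a + b : ℕ) : ℝ) + 5) * (10 / 11) ^ (a + b)) := by
    calc _ = 160 * c * cM * √ν * N * ((((a + 4 : ℕ) : ℝ) + 1) * (1 / 2) ^ (a + b)) := by ring
      _ ≤ _ := by gcongr
  have c2 : 64 * c * (1 / 2) ^ b * (cE * (((a + 4 : ℕ) : ℝ) + 1) *
      (1 / ((11 / 10) ^ a / √ν) + 2 * ν * (3 / 4) ^ a * ((11 / 10) ^ a / √ν) +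
        2 * ν * (3 / 4) ^ a * ((11 / 10) ^ a / √ν) ^ 2) * N) ≤
      320 * c * cE * √ν * N * ((((a + b : ℕ) : ℝ) + 5) * (10 / 11) ^ (a + b)) := by
    calc _ ≤ 64 * c * (1 / 2) ^ b * (cE * (((a + 4 : ℕ) : ℝ) + 1) *
          (5 * √ν * (10 / 11) ^ a) * N) := by gcongr
      _ = 320 * c * cE * √ν * N * ((((a + 4 : ℕ) : ℝ) + 1) * ((1 / 2) ^ b * (10 / 11) ^ a)) := by
          ring
      _ ≤ _ := by gcongr
  linarith

end

theorem DT0 : ∃ c : ℝ, 0 ≤ c ∧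
    ∀ (G : Type) [Fintype G] [DecidableEq G] [AddCommGroup G] (e : G) (K : ℕ),
      (2 ^ K : ℕ) • e = 0 → ∀ (A B C : Matrix G G ℝ) (S : ℕ) (cf : G → G → ℕ → ℝ) (ν : ℝ),
      1 ≤ ν → (∀ u x m, |cf u x m| ≤ 1) → (∀ u x m, S ≤ m → cf u x m = 0) →
      (∀ u x, ∑ m ∈ range S, |cf u x (m + 1) - cf u x m| ≤ ν) →
      |∑ x2, ∑ x0, C x2 x0 * odd S (fun m => cf x2 x0 m / m) (line e A B x0 x2)| ≤
        c * √ν * (n3 A + n3 B + n3 C) := by
  obtain ⟨cM, hcM, hM⟩ := thmM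
  obtain ⟨cE, hcE, hE⟩ := thmE
  obtain ⟨c, hc, hw⟩ := wav_exists
  obtain ⟨cT, hcT, hT⟩ := triv
  obtain ⟨cS, hcS, hS⟩ := odd_sig0
  obtain ⟨cg, hcg, hg⟩ := sum_geo_le
  refine ⟨cT * √cS + 2 * cg * (160 * c * cM + 320 * c * cE), by positivity, ?_⟩
  intro G _ _ _ e K hK A B C S cf ν hν h1 h0 htv
  have hN : 0 ≤ n3 A + n3 B + n3 C :=
    add_nonneg (add_nonneg (n3_nonneg _) (n3_nonneg _)) (n3_nonneg _)
  choose co0 hco0 using fun j => hw (2 ^ (j + 1)) (y0 j) (y0_zero j)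
    (fun m hm => y0_eq_zero_of_ge hm)
  choose cox hcox using fun u x j => hw (2 ^ (j + 1)) (yx (cf u x) j) (yx_zero _ j)
    (fun m hm => yx_eq_zero_of_ge _ hm)
  choose w hw1 hw2 using fun u x => hS S (cf u x) ν hν (h1 u x) (h0 u x) (htv u x)
  set J := 2 * S with hJ
  have hJ2 : 2 * S ≤ 2 ^ J := Nat.lt_two_pow_self.le
  have hper : ∀ x0 x2 n, line e A B x0 x2 (n + 2 ^ K) = line e A B x0 x2 n := by
    intro x0 x2 n
    have : ((2 : ℤ) ^ K) • e = 0 := by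
      rw [← hK, ← natCast_zsmul]; push_cast; rfl
    simp only [line, add_smul, this, add_zero]
  set g : G → G → ℕ → ℕ → ℝ := fun x2 x0 j k => ∑ r ∈ rng (k + (j - k + 4)),
    (cf x2 x0 (2 ^ j) * co0 j k r + cox x2 x0 j k r) * eta3 k (line e A B x0 x2) r with hgdef
  have key : ∀ x2 x0, odd S (fun m => cf x2 x0 m / m) (line e A B x0 x2) =
      -(∑ n ∈ Finset.Icc (-(S : ℤ)) S, w x2 x0 n * line e A B x0 x2 n) +
        ∑ j ∈ range J, ∑ k ∈ range K, g x2 x0 j k := by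
    intro x2 x0
    rw [← hw2, eq_neg_add_iff_add_eq, add_comm, odd_decomp (h0 x2 x0) hJ2,
      odd_decomp (h0 x2 x0) hJ2, ← Finset.sum_add_distrib]
    refine Finset.sum_congr rfl fun j _ => ?_
    have r1 := (hco0 j).rep K _ (hper x0 x2) (fun k => rng (k + (j - k + 4)))
      (fun k _ r hr => (hco0 j).mem_rng k r hr)
    have r2 := (hcox x2 x0 j).rep K _ (hper x0 x2) (fun k => rng (k + (j - k + 4)))
      (fun k _ r hr => (hcox x2 x0 j).mem_rng k r hr)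
    have r3 : ∑ k ∈ range K, g x2 x0 j k = cf x2 x0 (2 ^ j) * ∑ k ∈ range K,
        ∑ r ∈ rng (k + (j - k + 4)), co0 j k r * eta3 k (line e A B x0 x2) r +
        ∑ k ∈ range K, ∑ r ∈ rng (k + (j - k + 4)),
          cox x2 x0 j k r * eta3 k (line e A B x0 x2) r := by
      simp only [hgdef, Finset.mul_sum, ← Finset.sum_add_distrib]
      exact Finset.sum_congr rfl fun k _ => Finset.sum_congr rfl fun r _ => by ring
    rw [r3, ← r1, ← r2]
    ring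
  have e1 : ∑ x2, ∑ x0, C x2 x0 * odd S (fun m => cf x2 x0 m / m) (line e A B x0 x2) =
      -(∑ x2, ∑ x0, C x2 x0 * ∑ n ∈ Finset.Icc (-(S : ℤ)) S, w x2 x0 n * line e A B x0 x2 n) +
      (∑ i ∈ range J, ∑ x2, ∑ x0, C x2 x0 * ∑ k ∈ range K,
        (if k + i < J then g x2 x0 (k + i) k else 0) +
      ∑ i ∈ range K, ∑ x2, ∑ x0, C x2 x0 * ∑ k ∈ range K,
        (if i + 1 ≤ k ∧ k - (i + 1) < J then g x2 x0 (k - (i + 1)) k else 0)) := by
    have sw : ∀ (n : ℕ) (F : ℕ → G → G → ℝ), ∑ i ∈ range n, ∑ x2, ∑ x0, C x2 x0 * F i x2 x0 =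
        ∑ x2, ∑ x0, C x2 x0 * ∑ i ∈ range n, F i x2 x0 := by
      intro n F
      rw [Finset.sum_comm]
      refine Finset.sum_congr rfl fun x2 _ => ?_
      rw [Finset.sum_comm]
      exact Finset.sum_congr rfl fun x0 _ => (Finset.mul_sum _ _ _).symm
    rw [sw, sw]
    simp only [← Finset.sum_neg_distrib, ← Finset.sum_add_distrib]
    refine Finset.sum_congr rfl fun x2 _ => Finset.sum_congr rfl fun x0 _ => ?_
    rw [key, sum_diag]
    ring
  rw [e1]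
  have t1 := hT G e A B C (Finset.Icc (-(S : ℤ)) S) w (cS * ν) (by nlinarith) hw1
  rw [Real.sqrt_mul (by linarith)] at t1
  set D := (160 * c * cM + 320 * c * cE) * √ν * (n3 A + n3 B + n3 C) with hD
  have hD0 : 0 ≤ D := by positivity
  have t2 : |∑ i ∈ range J, ∑ x2, ∑ x0, C x2 x0 * ∑ k ∈ range K,
      (if k + i < J then g x2 x0 (k + i) k else 0)| ≤ D * cg := by
    refine (Finset.abs_sum_le_sum_abs _ _).trans
      (le_trans ?_ (mul_le_mul_of_nonneg_left (hg J) hD0))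
    rw [Finset.mul_sum]
    refine Finset.sum_le_sum fun i _ => ?_
    exact dt0_family hcM hcE hc (hM G e A B C) (hE G e A B C) hN hν h1 h0 htv hco0 hcox J K i 0
      (φ := fun k => k + i) (fun _ _ h => by simpa using h) (fun k => k + i < J)
      (fun k hk => by omega)
  have t3 : |∑ i ∈ range K, ∑ x2, ∑ x0, C x2 x0 * ∑ k ∈ range K,
      (if i + 1 ≤ k ∧ k - (i + 1) < J then g x2 x0 (k - (i + 1)) k else 0)| ≤ D * cg := by
    refine (Finset.abs_sum_le_sum_abs _ _).trans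
      (le_trans ?_ (mul_le_mul_of_nonneg_left (hg (K + 1)) hD0))
    rw [Finset.sum_range_succ', mul_add, Finset.mul_sum]
    refine le_add_of_le_of_nonneg (Finset.sum_le_sum fun i _ => ?_) (by positivity)
    have := dt0_family hcM hcE hc (hM G e A B C) (hE G e A B C) hN hν h1 h0 htv hco0 hcox J K 0
      (i + 1) (φ := fun k => k - (i + 1)) (fun _ _ h => Nat.sub_le_sub_right h _)
      (fun k => i + 1 ≤ k ∧ k - (i + 1) < J) (fun k hk => by omega)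
    rw [zero_add] at this
    exact this
  refine (abs_add_le _ _).trans ?_
  rw [abs_neg]
  refine (add_le_add t1 ((abs_add_le _ _).trans (add_le_add t2 t3))).trans (le_of_eq ?_)
  rw [hD]
  ring

end Crest.Agent.R072
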