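import Crest.Agent.R072.DT0

/-! Row 72: the discrete theorem for at most `n` annuli on a shifted lattice (finite group). -/

set_option autoImplicit false

open Matrix Finset

namespace Crest.Agent.R072

theorem dt1_mono_var {H : ℝ → ℝ} (hH : Monotone H) (h0 : ∀ u, 0 ≤ H u) (h1 : ∀ u, H u ≤ 1)
    (a b : ℕ → ℝ) (ha : ∀ k : ℕ, (k : ℝ) ≤ a k ∧ a k ≤ k + 2)
    (hb : ∀ k : ℕ, (k : ℝ) ≤ b k ∧ b k ≤ k + 2) (N : ℕ) :
    ∑ k ∈ range N, |H (b k) - H (a k)| ≤ 2 := by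
  have key : ∑ k ∈ range N, |H (b k) - H (a k)| ≤ H (N + 1) + H N - H 1 - H 0 := by
    induction N with
    | zero => simp
    | succ N ih =>
      rw [Finset.sum_range_succ]
      have e1 := hH (ha N).1
      have e2 := hH (ha N).2
      have e3 := hH (hb N).1
      have e4 := hH (hb N).2
      have e5 : |H (b N) - H (a N)| ≤ H (N + 2) - H N := abs_le.2 ⟨by linarith, by linarith⟩
      push_cast
      rw [show (N : ℝ) + 1 + 1 = N + 2 by ring]
      linarith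
  linarith [h0 1, h0 0, h1 (N + 1), h1 N]

/-- indicator of an open interval -/
noncomputable def dt1Ind (ε R u : ℝ) : ℝ := if ε < u ∧ u < R then 1 else 0

theorem dt1_ind_var {ε R : ℝ} (h : ε < R) (a b : ℕ → ℝ)
    (ha : ∀ k : ℕ, (k : ℝ) ≤ a k ∧ a k ≤ k + 2) (hb : ∀ k : ℕ, (k : ℝ) ≤ b k ∧ b k ≤ k + 2)
    (N : ℕ) : ∑ k ∈ range N, |dt1Ind ε R (b k) - dt1Ind ε R (a k)| ≤ 4 := by
  have e : ∀ u, dt1Ind ε R u = (if ε < u then (1 : ℝ) else 0) - (if R ≤ u then 1 else 0) := by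
    intro u
    unfold dt1Ind
    by_cases h1 : ε < u <;> by_cases h2 : R ≤ u
    · simp [h1, h2, not_lt.2 h2]
    · simp [h1, h2, not_le.1 h2]
    · exact absurd (h.trans_le h2) h1
    · simp [h1, h2]
  have h1 := dt1_mono_var (H := fun u => if ε < u then (1 : ℝ) else 0)
    (fun u v huv => by
      by_cases h1 : ε < u
      · simp [h1, h1.trans_le huv]
      · simp only [h1, if_false]; split_ifs <;> norm_num)
    (fun u => by split_ifs <;> norm_num) (fun u => by split_ifs <;> norm_num) a b ha hb N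
  have h2 := dt1_mono_var (H := fun u => if R ≤ u then (1 : ℝ) else 0)
    (fun u v huv => by
      by_cases h1 : R ≤ u
      · simp [h1, h1.trans huv]
      · simp only [h1, if_false]; split_ifs <;> norm_num)
    (fun u => by split_ifs <;> norm_num) (fun u => by split_ifs <;> norm_num) a b ha hb N
  have h3 := add_le_add h1 h2
  rw [← Finset.sum_add_distrib] at h3
  refine le_trans (Finset.sum_le_sum fun k _ => ?_) (h3.trans (by norm_num))
  rw [e, e]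
  refine le_trans (le_of_eq ?_) (abs_sub _ _)
  congr 1
  ring

/-- the signed sum of indicators -/
noncomputable def dt1C {m : ℕ} (ε R sg : Fin m → ℝ) (u : ℝ) : ℝ :=
  ∑ j, sg j * dt1Ind (ε j) (R j) u

section C
variable {m : ℕ} {ε R sg : Fin m → ℝ} {N : ℕ}

theorem dt1C_var (h : ∀ j, 1 ≤ ε j ∧ ε j < R j ∧ R j ≤ N ∧ |sg j| ≤ 1) (a b : ℕ → ℝ)
    (ha : ∀ k : ℕ, (k : ℝ) ≤ a k ∧ a k ≤ k + 2) (hb : ∀ k : ℕ, (k : ℝ) ≤ b k ∧ b k ≤ k + 2)
    (M : ℕ) : ∑ k ∈ range M, |dt1C ε R sg (b k) - dt1C ε R sg (a k)| ≤ 4 * m := by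
  calc ∑ k ∈ range M, |dt1C ε R sg (b k) - dt1C ε R sg (a k)|
      ≤ ∑ k ∈ range M, ∑ j, |dt1Ind (ε j) (R j) (b k) - dt1Ind (ε j) (R j) (a k)| := by
        refine Finset.sum_le_sum fun k _ => ?_
        unfold dt1C
        rw [← Finset.sum_sub_distrib]
        refine (Finset.abs_sum_le_sum_abs _ _).trans (Finset.sum_le_sum fun j _ => ?_)
        rw [← mul_sub, abs_mul]
        exact mul_le_of_le_one_left (abs_nonneg _) (h j).2.2.2
    _ ≤ ∑ _j : Fin m, (4 : ℝ) := by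
        rw [Finset.sum_comm]
        exact Finset.sum_le_sum fun j _ => dt1_ind_var (h j).2.1 a b ha hb M
    _ = 4 * m := by simp [mul_comm]

theorem dt1C_eq_zero {u : ℝ} (h : ∀ j, ¬ (ε j < u ∧ u < R j)) : dt1C ε R sg u = 0 :=
  Finset.sum_eq_zero fun j _ => by simp [dt1Ind, h j]

theorem dt1C_abs_le (h : ∀ j, 1 ≤ ε j ∧ ε j < R j ∧ R j ≤ N ∧ |sg j| ≤ 1)
    (hd : ∀ i j, i ≠ j → R i ≤ ε j ∨ R j ≤ ε i) (u : ℝ) : |dt1C ε R sg u| ≤ 1 := by
  by_cases hu : ∃ j, ε j < u ∧ u < R j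
  · obtain ⟨j, hj⟩ := hu
    unfold dt1C
    rw [Finset.sum_eq_single j]
    · simpa [dt1Ind, hj] using (h j).2.2.2
    · intro i _ hij
      have : ¬ (ε i < u ∧ u < R i) := by
        rintro ⟨h1, h2⟩
        rcases hd i j hij with h3 | h3 <;> linarith [hj.1, hj.2]
      simp [dt1Ind, this]
    · simp
  · rw [dt1C_eq_zero (not_exists.1 hu)]
    simp

theorem dt1C_lo (h : ∀ j, 1 ≤ ε j ∧ ε j < R j ∧ R j ≤ N ∧ |sg j| ≤ 1) {u : ℝ} (hu : u ≤ 1) :
    dt1C ε R sg u = 0 := dt1C_eq_zero fun j hj => by linarith [hj.1, (h j).1]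

theorem dt1C_hi (h : ∀ j, 1 ≤ ε j ∧ ε j < R j ∧ R j ≤ N ∧ |sg j| ≤ 1) {u : ℝ} (hu : N ≤ u) :
    dt1C ε R sg u = 0 := dt1C_eq_zero fun j hj => by linarith [hj.2, (h j).2.2.1]

end C

theorem dt1_sum_Ico (F : ℤ → ℝ) (N : ℕ) :
    ∑ i ∈ Finset.Ico (-(N : ℤ)) N, F i =
      ∑ k ∈ range N, F k + ∑ k ∈ range N, F (-((k + 1 : ℕ) : ℤ)) := by
  induction N with
  | zero => simp
  | succ N ih =>
    have e : Finset.Ico (-((N + 1 : ℕ) : ℤ)) ((N + 1 : ℕ) : ℤ) =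
        insert (N : ℤ) (insert (-((N + 1 : ℕ) : ℤ)) (Finset.Ico (-(N : ℤ)) N)) := by
      ext i
      simp only [Finset.mem_Ico, Finset.mem_insert]
      omega
    rw [e, Finset.sum_insert, Finset.sum_insert, ih, Finset.sum_range_succ, Finset.sum_range_succ]
    · ring
    · simp only [Finset.mem_Ico]; omega
    · simp only [Finset.mem_Ico, Finset.mem_insert]; omega

theorem dt1_odd (cf : ℕ → ℝ) (N : ℕ) (hN : cf N = 0) (f : ℤ → ℝ) :
    odd N (fun m => cf m / m) f = ∑ i ∈ Finset.Ico (-(N : ℤ)) N, cf i.natAbs / i * f i := by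
  rw [dt1_sum_Ico]
  unfold odd
  simp only [mul_sub, Finset.sum_sub_distrib]
  have h1 := Finset.sum_range_succ (fun m : ℕ => cf m / m * f (-(m : ℤ))) N
  have h2 := Finset.sum_range_succ' (fun m : ℕ => cf m / m * f (-(m : ℤ))) N
  rw [hN] at h1
  simp only [Nat.cast_zero, div_zero, zero_mul, add_zero, zero_div] at h1 h2
  rw [← h1, h2, sub_eq_add_neg, ← Finset.sum_neg_distrib]
  congr 1
  refine Finset.sum_congr rfl fun k _ => ?_
  rw [Int.natAbs_neg, Int.natAbs_natCast, Int.cast_neg, Int.cast_natCast, div_neg, neg_mul]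

theorem dt1_sum_sq (N : ℕ) : ∑ k ∈ range N, 1 / ((k : ℝ) + 1) ^ 2 ≤ 2 := by
  have key : ∑ k ∈ range N, 1 / ((k : ℝ) + 1) ^ 2 ≤ 2 - 2 / ((N : ℝ) + 1) := by
    induction N with
    | zero => simp
    | succ N ih =>
      rw [Finset.sum_range_succ]
      have hN : (0 : ℝ) ≤ N := Nat.cast_nonneg N
      have : 1 / ((N : ℝ) + 1) ^ 2 ≤ 2 / ((N : ℝ) + 1) - 2 / ((N : ℝ) + 1 + 1) := by
        rw [div_sub_div _ _ (by positivity) (by positivity), div_le_div_iff₀ (by positivity)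
          (by positivity)]
        nlinarith [mul_nonneg hN hN, mul_nonneg hN (mul_nonneg hN hN)]
      push_cast
      linarith
  have : 0 ≤ 2 / ((N : ℝ) + 1) := by positivity
  linarith

theorem dt1_pos {c θ : ℝ} (hc : |c| ≤ 1) (h0 : 0 ≤ θ) (h1 : θ < 1) {k : ℝ} (hk : 1 ≤ k) :
    ((1 + k) * |c / (k + θ) - c / k|) ^ 3 ≤ 32 * (1 / (k + 1) ^ 2) := by
  have e : c / (k + θ) - c / k = -(c * (θ / (k * (k + θ)))) := by
    field_simp
    ring
  have h2 : |c / (k + θ) - c / k| ≤ 1 / (k * k) := by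
    rw [e, abs_neg, abs_mul, abs_of_nonneg (show 0 ≤ θ / (k * (k + θ)) by positivity)]
    refine (mul_le_of_le_one_left (by positivity) hc).trans ?_
    exact div_le_div₀ zero_le_one h1.le (by positivity) (by nlinarith)
  have h3 : (1 + k) * |c / (k + θ) - c / k| ≤ 2 / k := by
    refine (mul_le_mul_of_nonneg_left h2 (by positivity)).trans ?_
    rw [mul_one_div, div_le_div_iff₀ (by positivity) (by positivity)]
    nlinarith
  refine (pow_le_pow_left₀ (by positivity) h3 3).trans ?_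
  rw [div_pow, mul_one_div, div_le_div_iff₀ (by positivity) (by positivity)]
  nlinarith [mul_nonneg (sub_nonneg.2 hk) (sq_nonneg k), mul_nonneg (sub_nonneg.2 hk)
    (zero_le_one.trans hk)]

theorem dt1_neg {c c' θ : ℝ} (hc : |c| ≤ 1) (hc' : |c'| ≤ 1) (h0 : 0 ≤ θ) (h1 : θ < 1) {k : ℝ}
    (hk : 1 ≤ k) (hk' : 2 ≤ k ∨ c = 0) :
    ((1 + k) * |c / (-k + θ) - c' / -k|) ^ 3 ≤ 128 * |c' - c| + 256 * (1 / k ^ 2) := by
  have hkθ : 0 < k - θ := by linarith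
  have e : c / (-k + θ) - c' / -k = (c' - c) / k - c * (θ / (k * (k - θ))) := by
    rw [show -k + θ = -(k - θ) by ring, div_neg, div_neg]
    field_simp
    ring
  have h2 : |c * (θ / (k * (k - θ)))| ≤ 2 / (k * k) := by
    rcases hk' with hk' | rfl
    · rw [abs_mul, abs_of_nonneg (show 0 ≤ θ / (k * (k - θ)) by positivity)]
      refine (mul_le_of_le_one_left (by positivity) hc).trans ?_
      rw [div_le_div_iff₀ (by positivity) (by positivity)]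
      nlinarith [mul_nonneg (sub_nonneg.2 h1.le) (mul_self_nonneg k)]
    · simp only [zero_mul, abs_zero]; positivity
  have h3 : (1 + k) * |c / (-k + θ) - c' / -k| ≤ 2 * |c' - c| + 4 / k := by
    rw [e]
    have h4 : |(c' - c) / k - c * (θ / (k * (k - θ)))| ≤ |c' - c| / k + 2 / (k * k) := by
      refine (abs_sub _ _).trans ?_
      rw [abs_div, abs_of_pos (show 0 < k by linarith)]
      linarith
    calc _ ≤ (2 * k) * (|c' - c| / k + 2 / (k * k)) :=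
          mul_le_mul (by linarith) h4 (abs_nonneg _) (by positivity)
      _ = _ := by field_simp; ring
  refine (pow_le_pow_left₀ (by positivity) h3 3).trans ?_
  have hδ0 : 0 ≤ |c' - c| := abs_nonneg _
  have hδ : |c' - c| ≤ 2 := (abs_sub _ _).trans (by linarith)
  generalize |c' - c| = δ at hδ0 hδ
  have hx0 : 0 ≤ 1 / k := by positivity
  have hx1 : 1 / k ≤ 1 := by rw [div_le_one (by positivity)]; exact hk
  rw [show 4 / k = 4 * (1 / k) by ring, show 1 / k ^ 2 = (1 / k) ^ 2 by rw [div_pow, one_pow]]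
  generalize 1 / k = x at hx0 hx1
  have h5 : (2 * δ + 4 * x) ^ 3 ≤ 4 * ((2 * δ) ^ 3 + (4 * x) ^ 3) := by
    nlinarith [mul_nonneg (show 0 ≤ 2 * δ + 4 * x by positivity) (sq_nonneg (2 * δ - 4 * x))]
  have h6 : δ ^ 3 ≤ 4 * δ := by nlinarith [mul_nonneg hδ0 (mul_nonneg hδ0 (sub_nonneg.2 hδ))]
  have h7 : x ^ 3 ≤ x ^ 2 := by nlinarith [mul_nonneg (sq_nonneg x) (sub_nonneg.2 hx1)]
  nlinarith

theorem dt1_err {m : ℕ} {ε R sg : Fin m → ℝ} {N : ℕ}
    (h : ∀ j, 1 ≤ ε j ∧ ε j < R j ∧ R j ≤ N ∧ |sg j| ≤ 1)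
    (hd : ∀ i j, i ≠ j → R i ≤ ε j ∨ R j ≤ ε i) {θ : ℝ} (h0 : 0 ≤ θ) (h1 : θ < 1) :
    ∑ i ∈ Finset.Ico (-(N : ℤ)) N, ((1 + |(i : ℝ)|) *
      |dt1C ε R sg |(i : ℝ) + θ| / ((i : ℝ) + θ) - dt1C ε R sg ((i.natAbs : ℕ) + θ) / i|) ^ 3 ≤
      576 + 512 * (m : ℝ) := by
  rw [dt1_sum_Ico]
  have hs := dt1_sum_sq N
  have hv := dt1C_var h (fun k => (k : ℝ) + 1 - θ) (fun k => (k : ℝ) + 1 + θ)
    (fun k => ⟨by linarith, by linarith⟩) (fun k => ⟨by linarith, by linarith⟩) N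
  have e1 : ∑ k ∈ range N, ((1 + |(((k : ℕ) : ℤ) : ℝ)|) *
      |dt1C ε R sg |(((k : ℕ) : ℤ) : ℝ) + θ| / ((((k : ℕ) : ℤ) : ℝ) + θ) -
        dt1C ε R sg ((((k : ℕ) : ℤ).natAbs : ℕ) + θ) / (((k : ℕ) : ℤ) : ℝ)|) ^ 3 ≤
      ∑ k ∈ range N, 32 * (1 / ((k : ℝ) + 1) ^ 2) := by
    refine Finset.sum_le_sum fun k _ => ?_
    have hk : (0 : ℝ) ≤ k := Nat.cast_nonneg k
    rw [Int.natAbs_natCast, Int.cast_natCast, abs_of_nonneg hk,
      abs_of_nonneg (show (0 : ℝ) ≤ k + θ by positivity)]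
    rcases Nat.eq_zero_or_pos k with rfl | hk'
    · rw [dt1C_lo h (by simpa using h1.le)]
      simp
    · exact dt1_pos (dt1C_abs_le h hd _) h0 h1 (by exact_mod_cast hk')
  have e2 : ∑ k ∈ range N, ((1 + |((-((k + 1 : ℕ) : ℤ) : ℤ) : ℝ)|) *
      |dt1C ε R sg |((-((k + 1 : ℕ) : ℤ) : ℤ) : ℝ) + θ| / (((-((k + 1 : ℕ) : ℤ) : ℤ) : ℝ) + θ) -
        dt1C ε R sg (((-((k + 1 : ℕ) : ℤ) : ℤ).natAbs : ℕ) + θ) /
          ((-((k + 1 : ℕ) : ℤ) : ℤ) : ℝ)|) ^ 3 ≤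
      ∑ k ∈ range N, (128 * |dt1C ε R sg ((k : ℝ) + 1 + θ) - dt1C ε R sg ((k : ℝ) + 1 - θ)| +
        256 * (1 / ((k : ℝ) + 1) ^ 2)) := by
    refine Finset.sum_le_sum fun k _ => ?_
    have hk : (0 : ℝ) ≤ k := Nat.cast_nonneg k
    rw [Int.natAbs_neg, Int.natAbs_natCast, Int.cast_neg, Int.cast_natCast, abs_neg]
    push_cast
    rw [abs_of_nonneg (show (0 : ℝ) ≤ k + 1 by positivity),
      abs_of_nonpos (show -((k : ℝ) + 1) + θ ≤ 0 by linarith),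
      show -(-((k : ℝ) + 1) + θ) = k + 1 - θ by ring]
    refine dt1_neg (dt1C_abs_le h hd _) (dt1C_abs_le h hd _) h0 h1 (by linarith) ?_
    rcases Nat.eq_zero_or_pos k with rfl | hk'
    · exact Or.inr (dt1C_lo h (by simpa using h0))
    · have : (1 : ℝ) ≤ k := by exact_mod_cast hk'
      exact Or.inl (by linarith)
  rw [Finset.sum_add_distrib, ← Finset.mul_sum, ← Finset.mul_sum] at e2
  rw [← Finset.mul_sum] at e1
  linarith

theorem DT1 : ∃ c : ℝ, 0 ≤ c ∧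
    ∀ (G : Type) [Fintype G] [DecidableEq G] [AddCommGroup G] (e : G) (K : ℕ),
      (2 ^ K : ℕ) • e = 0 → ∀ (A B C : Matrix G G ℝ) (n N : ℕ) (θ : ℝ), 1 ≤ n → 0 ≤ θ → θ < 1 →
      ∀ (m : G → G → ℕ) (ε R sg : (u x : G) → Fin (m u x) → ℝ), (∀ u x, m u x ≤ n) →
      (∀ u x j, 1 ≤ ε u x j ∧ ε u x j < R u x j ∧ R u x j ≤ N ∧ |sg u x j| ≤ 1) →
      (∀ u x i j, i ≠ j → R u x i ≤ ε u x j ∨ R u x j ≤ ε u x i) →
      |∑ x2, ∑ x0, C x2 x0 * ∑ j, sg x2 x0 j * ∑ i ∈ Finset.Ico (-(N : ℤ)) N,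
          if ε x2 x0 j < |(i : ℝ) + θ| ∧ |(i : ℝ) + θ| < R x2 x0 j then
            line e A B x0 x2 i / ((i : ℝ) + θ) else 0| ≤
        c * √n * (n3 A + n3 B + n3 C) := by
  obtain ⟨c₀, hc₀, H₀⟩ := DT0
  obtain ⟨c₁, hc₁, H₁⟩ := triv
  refine ⟨c₀ * 2 + c₁ * 33, by positivity, ?_⟩
  intro G _ _ _ e K hK A B C n N θ hn h0 h1 m ε R sg hm h hd
  have hn' : (1 : ℝ) ≤ n := by exact_mod_cast hn
  have hm' : ∀ u x, (m u x : ℝ) ≤ n := fun u x => by exact_mod_cast hm u x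
  have k₀ := H₀ G e K hK A B C N (fun u x k => dt1C (ε u x) (R u x) (sg u x) (k + θ)) (4 * n)
    (by linarith) (fun u x k => dt1C_abs_le (h u x) (hd u x) _)
    (fun u x k hk => dt1C_hi (h u x) (by
      have : (N : ℝ) ≤ k := by exact_mod_cast hk
      linarith))
    (fun u x => (dt1C_var (h u x) (fun k => (k : ℝ) + θ) (fun k => ((k + 1 : ℕ) : ℝ) + θ)
      (fun k => ⟨by linarith, by linarith⟩)
      (fun k => ⟨by push_cast; linarith, by push_cast; linarith⟩) N).trans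
      (by linarith [hm' u x]))
  have k₁ := H₁ G e A B C (Finset.Ico (-(N : ℤ)) N)
    (fun u x i => dt1C (ε u x) (R u x) (sg u x) |(i : ℝ) + θ| / ((i : ℝ) + θ) -
      dt1C (ε u x) (R u x) (sg u x) ((i.natAbs : ℕ) + θ) / i) (33 ^ 2 * n) (by linarith)
    (fun u x => (dt1_err (h u x) (hd u x) h0 h1).trans (by linarith [hm' u x]))
  rw [show (4 : ℝ) = 2 ^ 2 by norm_num, Real.sqrt_mul (by norm_num),
    Real.sqrt_sq (by norm_num)] at k₀
  rw [Real.sqrt_mul (by norm_num), Real.sqrt_sq (by norm_num)] at k₁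
  refine le_trans (le_of_eq ?_) ((abs_add_le _ _).trans ((add_le_add k₀ k₁).trans_eq (by ring)))
  congr 1
  rw [← Finset.sum_add_distrib]
  refine Finset.sum_congr rfl fun u _ => ?_
  rw [← Finset.sum_add_distrib]
  refine Finset.sum_congr rfl fun x _ => ?_
  rw [← mul_add]
  congr 1
  rw [dt1_odd (fun k => dt1C (ε u x) (R u x) (sg u x) (k + θ)) N
    (dt1C_hi (h u x) (by linarith)), ← Finset.sum_add_distrib]
  simp only [Finset.mul_sum]
  rw [Finset.sum_comm]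
  refine Finset.sum_congr rfl fun i _ => ?_
  rw [← add_mul, add_sub_cancel, dt1C, Finset.sum_div, Finset.sum_mul]
  refine Finset.sum_congr rfl fun j _ => ?_
  unfold dt1Ind
  split_ifs
  · ring
  · simp

end Crest.Agent.R072
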