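import Mathlib

/-! Row 72 (triangular Hilbert transform): shared definitions. -/

set_option autoImplicit false

open Matrix Finset

namespace Crest.Agent.R072

noncomputable section

section Mat
variable {G : Type} [Fintype G] [DecidableEq G]

/-- `E = τ (P + τ)⁻¹`. -/
def Em (τ : ℝ) (P : Matrix G G ℝ) : Matrix G G ℝ := τ • (P + τ • (1 : Matrix G G ℝ))⁻¹

/-- `D = 1 - E = P (P + τ)⁻¹`. -/
def Dm (τ : ℝ) (P : Matrix G G ℝ) : Matrix G G ℝ := 1 - Em τ P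

/-- The Bellman function `tr P / τ - log det (1 + P / τ)`. -/
def phi (τ : ℝ) (P : Matrix G G ℝ) : ℝ := P.trace / τ - Real.log (1 + τ⁻¹ • P).det

/-- The gain `tr (D H D H)`. -/
def gn (τ : ℝ) (P H : Matrix G G ℝ) : ℝ := (Dm τ P * H * Dm τ P * H).trace

/-- Bregman divergence of `phi τ` at base point `P0`. -/
def Breg (τ : ℝ) (P P0 : Matrix G G ℝ) : ℝ :=
  phi τ P - phi τ P0 - (Dm τ P0 * (P - P0)).trace / τ

/-- Diagonal matrix of square roots of a weight. -/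
def sqw (W : G → ℝ) : Matrix G G ℝ := diagonal fun x => √(W x)

/-- `Xᵀ diag(Wa) X`. -/
def Qm (X : Matrix G G ℝ) (Wa : G → ℝ) : Matrix G G ℝ := Xᵀ * diagonal Wa * X

/-- `√W (Xᵀ Wa X + Yᵀ Wb Y) √W`. -/
def Pm (X Y : Matrix G G ℝ) (Wa W Wb : G → ℝ) : Matrix G G ℝ :=
  sqw W * (Qm X Wa + Qm Y Wb) * sqw W

/-- Diagonal matrix `h / W`. -/
def Hm (h W : G → ℝ) : Matrix G G ℝ := diagonal fun x => h x / W x

/-- Sum of cubes of the absolute values of the entries. -/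
def n3 (X : Matrix G G ℝ) : ℝ := ∑ a, ∑ x, |X a x| ^ 3

/-- Entrywise product `lam * a * C`. -/
def cut (lam : ℝ) (a : G → G → ℝ) (C : Matrix G G ℝ) : Matrix G G ℝ :=
  Matrix.of fun u x => lam * a u x * C u x

end Mat

section Box
variable {G : Type} [Fintype G] [DecidableEq G] [AddCommGroup G]

/-- Uniform probability weight on the window `q, q + e, …, q + (2^k - 1) e`. -/
def box (e : G) (k : ℕ) (q x : G) : ℝ :=
  (∑ i ∈ range (2 ^ k), if x = q + i • e then (1 : ℝ) else 0) / 2 ^ k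

/-- Haar function of the window of level `k + 1` starting at `q`. -/
def haar (e : G) (k : ℕ) (q x : G) : ℝ := (box e k q x - box e k (q + (2 ^ k : ℕ) • e) x) / 2

/-- Mixed Bellman quantity on the plane `qa + q + qb = r`. -/
def U (e : G) (τ : ℝ) (X Y : Matrix G G ℝ) (k : ℕ) (r : G) : ℝ :=
  ∑ qa, ∑ q, phi τ (Pm X Y (box e k qa) (box e k q) (box e k (r - qa - q)))

/-- Total gain at level `k + 1 → k` on the plane `qa + q + qb = r`. -/
def Gn (e : G) (τ : ℝ) (X Y : Matrix G G ℝ) (k : ℕ) (r : G) : ℝ :=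
  ∑ qa, ∑ q, gn τ (Pm X Y (box e (k + 1) qa) (box e (k + 1) q) (box e (k + 1) (r - qa - q)))
    (Hm (haar e k q) (box e (k + 1) q))

/-- Pure Bellman quantity. -/
def Phi (e : G) (τ : ℝ) (X : Matrix G G ℝ) (k : ℕ) : ℝ := U e τ ((√2 : ℝ) • X) 0 k 0

/-- Average of `f` over `s e, (s + 1) e, …, (s + n - 1) e`. -/
def win (e : G) (n : ℕ) (s : ℤ) (f : G → ℝ) : ℝ := (∑ i ∈ range n, f ((s + (i : ℤ)) • e)) / n

/-- The thick average of level `k` and thickness `l`. -/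
def thick (e : G) (l k : ℕ) (f : G → ℝ) : ℝ :=
  (win e (2 ^ (k + l + 1)) (-(2 ^ l + 1) * 2 ^ k) f +
    win e (2 ^ (k + l + 1)) (-(2 ^ l + 2) * 2 ^ k) f) / 2

/-- The line function `n ↦ A x0 x1 * B x1 x2` with `x0 + x1 + x2 = n e`. -/
def line (e : G) (A B : Matrix G G ℝ) (x0 x2 : G) (n : ℤ) : ℝ :=
  A x0 (n • e - x0 - x2) * B (n • e - x0 - x2) x2

end Box

section Int

/-- Forward average over `2^k` consecutive integers. -/
def avg (k : ℕ) (f : ℤ → ℝ) (r : ℤ) : ℝ := (∑ i ∈ range (2 ^ k), f (r + i)) / 2 ^ k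

/-- Haar difference. -/
def eta (k : ℕ) (f : ℤ → ℝ) (r : ℤ) : ℝ := (avg k f r - avg k f (r + 2 ^ k)) / 2

/-- Triple Haar difference. -/
def eta3 (k : ℕ) (f : ℤ → ℝ) : ℤ → ℝ := eta k (eta k (eta k f))

/-- Pairing of `f` with the odd extension of `y`. -/
def odd (S : ℕ) (y : ℕ → ℝ) (f : ℤ → ℝ) : ℝ := ∑ m ∈ range S, y m * (f m - f (-(m : ℤ)))

/-- Minus a quarter of the second difference. -/
def sig0 (f : ℤ → ℝ) (n : ℤ) : ℝ := (2 * f n - f (n + 1) - f (n - 1)) / 4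

/-- The symmetric integer window `[-2^j, 2^j)`. -/
def rng (j : ℕ) : Finset ℤ := Finset.Ico (-(2 : ℤ) ^ j) (2 ^ j)

/-- Dyadic Haar sign on `ℕ`: the interval of length `2^(κ+1)` and index `n`. -/
def hs (κ n x : ℕ) : ℝ := if x / 2 ^ κ = 2 * n then 1 else if x / 2 ^ κ = 2 * n + 1 then -1 else 0

/-- The discrete truncated triangular Hilbert transform on a shifted lattice. -/
def dHT (F G : ℤ × ℤ → ℂ) (θ ε R : ℝ) (N : ℕ) (z : ℤ × ℤ) : ℂ :=
  ∑ n ∈ Finset.Ico (-(N : ℤ)) N,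
    if ε < |(n : ℝ) + θ| ∧ |(n : ℝ) + θ| < R then
      F (z.1 + n, z.2) * G (z.1, z.2 + n) / (((n : ℝ) + θ : ℝ) : ℂ) else 0

end Int

/-- The trilinear form at level `k` and shift `r`. -/
def Lam {G : Type} [Fintype G] [AddCommGroup G] (e : G) (k : ℕ) (r : ℤ)
    (A B C : Matrix G G ℝ) : ℝ :=
  ∑ x2, ∑ x0, C x2 x0 * eta3 k (line e A B x0 x2) r

end

end Crest.Agent.R072
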