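import Crest.Agent.R072.Tri
import Crest.Agent.R072.Cost

/-! Row 72: the discrete dyadic theorem. -/

set_option autoImplicit false

open Matrix Finset

namespace Crest.Agent.R072

/-- uniform weight on a dyadic block -/
noncomputable def dyBlk (K κ n : ℕ) (x : Fin (2 ^ K)) : ℝ :=
  if (x : ℕ) / 2 ^ κ = n then 1 / 2 ^ κ else 0

/-- normalised Haar function -/
noncomputable def dyH (K κ n : ℕ) (x : Fin (2 ^ K)) : ℝ := hs κ n x / 2 ^ (κ + 1)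

/-- truncation to a matrix -/
def dyMat (K : ℕ) (X : ℕ → ℕ → ℝ) : Matrix (Fin (2 ^ K)) (Fin (2 ^ K)) ℝ :=
  Matrix.of fun a x => X a x

lemma dyBlk_nonneg (K κ n : ℕ) (x : Fin (2 ^ K)) : 0 ≤ dyBlk K κ n x := by
  unfold dyBlk; split_ifs <;> positivity

lemma dyBlk_succ (K κ n : ℕ) (x : Fin (2 ^ K)) :
    dyBlk K (κ + 1) n x = (dyBlk K κ (2 * n) x + dyBlk K κ (2 * n + 1) x) / 2 := by
  unfold dyBlk
  rw [pow_succ, ← Nat.div_div_eq_div_mul]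
  generalize (x : ℕ) / 2 ^ κ = y
  split_ifs <;> first | omega | (field_simp; ring)

lemma dyH_eq (K κ n : ℕ) (x : Fin (2 ^ K)) :
    dyH K κ n x = (dyBlk K κ (2 * n) x - dyBlk K κ (2 * n + 1) x) / 2 := by
  unfold dyH dyBlk hs
  generalize (x : ℕ) / 2 ^ κ = y
  split_ifs <;> first | omega | (field_simp; ring)

lemma dyH_le (K κ n : ℕ) (x : Fin (2 ^ K)) : |dyH K κ n x| ≤ dyBlk K (κ + 1) n x := by
  rw [dyH_eq, dyBlk_succ, abs_le]
  have := dyBlk_nonneg K κ (2 * n) x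
  have := dyBlk_nonneg K κ (2 * n + 1) x
  constructor <;> linarith

lemma dyBlk_zero (K n : ℕ) (hn : n < 2 ^ K) : dyBlk K 0 n = Pi.single ⟨n, hn⟩ 1 := by
  funext x
  simp [dyBlk, Pi.single_apply, Fin.ext_iff]

lemma dy_sum_two_mul (m : ℕ) (f : ℕ → ℝ) :
    ∑ a ∈ range (2 * m), f a = ∑ a ∈ range m, (f (2 * a) + f (2 * a + 1)) := by
  induction m with
  | zero => simp
  | succ m ih => rw [mul_add, mul_one, sum_range_succ, sum_range_succ, ih, sum_range_succ, add_assoc]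

lemma dy_sum_xor {j n : ℕ} (hn : n < 2 ^ j) (f : ℕ → ℝ) :
    ∑ m ∈ range (2 ^ j), f (n ^^^ m) = ∑ m ∈ range (2 ^ j), f m := by
  refine Finset.sum_nbij' (fun m => n ^^^ m) (fun m => n ^^^ m) ?_ ?_ ?_ ?_ ?_
  · intro m hm
    exact mem_range.2 (Nat.xor_lt_two_pow hn (mem_range.1 hm))
  · intro m hm
    exact mem_range.2 (Nat.xor_lt_two_pow hn (mem_range.1 hm))
  · intro m _
    simp
  · intro m _
    simp
  · intro m _
    rfl

lemma dy_reindex1 (j : ℕ) (F : ℕ → ℕ → ℕ → ℝ) :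
    ∑ n0 ∈ range (2 ^ j), ∑ n1 ∈ range (2 ^ j), F (n0 ^^^ n1) n0 n1 =
      ∑ a ∈ range (2 ^ j), ∑ n ∈ range (2 ^ j), F a n (a ^^^ n) := by
  rw [Finset.sum_comm (f := fun a n => F a n (a ^^^ n))]
  refine Finset.sum_congr rfl fun n hn => ?_
  rw [← dy_sum_xor (mem_range.1 hn) fun a => F a n (a ^^^ n)]
  refine Finset.sum_congr rfl fun m _ => ?_
  rw [Nat.xor_comm (n ^^^ m) n, Nat.xor_xor_cancel_left]

lemma dy_reindex2 (j : ℕ) (F : ℕ → ℕ → ℕ → ℝ) :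
    ∑ n0 ∈ range (2 ^ j), ∑ n1 ∈ range (2 ^ j), F n0 (n0 ^^^ n1) n1 =
      ∑ a ∈ range (2 ^ j), ∑ n ∈ range (2 ^ j), F a n (a ^^^ n) := by
  refine Finset.sum_congr rfl fun a ha => ?_
  rw [← dy_sum_xor (mem_range.1 ha) fun n => F a n (a ^^^ n)]
  refine Finset.sum_congr rfl fun m _ => ?_
  rw [Nat.xor_xor_cancel_left]

lemma dy_xor00 (a n : ℕ) : (2 * a) ^^^ (2 * n) = 2 * (a ^^^ n) := by
  simpa [Nat.bit_val] using Nat.xor_bit false a false n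
lemma dy_xor10 (a n : ℕ) : (2 * a + 1) ^^^ (2 * n) = 2 * (a ^^^ n) + 1 := by
  simpa [Nat.bit_val] using Nat.xor_bit true a false n
lemma dy_xor01 (a n : ℕ) : (2 * a) ^^^ (2 * n + 1) = 2 * (a ^^^ n) + 1 := by
  simpa [Nat.bit_val] using Nat.xor_bit false a true n
lemma dy_xor11 (a n : ℕ) : (2 * a + 1) ^^^ (2 * n + 1) = 2 * (a ^^^ n) := by
  simpa [Nat.bit_val] using Nat.xor_bit true a true n

/-- the Bellman quantity at level `κ` -/
noncomputable def dyV (K : ℕ) (τ : ℝ) (X Y : Matrix (Fin (2 ^ K)) (Fin (2 ^ K)) ℝ) (κ : ℕ) : ℝ :=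
  4 ^ κ * ∑ a ∈ range (2 ^ (K - κ)), ∑ n ∈ range (2 ^ (K - κ)),
    phi τ (Pm X Y (dyBlk K κ a) (dyBlk K κ n) (dyBlk K κ (a ^^^ n)))

/-- a single gain -/
noncomputable def dyg (K : ℕ) (τ : ℝ) (X Y : Matrix (Fin (2 ^ K)) (Fin (2 ^ K)) ℝ)
    (κ a n b : ℕ) : ℝ :=
  gn τ (Pm X Y (dyBlk K (κ + 1) a) (dyBlk K (κ + 1) n) (dyBlk K (κ + 1) b))
    (Hm (dyH K κ n) (dyBlk K (κ + 1) n))

/-- the gain from level `κ + 1` to level `κ` -/
noncomputable def dyG (K : ℕ) (τ : ℝ) (X Y : Matrix (Fin (2 ^ K)) (Fin (2 ^ K)) ℝ) (κ : ℕ) : ℝ :=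
  4 ^ (κ + 1) * ∑ a ∈ range (2 ^ (K - 1 - κ)), ∑ n ∈ range (2 ^ (K - 1 - κ)),
    dyg K τ X Y κ a n (a ^^^ n)

lemma dy_step {K : ℕ} {τ : ℝ} (hτ : 0 < τ) (X Y : Matrix (Fin (2 ^ K)) (Fin (2 ^ K)) ℝ) {κ : ℕ}
    (hκ : κ < K) : dyG K τ X Y κ ≤ 2 * (dyV K τ X Y κ - dyV K τ X Y (κ + 1)) := by
  unfold dyG dyV
  rw [show K - κ = (K - 1 - κ) + 1 by omega, show K - (κ + 1) = K - 1 - κ by omega,
    pow_succ' 2 (K - 1 - κ), dy_sum_two_mul]
  simp only [dy_sum_two_mul, dy_xor00, dy_xor01, dy_xor10, dy_xor11, ← Finset.sum_add_distrib,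
    Finset.mul_sum, ← Finset.sum_sub_distrib]
  refine Finset.sum_le_sum fun a _ => Finset.sum_le_sum fun n _ => ?_
  have h := phi_step hτ X Y (dyBlk_nonneg K κ (2 * a)) (dyBlk_nonneg K κ (2 * a + 1))
    (dyBlk_nonneg K κ (2 * a)) (dyBlk_nonneg K κ (2 * a + 1))
    (dyBlk_nonneg K κ (2 * n)) (dyBlk_nonneg K κ (2 * n + 1))
    (dyBlk_nonneg K κ (2 * (a ^^^ n))) (dyBlk_nonneg K κ (2 * (a ^^^ n) + 1))
    (dyBlk_nonneg K κ (2 * (a ^^^ n) + 1)) (dyBlk_nonneg K κ (2 * (a ^^^ n)))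
    (dyBlk_succ K κ a) (dyBlk_succ K κ a) (dyBlk_succ K κ n) (dyH_eq K κ n)
    (dyBlk_succ K κ (a ^^^ n)) (fun x => by rw [dyBlk_succ, add_comm])
  have h4 : (0 : ℝ) < 4 ^ κ := by positivity
  have := mul_le_mul_of_nonneg_left h h4.le
  unfold dyg
  rw [pow_succ]
  linarith

lemma dyV_nonneg {K : ℕ} {τ : ℝ} (hτ : 0 < τ) (X Y : Matrix (Fin (2 ^ K)) (Fin (2 ^ K)) ℝ)
    (κ : ℕ) : 0 ≤ dyV K τ X Y κ :=
  mul_nonneg (by positivity) (Finset.sum_nonneg fun _ _ => Finset.sum_nonneg fun _ _ =>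
    phi_nonneg hτ (Pm_psd X Y _ (dyBlk_nonneg _ _ _) (dyBlk_nonneg _ _ _)))

lemma dy_tele {K : ℕ} {τ : ℝ} (hτ : 0 < τ) (X Y : Matrix (Fin (2 ^ K)) (Fin (2 ^ K)) ℝ) :
    ∑ κ ∈ range K, dyG K τ X Y κ ≤ 2 * dyV K τ X Y 0 := by
  refine (Finset.sum_le_sum fun κ hκ => dy_step hτ X Y (mem_range.1 hκ)).trans ?_
  rw [← Finset.mul_sum, Finset.sum_range_sub']
  have := dyV_nonneg hτ X Y K
  linarith

lemma dy_contG (K : ℕ) (X Y : Matrix (Fin (2 ^ K)) (Fin (2 ^ K)) ℝ) :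
    ContinuousOn (fun t : ℝ => t ^ 2 * ∑ κ ∈ range K, dyG K (t ^ 2) X Y κ) (Set.Ioi 0) := by
  refine (continuous_pow 2).continuousOn.mul (continuousOn_finsetSum _ fun κ _ => ?_)
  refine continuousOn_const.mul (continuousOn_finsetSum _ fun a _ =>
    continuousOn_finsetSum _ fun n _ => ?_)
  exact continuousOn_gn (Pm_psd X Y _ (dyBlk_nonneg _ _ _) (dyBlk_nonneg _ _ _)) _

lemma dy_pair (K : ℕ) (X Y : ℕ → ℕ → ℝ) {η T : ℝ} (hη : 0 < η) (hT : η ≤ T) :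
    ∫ t in η..T, t ^ 2 * ∑ κ ∈ range K, dyG K (t ^ 2) (dyMat K X) (dyMat K Y) κ ≤
      Real.pi * (∑ x ∈ range (2 ^ K), ∑ y ∈ range (2 ^ K), |X x y| ^ 3 +
        ∑ x ∈ range (2 ^ K), ∑ y ∈ range (2 ^ K), |Y x y| ^ 3) := by
  let f : ℕ → ℕ → ℝ → ℝ := fun a n t => t ^ 2 * phi (t ^ 2)
    (Pm (dyMat K X) (dyMat K Y) (dyBlk K 0 a) (dyBlk K 0 n) (dyBlk K 0 (a ^^^ n)))
  have hfc : ∀ a n, ContinuousOn (f a n) (Set.Ioi 0) := fun a n =>
    (continuous_pow 2).continuousOn.mul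
      (continuousOn_phi (Pm_psd _ _ _ (dyBlk_nonneg _ _ _) (dyBlk_nonneg _ _ _)))
  have hf : ∀ a n, IntervalIntegrable (f a n) MeasureTheory.volume η T := fun a n =>
    intervalIntegrable_of_continuousOn_Ioi (hfc a n) hη hT
  have hf' : ∀ a, IntervalIntegrable (fun t => ∑ n ∈ range (2 ^ K), f a n t)
      MeasureTheory.volume η T := fun a =>
    intervalIntegrable_of_continuousOn_Ioi (continuousOn_finsetSum _ fun n _ => hfc a n) hη hT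
  have h1 : ∫ t in η..T, t ^ 2 * ∑ κ ∈ range K, dyG K (t ^ 2) (dyMat K X) (dyMat K Y) κ ≤
      ∫ t in η..T, 2 * ∑ a ∈ range (2 ^ K), ∑ n ∈ range (2 ^ K), f a n t := by
    refine intervalIntegral.integral_mono_on hT
      (intervalIntegrable_of_continuousOn_Ioi (dy_contG K _ _) hη hT)
      (intervalIntegrable_of_continuousOn_Ioi (continuousOn_const.mul
        (continuousOn_finsetSum _ fun a _ => continuousOn_finsetSum _ fun n _ => hfc a n)) hη hT)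
      fun t ht => ?_
    have ht2 : 0 < t ^ 2 := pow_pos (hη.trans_le ht.1) 2
    refine (mul_le_mul_of_nonneg_left (dy_tele ht2 _ _) ht2.le).trans (le_of_eq ?_)
    simp only [dyV, f, ← Finset.mul_sum, Nat.sub_zero]
    ring
  refine h1.trans ?_
  rw [intervalIntegral.integral_const_mul, intervalIntegral.integral_finsetSum fun a _ => hf' a]
  have h2 : ∀ a ∈ range (2 ^ K), ∫ t in η..T, ∑ n ∈ range (2 ^ K), f a n t ≤
      ∑ n ∈ range (2 ^ K), Real.pi / 2 * (|X a n| ^ 3 + |Y (n ^^^ a) n| ^ 3) := by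
    intro a ha
    rw [intervalIntegral.integral_finsetSum fun n _ => hf a n]
    refine Finset.sum_le_sum fun n hn => ?_
    have ha' := mem_range.1 ha
    have hn' := mem_range.1 hn
    have := int_phi_single (dyMat K X) (dyMat K Y) ⟨a, ha'⟩ ⟨n, hn'⟩
      ⟨a ^^^ n, Nat.xor_lt_two_pow ha' hn'⟩ hη hT
    rw [← dyBlk_zero, ← dyBlk_zero, ← dyBlk_zero] at this
    rw [Nat.xor_comm n a]
    exact this
  have h3 := Finset.sum_le_sum h2
  have h4 : ∑ a ∈ range (2 ^ K), ∑ n ∈ range (2 ^ K), |Y (n ^^^ a) n| ^ 3 =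
      ∑ x ∈ range (2 ^ K), ∑ y ∈ range (2 ^ K), |Y x y| ^ 3 := by
    rw [Finset.sum_comm, Finset.sum_comm (f := fun x y => |Y x y| ^ 3)]
    exact Finset.sum_congr rfl fun n hn => dy_sum_xor (mem_range.1 hn) fun m => |Y m n| ^ 3
  simp only [← Finset.mul_sum, Finset.sum_add_distrib, h4] at h3
  linarith

theorem dyadic_discrete (K : ℕ) (A B C : ℕ → ℕ → ℝ) :
    ∑ κ ∈ range K, ∑ n0 ∈ range (2 ^ (K - 1 - κ)), ∑ n1 ∈ range (2 ^ (K - 1 - κ)),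
      |∑ x0 ∈ range (2 ^ K), ∑ x1 ∈ range (2 ^ K), ∑ x2 ∈ range (2 ^ K),
        A x0 x1 * B x1 x2 * C x2 x0 * (hs κ n0 x0 * hs κ n1 x1 * hs κ (n0 ^^^ n1) x2)| /
          2 ^ (κ + 1) ≤
      4 * Real.pi * (∑ x ∈ range (2 ^ K), ∑ y ∈ range (2 ^ K), |A x y| ^ 3 +
        ∑ x ∈ range (2 ^ K), ∑ y ∈ range (2 ^ K), |B x y| ^ 3 +
        ∑ x ∈ range (2 ^ K), ∑ y ∈ range (2 ^ K), |C x y| ^ 3) := by
  let s : Finset (Σ _ : ℕ, ℕ × ℕ) :=
    (range K).sigma fun κ => range (2 ^ (K - 1 - κ)) ×ˢ range (2 ^ (K - 1 - κ))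
  have hs_sum : ∀ F : ℕ → ℕ → ℕ → ℝ, ∑ i ∈ s, F i.1 i.2.1 i.2.2 =
      ∑ κ ∈ range K, ∑ n0 ∈ range (2 ^ (K - 1 - κ)), ∑ n1 ∈ range (2 ^ (K - 1 - κ)),
        F κ n0 n1 := by
    intro F
    rw [Finset.sum_sigma]
    exact Finset.sum_congr rfl fun κ _ => Finset.sum_product' _ _ (F κ)
  have h := tri_weights s (fun i => 4 ^ (i.1 + 1)) (fun _ _ => by positivity)
    (fun _ => dyMat K A) (fun _ => dyMat K B) (fun _ => dyMat K C)
    (fun i => dyBlk K (i.1 + 1) i.2.1) (fun i => dyBlk K (i.1 + 1) i.2.2)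
    (fun i => dyBlk K (i.1 + 1) (i.2.1 ^^^ i.2.2))
    (fun i => dyH K i.1 i.2.1) (fun i => dyH K i.1 i.2.2) (fun i => dyH K i.1 (i.2.1 ^^^ i.2.2))
    (fun _ _ x => dyH_le _ _ _ x) (fun _ _ x => dyH_le _ _ _ x) (fun _ _ x => dyH_le _ _ _ x)
    (2 * Real.pi * (∑ x ∈ range (2 ^ K), ∑ y ∈ range (2 ^ K), |A x y| ^ 3 +
        ∑ x ∈ range (2 ^ K), ∑ y ∈ range (2 ^ K), |B x y| ^ 3 +
        ∑ x ∈ range (2 ^ K), ∑ y ∈ range (2 ^ K), |C x y| ^ 3)) ?_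
  · refine le_of_eq_of_le ?_ (h.trans (le_of_eq (by ring)))
    rw [← hs_sum fun κ n0 n1 => |∑ x0 ∈ range (2 ^ K), ∑ x1 ∈ range (2 ^ K), ∑ x2 ∈ range (2 ^ K),
        A x0 x1 * B x1 x2 * C x2 x0 * (hs κ n0 x0 * hs κ n1 x1 * hs κ (n0 ^^^ n1) x2)| /
          2 ^ (κ + 1)]
    refine Finset.sum_congr rfl fun i _ => ?_
    have e : ∀ x0 x1 x2 : Fin (2 ^ K), dyMat K A x0 x1 * dyMat K B x1 x2 * dyMat K C x2 x0 *
        (dyH K i.1 i.2.1 x0 * dyH K i.1 i.2.2 x1 * dyH K i.1 (i.2.1 ^^^ i.2.2) x2) =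
        (A x0 x1 * B x1 x2 * C x2 x0 *
          (hs i.1 i.2.1 x0 * hs i.1 i.2.2 x1 * hs i.1 (i.2.1 ^^^ i.2.2) x2)) /
          (2 ^ (i.1 + 1)) ^ 3 := by
      intro x0 x1 x2
      simp only [dyMat, dyH, Matrix.of_apply]
      field_simp
    simp only [e, ← Finset.sum_div, Finset.sum_range]
    rw [abs_div, abs_of_pos (a := ((2 : ℝ) ^ (i.1 + 1)) ^ 3) (by positivity),
      show (4 : ℝ) ^ (i.1 + 1) = (2 ^ (i.1 + 1)) ^ 2 by
        rw [← pow_mul, mul_comm, pow_mul]; norm_num]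
    field_simp
  · intro η T hη hT
    have e : ∀ t : ℝ, t ^ 2 * ∑ i ∈ s, 4 ^ (i.1 + 1) *
        (dyg K (t ^ 2) (dyMat K C) (dyMat K fun x y => A y x) i.1 (i.2.1 ^^^ i.2.2) i.2.1 i.2.2 +
          dyg K (t ^ 2) (dyMat K A) (dyMat K fun x y => B y x) i.1 i.2.1 i.2.2 (i.2.1 ^^^ i.2.2) +
          dyg K (t ^ 2) (dyMat K fun x y => C y x) (dyMat K B) i.1 i.2.1 (i.2.1 ^^^ i.2.2) i.2.2) =
        t ^ 2 * ∑ κ ∈ range K, dyG K (t ^ 2) (dyMat K C) (dyMat K fun x y => A y x) κ +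
        t ^ 2 * ∑ κ ∈ range K, dyG K (t ^ 2) (dyMat K A) (dyMat K fun x y => B y x) κ +
        t ^ 2 * ∑ κ ∈ range K, dyG K (t ^ 2) (dyMat K fun x y => C y x) (dyMat K B) κ := by
      intro t
      rw [hs_sum fun κ n0 n1 => 4 ^ (κ + 1) *
        (dyg K (t ^ 2) (dyMat K C) (dyMat K fun x y => A y x) κ (n0 ^^^ n1) n0 n1 +
          dyg K (t ^ 2) (dyMat K A) (dyMat K fun x y => B y x) κ n0 n1 (n0 ^^^ n1) +
          dyg K (t ^ 2) (dyMat K fun x y => C y x) (dyMat K B) κ n0 (n0 ^^^ n1) n1),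
        ← mul_add, ← mul_add, ← Finset.sum_add_distrib, ← Finset.sum_add_distrib]
      congr 1
      refine Finset.sum_congr rfl fun κ _ => ?_
      simp only [← Finset.mul_sum, Finset.sum_add_distrib, dyG]
      rw [dy_reindex1 _ (dyg K (t ^ 2) (dyMat K C) (dyMat K fun x y => A y x) κ),
        dy_reindex2 _ (dyg K (t ^ 2) (dyMat K fun x y => C y x) (dyMat K B) κ)]
      ring
    have i1 := intervalIntegrable_of_continuousOn_Ioi
      (dy_contG K (dyMat K C) (dyMat K fun x y => A y x)) hη hT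
    have i2 := intervalIntegrable_of_continuousOn_Ioi
      (dy_contG K (dyMat K A) (dyMat K fun x y => B y x)) hη hT
    have i3 := intervalIntegrable_of_continuousOn_Ioi
      (dy_contG K (dyMat K fun x y => C y x) (dyMat K B)) hη hT
    have p1 := dy_pair K C (fun x y => A y x) hη hT
    have p2 := dy_pair K A (fun x y => B y x) hη hT
    have p3 := dy_pair K (fun x y => C y x) B hη hT
    rw [Finset.sum_comm (f := fun x y => |A y x| ^ 3)] at p1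
    rw [Finset.sum_comm (f := fun x y => |B y x| ^ 3)] at p2
    rw [Finset.sum_comm (f := fun x y => |C y x| ^ 3)] at p3
    refine le_of_eq_of_le (intervalIntegral.integral_congr fun t _ => e t) ?_
    rw [intervalIntegral.integral_add (i1.add i2) i3, intervalIntegral.integral_add i1 i2]
    linarith

end Crest.Agent.R072
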