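import Crest.Agent.R072.Basic

/-! Row 72: the trilinear estimate by the gains. -/

set_option autoImplicit false
set_option linter.unusedSectionVars false

open Matrix Finset

namespace Crest.Agent.R072

variable {G : Type} [Fintype G] [DecidableEq G]

lemma tri_psd {X Y : Matrix G G ℝ} (h : X.PosSemidef) (e : X = Y) : Y.PosSemidef := e ▸ h

lemma tri_base {P M : Matrix G G ℝ} (h : (P - M * Mᵀ).PosSemidef) : P.PosSemidef :=
  tri_psd (h.add (psd_mul_transpose M)) (sub_add_cancel _ _)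

lemma tri_cs (Y Z : Matrix G G ℝ) {a : ℝ} (ha : 0 < a) :
    |(Y * Z).trace| ≤ (a * (Y * Yᵀ).trace + (Z * Zᵀ).trace / a) / 2 := by
  have key : ∀ c : ℝ, 0 ≤ a ^ 2 * (Y * Yᵀ).trace + 2 * a * c * (Y * Z).trace
      + c ^ 2 * (Z * Zᵀ).trace := by
    intro c
    have h := (psd_mul_transpose (a • Y + c • Zᵀ)).trace_nonneg
    have e1 : (Zᵀ * Yᵀ).trace = (Y * Z).trace := by rw [← transpose_mul, trace_transpose]
    have e2 : (Zᵀ * Z).trace = (Z * Zᵀ).trace := trace_mul_comm _ _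
    simp only [transpose_add, transpose_smul, transpose_transpose, add_mul, mul_add, smul_mul_assoc,
      mul_smul_comm, trace_add, trace_smul, smul_eq_mul, e1, e2] at h
    linarith
  have e : (a * (Y * Yᵀ).trace + (Z * Zᵀ).trace / a) / 2
      = (a ^ 2 * (Y * Yᵀ).trace + (Z * Zᵀ).trace) / (2 * a) := by field_simp
  rw [e, le_div_iff₀ (by positivity)]
  have h1 := key 1
  have h2 := key (-1)
  rcases abs_cases (Y * Z).trace with h | h <;> rw [h.1] <;> linarith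

lemma tri_mono {U V H P Q : Matrix G G ℝ} (hH : Hᵀ = H) (hU : (P - Uᵀ * U).PosSemidef)
    (hV : (Q - V * Vᵀ).PosSemidef) :
    (U * H * V * (U * H * V)ᵀ).trace ≤ (P * H * Q * H).trace := by
  have hP : P.PosSemidef := tri_base (M := Uᵀ) (by simpa using hU)
  have h1 := trace_mul_nonneg hU (psd_conj (psd_mul_transpose V) H)
  have h2 := trace_mul_nonneg hP (psd_conj hV H)
  have e : (U * H * V * (U * H * V)ᵀ).trace = (Uᵀ * U * (H * (V * Vᵀ) * H)).trace := by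
    rw [transpose_mul, transpose_mul, hH, ← Matrix.mul_assoc, ← Matrix.mul_assoc, trace_mul_comm]
    simp only [Matrix.mul_assoc]
  rw [hH] at h1 h2
  simp only [sub_mul, mul_sub, trace_sub, Matrix.mul_assoc] at h1 h2 e ⊢
  linarith

lemma tri_contr_mul {M N : Matrix G G ℝ} (hM : (1 - M * Mᵀ).PosSemidef)
    (hN : (1 - N * Nᵀ).PosSemidef) : (1 - M * N * (M * N)ᵀ).PosSemidef :=
  tri_psd (hM.add (psd_conj hN M)) (by rw [transpose_mul]; noncomm_ring)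

section
variable {τ : ℝ} (hτ : 0 < τ) {P : Matrix G G ℝ} (hP : P.PosSemidef)
include hτ hP

lemma tri_E_symm : (Em τ P)ᵀ = Em τ P := psd_symm (Em_psd hτ hP)

lemma tri_E_contr : (1 - Em τ P * (Em τ P)ᵀ).PosSemidef :=
  tri_psd ((Dm_psd hτ hP).add (Dm_mul_Em_psd hτ hP)) (by
    rw [tri_E_symm hτ hP, Dm]; noncomm_ring)

lemma tri_M_contr {H : Matrix G G ℝ} (hH : Hᵀ = H ∧ (1 - H * H).PosSemidef) :
    (1 - Em τ P * H * Em τ P * (Em τ P * H * Em τ P)ᵀ).PosSemidef :=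
  tri_contr_mul (tri_contr_mul (tri_E_contr hτ hP) (by rw [hH.1]; exact hH.2)) (tri_E_contr hτ hP)

lemma tri_EPE {N : Matrix G G ℝ} (h : (P - N).PosSemidef) :
    (τ • Dm τ P - Em τ P * N * Em τ P).PosSemidef := by
  have h1 := psd_conj h (Em τ P)
  have h2 := (psd_mul_transpose (Dm τ P)).smul hτ.le
  rw [psd_symm (Dm_psd hτ hP)] at h2
  rw [tri_E_symm hτ hP, mul_sub, Em_mul hτ hP] at h1
  refine tri_psd (h1.add h2) ?_
  simp only [Dm, sub_mul, mul_sub, smul_mul_assoc, smul_sub, one_mul, mul_one]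
  abel

lemma tri_DE_symm : (Dm τ P * Em τ P)ᵀ = Dm τ P * Em τ P := psd_symm (Dm_mul_Em_psd hτ hP)

lemma tri_DE_sq : ((1 / 4 : ℝ) • Dm τ P - Dm τ P * Em τ P * (Dm τ P * Em τ P)ᵀ).PosSemidef := by
  have h1 := psd_conj (Dm_psd hτ hP) ((1 / 2 : ℝ) • 1 - Dm τ P)
  have h2 := psd_conj (Dm_mul_Em_psd hτ hP) (Dm τ P)
  rw [tri_DE_symm hτ hP]
  simp only [transpose_sub, transpose_smul, transpose_one, psd_symm (Dm_psd hτ hP)] at h1 h2
  refine tri_psd (h1.add h2) ?_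
  have e : Em τ P = 1 - Dm τ P := by simp [Dm]
  rw [e]
  generalize Dm τ P = D
  simp only [sub_mul, mul_sub, smul_mul_assoc, mul_smul_comm, one_mul, mul_one, smul_sub, smul_smul,
    Matrix.mul_assoc]
  module

lemma tri_left {U : Matrix G G ℝ} (h : (P - Uᵀ * U).PosSemidef) :
    (τ • Dm τ P - (U * Em τ P)ᵀ * (U * Em τ P)).PosSemidef :=
  tri_psd (tri_EPE hτ hP h) (by
    rw [transpose_mul, tri_E_symm hτ hP]; simp only [Matrix.mul_assoc])

lemma tri_right {B M : Matrix G G ℝ} (h : (P - B * Bᵀ).PosSemidef)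
    (hM : (1 - M * Mᵀ).PosSemidef) :
    (τ • Dm τ P - Em τ P * B * M * (Em τ P * B * M)ᵀ).PosSemidef := by
  have h1 : (P - B * M * (B * M)ᵀ).PosSemidef :=
    tri_psd (h.add (psd_conj hM B)) (by rw [transpose_mul]; noncomm_ring)
  refine tri_psd (tri_EPE hτ hP h1) ?_
  simp only [transpose_mul, tri_E_symm hτ hP, Matrix.mul_assoc]

end

lemma tri_R {t : ℝ} (ht : 0 < t) {A B C P0 P1 H0 H1 M V Q : Matrix G G ℝ}
    (hC : (P0 - Cᵀ * C).PosSemidef) (hA : (P1 - Aᵀ * A).PosSemidef)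
    (hB : (P1 - B * Bᵀ).PosSemidef) (hH0 : H0ᵀ = H0) (hH1 : H1ᵀ = H1)
    (hM : (1 - M * Mᵀ).PosSemidef) (hV : (Q - V * Vᵀ).PosSemidef) {a : ℝ} (ha : 0 < a) :
    |(Em (t ^ 2) P0 * H0 * V * A * (Em (t ^ 2) P1 * H1 * Em (t ^ 2) P1) * B * M * C).trace|
      ≤ (a * (t ^ 2 * (Dm (t ^ 2) P0 * H0 * Q * H0).trace) + t ^ 4 * gn (t ^ 2) P1 H1 / a) / 2 := by
  have hτ : 0 < t ^ 2 := by positivity
  have hP0 : P0.PosSemidef := tri_base (M := Cᵀ) (by simpa using hC)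
  have hP1 : P1.PosSemidef := tri_base hB
  have h1 := tri_cs (C * Em (t ^ 2) P0 * H0 * V)
    (A * Em (t ^ 2) P1 * H1 * (Em (t ^ 2) P1 * B * M)) ha
  have h2 := tri_mono hH0 (tri_left hτ hP0 hC) hV
  have h3 := tri_mono hH1 (tri_left hτ hP1 hA) (tri_right hτ hP1 hB hM)
  simp only [smul_mul_assoc, mul_smul_comm, trace_smul, smul_eq_mul] at h2 h3
  rw [trace_mul_comm]
  refine le_of_eq_of_le (by simp only [Matrix.mul_assoc]) (h1.trans ?_)
  have e : t ^ 4 * gn (t ^ 2) P1 H1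
      = t ^ 2 * (t ^ 2 * (Dm (t ^ 2) P1 * H1 * Dm (t ^ 2) P1 * H1).trace) := by rw [gn]; ring
  rw [e]
  gcongr

/-- `E H E`. -/
noncomputable def triM (t : ℝ) (P H : Matrix G G ℝ) : Matrix G G ℝ :=
  Em (t ^ 2) P * H * Em (t ^ 2) P

/-- `t / 2` times the derivative of `triM`. -/
noncomputable def triN (t : ℝ) (P H : Matrix G G ℝ) : Matrix G G ℝ :=
  Dm (t ^ 2) P * Em (t ^ 2) P * H * Em (t ^ 2) P + Em (t ^ 2) P * H * (Dm (t ^ 2) P * Em (t ^ 2) P)

lemma tri_one {t : ℝ} (ht : 0 < t) {A B C P0 P1 P2 H0 H1 H2 : Matrix G G ℝ}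
    (h0 : (P0 - A * Aᵀ).PosSemidef ∧ (P0 - Cᵀ * C).PosSemidef)
    (h1 : (P1 - B * Bᵀ).PosSemidef ∧ (P1 - Aᵀ * A).PosSemidef)
    (h2 : (P2 - C * Cᵀ).PosSemidef ∧ (P2 - Bᵀ * B).PosSemidef)
    (hH0 : H0ᵀ = H0 ∧ (1 - H0 * H0).PosSemidef) (hH1 : H1ᵀ = H1 ∧ (1 - H1 * H1).PosSemidef)
    (hH2 : H2ᵀ = H2 ∧ (1 - H2 * H2).PosSemidef) :
    |(triN t P0 H0 * A * triM t P1 H1 * B * triM t P2 H2 * C).trace|
      ≤ t ^ 3 * (2 * gn (t ^ 2) P0 H0 + gn (t ^ 2) P1 H1 + gn (t ^ 2) P2 H2) / 4 := by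
  have hτ : 0 < t ^ 2 := by positivity
  have hP0 := tri_base h0.1
  have hP1 := tri_base h1.1
  have hP2 := tri_base h2.1
  have a1 := tri_R ht h0.2 h1.2 h1.1 hH0.1 hH1.1 (tri_M_contr hτ hP2 hH2) (tri_DE_sq hτ hP0)
    (a := 2 * t) (by positivity)
  have a2 := tri_R ht (A := Cᵀ) (B := Bᵀ) (C := Aᵀ) (by simpa using h0.1) (by simpa using h2.1)
    (by simpa using h2.2) hH0.1 hH2.1 (tri_M_contr hτ hP1 hH1) (tri_DE_sq hτ hP0)
    (a := 2 * t) (by positivity)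
  rw [← trace_transpose] at a2
  simp only [transpose_mul _ (_ : Matrix G G ℝ), transpose_transpose, tri_E_symm hτ hP0,
    tri_E_symm hτ hP1, tri_E_symm hτ hP2, psd_symm (Dm_psd hτ hP0), hH0.1, hH1.1, hH2.1,
    ← Dm_mul_Em_comm] at a2
  have e : (triN t P0 H0 * A * triM t P1 H1 * B * triM t P2 H2 * C).trace
      = (A * (triM t P1 H1 * (B * (triM t P2 H2 * (C * (Dm (t ^ 2) P0 * Em (t ^ 2) P0
          * (H0 * Em (t ^ 2) P0))))))).trace
        + (Em (t ^ 2) P0 * H0 * (Dm (t ^ 2) P0 * Em (t ^ 2) P0) * A * triM t P1 H1 * B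
          * triM t P2 H2 * C).trace := by
    simp only [triN, add_mul, trace_add]
    congr 1
    simp only [Matrix.mul_assoc (_ * Em (t ^ 2) P0 * H0 * Em (t ^ 2) P0)]
    rw [trace_mul_comm]
    simp only [Matrix.mul_assoc]
  rw [e]
  simp only [smul_mul_assoc, mul_smul_comm, trace_smul, smul_eq_mul] at a1 a2
  refine (abs_add_le _ _).trans ((add_le_add (le_of_eq_of_le ?_ a2) a1).trans (le_of_eq ?_))
  · simp only [triM, Matrix.mul_assoc]
  · simp only [gn]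
    field_simp
    ring

open scoped Matrix.Norms.Operator in
lemma tri_deriv {t : ℝ} (ht : 0 < t) (A B C : Matrix G G ℝ) {P0 P1 P2 : Matrix G G ℝ}
    (hP0 : P0.PosSemidef) (hP1 : P1.PosSemidef) (hP2 : P2.PosSemidef) (H0 H1 H2 : Matrix G G ℝ) :
    HasDerivAt (fun t => (triM t P0 H0 * A * triM t P1 H1 * B * triM t P2 H2 * C).trace)
      (2 / t * ((triN t P0 H0 * A * triM t P1 H1 * B * triM t P2 H2 * C).trace
        + (triN t P1 H1 * B * triM t P2 H2 * C * triM t P0 H0 * A).trace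
        + (triN t P2 H2 * C * triM t P0 H0 * A * triM t P1 H1 * B).trace)) t := by
  have hτ : 0 < t ^ 2 := by positivity
  have hE : ∀ {P : Matrix G G ℝ}, P.PosSemidef → HasDerivAt (fun t : ℝ => Em (t ^ 2) P)
      ((2 / t) • (Dm (t ^ 2) P * Em (t ^ 2) P)) t := by
    intro P hP
    obtain ⟨u, hu⟩ := (posDef_add_smul hτ hP).isUnit
    have h1 : HasDerivAt (fun t : ℝ => t ^ 2) (2 * t) t := by simpa using hasDerivAt_pow 2 t
    have h2 : HasDerivAt (fun t : ℝ => P + t ^ 2 • (1 : Matrix G G ℝ)) ((2 * t) • 1) t :=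
      (h1.smul_const _).const_add _
    have h3 := (hasFDerivAt_ringInverse (𝕜 := ℝ) u).comp_hasDerivAt_of_eq t h2 hu
    have h4 := h1.smul h3
    have h5 : (↑u⁻¹ : Matrix G G ℝ) = (P + t ^ 2 • (1 : Matrix G G ℝ))⁻¹ := by
      rw [← hu, Matrix.coe_units_inv]
    simp only [Em, nonsing_inv_eq_ringInverse]
    refine HasDerivAt.congr_deriv h4 ?_
    simp only [Dm, Em, ← nonsing_inv_eq_ringInverse, Function.comp_apply, h5,
      _root_.neg_apply, ContinuousLinearMap.mulLeftRight_apply, mul_smul_comm,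
      smul_mul_assoc, mul_one, sub_mul, one_mul, smul_sub, smul_smul, smul_neg]
    have e1 : 2 / t * t ^ 2 = 2 * t := by field_simp
    have e2 : 2 / t * (t ^ 2 * t ^ 2) = t ^ 2 * (2 * t) := by field_simp
    rw [e1, e2]
    abel
  have hM : ∀ {P : Matrix G G ℝ}, P.PosSemidef → ∀ H, HasDerivAt (fun t : ℝ => triM t P H)
      ((2 / t) • triN t P H) t := by
    intro P hP H
    refine HasDerivAt.congr_deriv (((hE hP).mul_const H).fun_mul (hE hP)) ?_
    simp only [triN, smul_add, smul_mul_assoc, mul_smul_comm]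
  have h := (((((hM hP0 H0).mul_const A).fun_mul (hM hP1 H1)).mul_const B).fun_mul
    (hM hP2 H2)).mul_const C
  obtain ⟨L, hL⟩ : ∃ L : Matrix G G ℝ →L[ℝ] ℝ, ∀ X, L X = X.trace :=
    ⟨LinearMap.toContinuousLinearMap (Matrix.traceLinearMap G ℝ ℝ), fun _ => rfl⟩
  have h' := L.hasFDerivAt.comp_hasDerivAt t h
  simp only [Function.comp_def, hL] at h'
  refine HasDerivAt.congr_deriv h' ((hL _).trans ?_)
  have e1 : (triN t P1 H1 * B * triM t P2 H2 * C * triM t P0 H0 * A).trace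
      = (triM t P0 H0 * A * triN t P1 H1 * B * triM t P2 H2 * C).trace := by
    rw [Matrix.mul_assoc _ (triM t P0 H0), trace_mul_comm _ (triM t P0 H0 * A)]
    simp only [Matrix.mul_assoc]
  have e2 : (triN t P2 H2 * C * triM t P0 H0 * A * triM t P1 H1 * B).trace
      = (triM t P0 H0 * A * triM t P1 H1 * B * triN t P2 H2 * C).trace := by
    rw [Matrix.mul_assoc _ (triN t P2 H2), trace_mul_comm _ (triN t P2 H2 * C)]
    simp only [Matrix.mul_assoc]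
  simp only [add_mul, smul_mul_assoc, mul_smul_comm, trace_add, trace_smul, smul_eq_mul, mul_add,
    e1, e2]

open scoped Matrix.Norms.Operator Topology in
lemma tri_lim_top (A B C : Matrix G G ℝ) {P0 P1 P2 : Matrix G G ℝ}
    (hP0 : P0.PosSemidef) (hP1 : P1.PosSemidef) (hP2 : P2.PosSemidef) (H0 H1 H2 : Matrix G G ℝ) :
    Filter.Tendsto (fun t => (triM t P0 H0 * A * triM t P1 H1 * B * triM t P2 H2 * C).trace)
      Filter.atTop (𝓝 (H0 * A * H1 * B * H2 * C).trace) := by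
  have hE : ∀ {P : Matrix G G ℝ}, P.PosSemidef →
      Filter.Tendsto (fun t : ℝ => Em (t ^ 2) P) Filter.atTop (𝓝 1) := by
    intro P hP
    have h1 : Filter.Tendsto (fun t : ℝ => (t ^ 2)⁻¹) Filter.atTop (𝓝 0) :=
      tendsto_inv_atTop_zero.comp (Filter.tendsto_pow_atTop two_ne_zero)
    have h2 : Filter.Tendsto (fun t : ℝ => 1 + (t ^ 2)⁻¹ • P) Filter.atTop
        (𝓝 ((1 : (Matrix G G ℝ)ˣ) : Matrix G G ℝ)) := by
      simpa using (h1.smul_const P).const_add 1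
    have h3 := (NormedRing.inverse_continuousAt (1 : (Matrix G G ℝ)ˣ)).tendsto.comp h2
    simp only [Units.val_one, Ring.inverse_one] at h3
    refine h3.congr' ?_
    filter_upwards [Filter.eventually_gt_atTop 0] with t ht
    have hτ : 0 < t ^ 2 := by positivity
    rw [Function.comp_apply, ← nonsing_inv_eq_ringInverse]
    refine inv_eq_left_inv ?_
    rw [mul_add, mul_one, mul_smul_comm, Em_mul hτ hP, smul_smul, inv_mul_cancel₀ hτ.ne', one_smul,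
      Dm, add_sub_cancel]
  have hM : ∀ {P : Matrix G G ℝ}, P.PosSemidef → ∀ H,
      Filter.Tendsto (fun t : ℝ => triM t P H) Filter.atTop (𝓝 H) := by
    intro P hP H
    simpa [triM] using ((hE hP).mul_const H).mul (hE hP)
  exact ((LinearMap.toContinuousLinearMap (Matrix.traceLinearMap G ℝ ℝ)).continuous.tendsto _).comp
    ((((((hM hP0 H0).mul_const A).mul (hM hP1 H1)).mul_const B).mul (hM hP2 H2)).mul_const C)

open scoped Topology in
lemma tri_lim_zero {A B C P0 P1 P2 H0 H1 H2 : Matrix G G ℝ}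
    (h0 : (P0 - Cᵀ * C).PosSemidef)
    (h1 : (P1 - B * Bᵀ).PosSemidef ∧ (P1 - Aᵀ * A).PosSemidef) (hP2 : P2.PosSemidef)
    (hH0 : H0ᵀ = H0) (hH1 : H1ᵀ = H1) (hH2 : H2ᵀ = H2 ∧ (1 - H2 * H2).PosSemidef) :
    Filter.Tendsto (fun t => (triM t P0 H0 * A * triM t P1 H1 * B * triM t P2 H2 * C).trace)
      (𝓝[>] 0) (𝓝 0) := by
  have hg : ∀ {τ : ℝ}, 0 < τ → ∀ {P H Q : Matrix G G ℝ}, P.PosSemidef → Q.PosSemidef →
      (1 - Q).PosSemidef → Hᵀ = H → (Dm τ P * H * Q * H).trace ≤ (H * H).trace := by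
    intro τ hτ P H Q hP hQ hQ1 hH
    have a1 := trace_mul_nonneg (Em_psd hτ hP) (psd_conj hQ H)
    have a2 := (psd_conj hQ1 H).trace_nonneg
    rw [hH] at a1 a2
    simp only [Dm, sub_mul, mul_sub, one_mul, mul_one, trace_sub, Matrix.mul_assoc] at a1 a2 ⊢
    linarith
  have hP0 : P0.PosSemidef := tri_base (M := Cᵀ) (by simpa using h0)
  have hP1 := tri_base h1.1
  have hc : Filter.Tendsto (fun t : ℝ => (t ^ 2 * (H0 * H0).trace + t ^ 4 * (H1 * H1).trace) / 2)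
      (𝓝[>] 0) (𝓝 0) := by
    refine Filter.Tendsto.mono_left ?_ nhdsWithin_le_nhds
    exact Continuous.tendsto' (by fun_prop) _ _ (by simp)
  refine squeeze_zero_norm' ?_ hc
  filter_upwards [self_mem_nhdsWithin] with t ht
  have ht : 0 < t := ht
  have hτ : 0 < t ^ 2 := by positivity
  refine (tri_R ht h0 h1.2 h1.1 hH0 hH1 (tri_M_contr hτ hP2 hH2) (tri_E_contr hτ hP0)
    one_pos).trans ?_
  rw [one_mul, div_one]
  gcongr
  · exact hg hτ hP0 PosSemidef.one (by simpa using PosSemidef.zero) hH0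
  · exact hg hτ hP1 (Dm_psd hτ hP1) (by simpa [Dm] using Em_psd hτ hP1) hH1

/-- The trilinear trace is bounded by twice the integrated gains (finite weighted families). -/
theorem tri_family {ι : Type} (s : Finset ι) (ω : ι → ℝ) (hω : ∀ i ∈ s, 0 ≤ ω i)
    (A B C P0 P1 P2 H0 H1 H2 : ι → Matrix G G ℝ)
    (h0 : ∀ i ∈ s, (P0 i - A i * (A i)ᵀ).PosSemidef ∧ (P0 i - (C i)ᵀ * C i).PosSemidef)
    (h1 : ∀ i ∈ s, (P1 i - B i * (B i)ᵀ).PosSemidef ∧ (P1 i - (A i)ᵀ * A i).PosSemidef)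
    (h2 : ∀ i ∈ s, (P2 i - C i * (C i)ᵀ).PosSemidef ∧ (P2 i - (B i)ᵀ * B i).PosSemidef)
    (hH0 : ∀ i ∈ s, (H0 i)ᵀ = H0 i ∧ (1 - H0 i * H0 i).PosSemidef)
    (hH1 : ∀ i ∈ s, (H1 i)ᵀ = H1 i ∧ (1 - H1 i * H1 i).PosSemidef)
    (hH2 : ∀ i ∈ s, (H2 i)ᵀ = H2 i ∧ (1 - H2 i * H2 i).PosSemidef)
    (K : ℝ)
    (hK : ∀ η T : ℝ, 0 < η → η ≤ T →
      ∫ t in η..T, t ^ 2 * ∑ i ∈ s, ω i *
        (gn (t ^ 2) (P0 i) (H0 i) + gn (t ^ 2) (P1 i) (H1 i) + gn (t ^ 2) (P2 i) (H2 i)) ≤ K) :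
    ∑ i ∈ s, ω i * |(H0 i * A i * H1 i * B i * H2 i * C i).trace| ≤ 2 * K := by
  set F : ι → ℝ → ℝ := fun i t => (triM t (P0 i) (H0 i) * A i * triM t (P1 i) (H1 i) * B i
    * triM t (P2 i) (H2 i) * C i).trace with hF
  set g : ι → ℝ → ℝ := fun i t =>
    gn (t ^ 2) (P0 i) (H0 i) + gn (t ^ 2) (P1 i) (H1 i) + gn (t ^ 2) (P2 i) (H2 i) with hg
  have key : ∀ η T : ℝ, 0 < η → η ≤ T → ∑ i ∈ s, ω i * |F i T - F i η| ≤ 2 * K := by
    intro η T hη hT
    have hint : ∀ i ∈ s, IntervalIntegrable (fun t => 2 * t ^ 2 * g i t)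
        MeasureTheory.volume η T := fun i hi =>
      intervalIntegrable_of_continuousOn_Ioi (ContinuousOn.mul (by fun_prop)
        (((continuousOn_gn (tri_base (h0 i hi).1) _).add
          (continuousOn_gn (tri_base (h1 i hi).1) _)).add
          (continuousOn_gn (tri_base (h2 i hi).1) _))) hη hT
    have h3 : ∀ i ∈ s, |F i T - F i η| ≤ ∫ t in η..T, 2 * t ^ 2 * g i t := by
      intro i hi
      have hd := fun t (ht : 0 < t) => tri_deriv ht (A i) (B i) (C i) (tri_base (h0 i hi).1)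
        (tri_base (h1 i hi).1) (tri_base (h2 i hi).1) (H0 i) (H1 i) (H2 i)
      refine norm_sub_le_integral_of_norm_deriv_le_of_le (f := F i) hT
        (fun t ht => (hd t (hη.trans_le ht.1)).continuousAt.continuousWithinAt)
        (fun t ht => (hd t (hη.trans ht.1)).differentiableAt.differentiableWithinAt)
        (Filter.Eventually.of_forall fun t ht => ?_) (hint i hi)
      have ht0 : 0 < t := hη.trans ht.1
      have a0 := tri_one ht0 (h0 i hi) (h1 i hi) (h2 i hi) (hH0 i hi) (hH1 i hi) (hH2 i hi)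
      have a1 := tri_one ht0 (h1 i hi) (h2 i hi) (h0 i hi) (hH1 i hi) (hH2 i hi) (hH0 i hi)
      have a2 := tri_one ht0 (h2 i hi) (h0 i hi) (h1 i hi) (hH2 i hi) (hH0 i hi) (hH1 i hi)
      rw [(hd t ht0).deriv, Real.norm_eq_abs, abs_mul, abs_of_pos (by positivity)]
      refine (mul_le_mul_of_nonneg_left ((abs_add_three _ _ _).trans
        (add_le_add (add_le_add a0 a1) a2)) (by positivity)).trans (le_of_eq ?_)
      simp only [hg]
      field_simp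
      ring
    refine (sum_le_sum fun i hi => mul_le_mul_of_nonneg_left (h3 i hi) (hω i hi)).trans ?_
    refine le_trans (le_of_eq ?_) (mul_le_mul_of_nonneg_left (hK η T hη hT) zero_le_two)
    simp only [← intervalIntegral.integral_const_mul]
    rw [← intervalIntegral.integral_finsetSum fun i hi => (hint i hi).const_mul _]
    refine intervalIntegral.integral_congr fun t _ => ?_
    simp only [mul_sum, hg]
    exact sum_congr rfl fun i _ => by ring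
  have t1 : Filter.Tendsto (fun n : ℕ => (n : ℝ) + 1) Filter.atTop Filter.atTop :=
    Filter.tendsto_atTop_add_const_right _ _ tendsto_natCast_atTop_atTop
  have t0 := tendsto_inv_atTop_nhdsGT_zero.comp t1
  refine le_of_tendsto' (x := Filter.atTop) (tendsto_finsetSum s fun i hi => ?_) fun n : ℕ =>
    key ((n : ℝ) + 1)⁻¹ (n + 1) (by positivity)
      ((inv_le_one_of_one_le₀ (by simp)).trans (by simp))
  have a1 := (tri_lim_top (A i) (B i) (C i) (tri_base (h0 i hi).1) (tri_base (h1 i hi).1)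
    (tri_base (h2 i hi).1) (H0 i) (H1 i) (H2 i)).comp t1
  have a0 := (tri_lim_zero (h0 i hi).2 (h1 i hi) (tri_base (h2 i hi).1) (hH0 i hi).1 (hH1 i hi).1
    (hH2 i hi)).comp t0
  simpa using ((a1.sub a0).abs).const_mul (ω i)

lemma tri_sqw_symm (W : G → ℝ) : (sqw W)ᵀ = sqw W := by simp [sqw]

lemma tri_sqw_sq {W : G → ℝ} (hW : ∀ x, 0 ≤ W x) : sqw W * sqw W = diagonal W := by
  simp [sqw, hW]

lemma tri_Pm {X Y : Matrix G G ℝ} {Wa W Wb : G → ℝ} (ha : ∀ x, 0 ≤ Wa x) (hb : ∀ x, 0 ≤ Wb x) :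
    (Pm X Y Wa W Wb - (sqw Wa * X * sqw W)ᵀ * (sqw Wa * X * sqw W)).PosSemidef := by
  refine tri_psd (sqw_conj_psd (Qm_psd Y hb) W) ?_
  simp only [Pm, Qm, transpose_mul, tri_sqw_symm, ← tri_sqw_sq ha, mul_add, add_mul,
    Matrix.mul_assoc]
  abel

lemma tri_Pm' {X Y : Matrix G G ℝ} {Wa W Wb : G → ℝ} (ha : ∀ x, 0 ≤ Wa x) (hb : ∀ x, 0 ≤ Wb x) :
    (Pm Xᵀ Y Wa W Wb - (sqw W * X * sqw Wa) * (sqw W * X * sqw Wa)ᵀ).PosSemidef := by
  have := tri_Pm (X := Xᵀ) (Y := Y) (W := W) ha hb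
  simpa only [transpose_mul, tri_sqw_symm, transpose_transpose, Matrix.mul_assoc] using this

lemma tri_sqw_Hm {h W : G → ℝ} (hh : ∀ x, |h x| ≤ W x) :
    sqw W * (Hm h W * sqw W) = diagonal h := by
  simp only [sqw, Hm, diagonal_mul_diagonal]
  congr 1
  funext x
  have h0 : 0 ≤ W x := (abs_nonneg _).trans (hh x)
  rw [mul_left_comm, Real.mul_self_sqrt h0]
  rcases h0.eq_or_lt with h1 | h1
  · have := hh x
    rw [← h1, abs_nonpos_iff] at this
    simp [this]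
  · field_simp

/-- The same for weighted blocks of three matrices. -/
theorem tri_weights {ι : Type} (s : Finset ι) (ω : ι → ℝ) (hω : ∀ i ∈ s, 0 ≤ ω i)
    (A B C : ι → Matrix G G ℝ) (W0 W1 W2 h0 h1 h2 : ι → G → ℝ)
    (hh0 : ∀ i ∈ s, ∀ x, |h0 i x| ≤ W0 i x) (hh1 : ∀ i ∈ s, ∀ x, |h1 i x| ≤ W1 i x)
    (hh2 : ∀ i ∈ s, ∀ x, |h2 i x| ≤ W2 i x) (K : ℝ)
    (hK : ∀ η T : ℝ, 0 < η → η ≤ T →
      ∫ t in η..T, t ^ 2 * ∑ i ∈ s, ω i *
        (gn (t ^ 2) (Pm (C i) (A i)ᵀ (W2 i) (W0 i) (W1 i)) (Hm (h0 i) (W0 i)) +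
          gn (t ^ 2) (Pm (A i) (B i)ᵀ (W0 i) (W1 i) (W2 i)) (Hm (h1 i) (W1 i)) +
          gn (t ^ 2) (Pm (C i)ᵀ (B i) (W0 i) (W2 i) (W1 i)) (Hm (h2 i) (W2 i))) ≤ K) :
    ∑ i ∈ s, ω i * |∑ x0, ∑ x1, ∑ x2,
      A i x0 x1 * B i x1 x2 * C i x2 x0 * (h0 i x0 * h1 i x1 * h2 i x2)| ≤ 2 * K := by
  have w0 := fun i hi x => (abs_nonneg _).trans (hh0 i hi x)
  have w1 := fun i hi x => (abs_nonneg _).trans (hh1 i hi x)
  have w2 := fun i hi x => (abs_nonneg _).trans (hh2 i hi x)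
  refine le_of_eq_of_le (sum_congr rfl fun i hi => ?_) (tri_family s ω hω
    (fun i => sqw (W0 i) * A i * sqw (W1 i)) (fun i => sqw (W1 i) * B i * sqw (W2 i))
    (fun i => sqw (W2 i) * C i * sqw (W0 i)) _ _ _ _ _ _
    (fun i hi => ⟨?_, tri_Pm (w2 i hi) (w1 i hi)⟩)
    (fun i hi => ⟨?_, tri_Pm (w0 i hi) (w2 i hi)⟩)
    (fun i hi => ⟨tri_Pm' (w0 i hi) (w1 i hi), ?_⟩)
    (fun i hi => ⟨Hm_symm _ _, Hm_contr (hh0 i hi)⟩)
    (fun i hi => ⟨Hm_symm _ _, Hm_contr (hh1 i hi)⟩)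
    (fun i hi => ⟨Hm_symm _ _, Hm_contr (hh2 i hi)⟩) K hK)
  rotate_left
  · rw [Pm_comm]; exact tri_Pm' (w1 i hi) (w2 i hi)
  · rw [Pm_comm]; exact tri_Pm' (w2 i hi) (w0 i hi)
  · rw [Pm_comm]; exact tri_Pm (w1 i hi) (w0 i hi)
  congr 2
  have e : (Hm (h0 i) (W0 i) * (sqw (W0 i) * A i * sqw (W1 i)) * Hm (h1 i) (W1 i)
      * (sqw (W1 i) * B i * sqw (W2 i)) * Hm (h2 i) (W2 i) * (sqw (W2 i) * C i * sqw (W0 i))).trace
      = (diagonal (h0 i) * A i * (diagonal (h1 i) * B i * (diagonal (h2 i) * C i))).trace := by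
    rw [← Matrix.mul_assoc, trace_mul_comm, ← tri_sqw_Hm (hh0 i hi), ← tri_sqw_Hm (hh1 i hi),
      ← tri_sqw_Hm (hh2 i hi)]
    simp only [Matrix.mul_assoc]
  rw [e]
  have e2 : ∀ (d : G → ℝ) (M : Matrix G G ℝ), diagonal d * M = Matrix.of fun i j => d i * M i j :=
    fun d M => by ext i j; simp
  simp only [e2, trace, diag_apply, Matrix.mul_apply, of_apply, mul_sum]
  exact sum_congr rfl fun _ _ => sum_congr rfl fun _ _ => sum_congr rfl fun _ _ => by ring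

end Crest.Agent.R072
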