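import Crest.Agent.R072.Gain
import Crest.Agent.R072.Tri

/-! Row 72: bounds for the sums of the trilinear forms `Lam`. -/

set_option autoImplicit false

open Matrix Finset

namespace Crest.Agent.R072

section aux
variable {G : Type} [Fintype G] [DecidableEq G] [AddCommGroup G]

omit [Fintype G] in
lemma forms_haar_congr (e : G) (k : ℕ) {q x q' x' : G} (h : x - q = x' - q') :
    haar e k q x = haar e k q' x' := by
  have key : ∀ {q x q' x' : G}, x - q = x' - q' → box e k q x = box e k q' x' := by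
    intro q x q' x' h
    unfold box
    congr 1
    refine Finset.sum_congr rfl fun i _ => if_congr ?_ rfl rfl
    rw [← sub_eq_iff_eq_add', ← sub_eq_iff_eq_add', h]
  unfold haar
  rw [key h, key (q := q + (2 ^ k : ℕ) • e) (x := x) (q' := q' + (2 ^ k : ℕ) • e) (x' := x') (by
    rw [← sub_sub, ← sub_sub, h])]

lemma forms_eta (e c : G) (k : ℕ) (g : G → ℝ) :
    eta k (fun n : ℤ => g (n • e + c)) =
      fun r : ℤ => ∑ x, haar e k (r • e + c) x * g x := by
  funext r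
  unfold eta avg haar
  simp only [div_mul_eq_mul_div, sub_mul, ← Finset.sum_div, Finset.sum_sub_distrib, sum_box_mul]
  congr 2
  · congr 1
    refine Finset.sum_congr rfl fun i _ => ?_
    congr 1
    rw [add_smul, natCast_zsmul]; abel
  · congr 1
    refine Finset.sum_congr rfl fun i _ => ?_
    congr 1
    rw [add_smul, add_smul, natCast_zsmul, ← natCast_zsmul e (2 ^ k)]
    push_cast
    abel

lemma forms_eta3 (e c : G) (k : ℕ) (g : G → ℝ) (r : ℤ) :
    eta3 k (fun n : ℤ => g (n • e + c)) r =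
      ∑ a, haar e k (r • e + c) a * ∑ b, haar e k a b * ∑ y, haar e k b y * g y := by
  unfold eta3
  rw [forms_eta, forms_eta e c k (fun b => ∑ y, haar e k b y * g y),
    forms_eta e c k (fun a => ∑ b, haar e k a b * ∑ y, haar e k b y * g y)]

lemma forms_kernel (e : G) (k : ℕ) (ρ x0 x1 x2 : G) :
    ∑ a, ∑ b, haar e k (ρ + (-x0 - x2)) a * (haar e k a b * haar e k b x1) =
      ∑ q0, ∑ q1, haar e k q0 x0 * haar e k q1 x1 * haar e k (ρ - q0 - q1) x2 := by
  rw [Finset.sum_comm, Finset.sum_comm (f := fun q0 q1 =>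
    haar e k q0 x0 * haar e k q1 x1 * haar e k (ρ - q0 - q1) x2)]
  refine Finset.sum_congr rfl fun b _ => ?_
  rw [← Equiv.sum_comp (Equiv.addLeft (b - x0))]
  refine Finset.sum_congr rfl fun q _ => ?_
  rw [Equiv.coe_addLeft,
    forms_haar_congr e k (q := ρ + (-x0 - x2)) (x := b - x0 + q) (q' := ρ - q - b) (x' := x2)
      (by abel),
    forms_haar_congr e k (q := b - x0 + q) (x := b) (q' := q) (x' := x0) (by abel)]
  ring

end aux

/-- `Lam` as a sum over the plane of local forms. -/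
theorem Lam_eq {G : Type} [Fintype G] [DecidableEq G] [AddCommGroup G] (e : G) (k : ℕ) (r : ℤ)
    (A B C : Matrix G G ℝ) :
    Lam e k r A B C = ∑ q0, ∑ q1, ∑ x0, ∑ x1, ∑ x2, A x0 x1 * B x1 x2 * C x2 x0 *
      (haar e k q0 x0 * haar e k q1 x1 * haar e k (r • e - q0 - q1) x2) := by
  have h1 : ∀ x0 x2, eta3 k (line e A B x0 x2) r = ∑ x1, A x0 x1 * B x1 x2 *
      ∑ q0, ∑ q1, haar e k q0 x0 * haar e k q1 x1 * haar e k (r • e - q0 - q1) x2 := by
    intro x0 x2
    have e1 : line e A B x0 x2 =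
        fun n : ℤ => (fun y => A x0 y * B y x2) (n • e + (-x0 - x2)) := by
      funext n
      unfold line
      rw [show n • e + (-x0 - x2) = n • e - x0 - x2 by abel]
    rw [e1]
    refine (forms_eta3 e (-x0 - x2) k (fun y => A x0 y * B y x2) r).trans ?_
    simp only [← forms_kernel, Finset.mul_sum]
    rw [Finset.sum_congr rfl fun a _ => Finset.sum_comm, Finset.sum_comm]
    refine Finset.sum_congr rfl fun y _ => Finset.sum_congr rfl fun a _ =>
      Finset.sum_congr rfl fun b _ => by ring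
  unfold Lam
  simp only [h1, Finset.mul_sum]
  rw [Finset.sum_comm]
  symm
  rw [Finset.sum_congr rfl fun q0 _ => Finset.sum_comm, Finset.sum_comm]
  refine Finset.sum_congr rfl fun x0 _ => ?_
  rw [Finset.sum_congr rfl fun q0 _ => Finset.sum_congr rfl fun q1 _ => Finset.sum_comm,
    Finset.sum_congr rfl fun q0 _ => Finset.sum_comm, Finset.sum_comm]
  refine Finset.sum_congr rfl fun x2 _ => ?_
  rw [Finset.sum_congr rfl fun q0 _ => Finset.sum_comm, Finset.sum_comm]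
  refine Finset.sum_congr rfl fun x1 _ => Finset.sum_congr rfl fun q0 _ =>
    Finset.sum_congr rfl fun q1 _ => by ring

section aux
variable {G : Type} [Fintype G] [DecidableEq G] [AddCommGroup G]

lemma forms_reindex₁ (ρ : G) (F : G → G → G → ℝ) :
    ∑ q0, ∑ q1, F (ρ - q0 - q1) q0 q1 = ∑ qa, ∑ q, F qa q (ρ - qa - q) := by
  rw [Finset.sum_comm (f := fun qa q => F qa q (ρ - qa - q))]
  refine Finset.sum_congr rfl fun q _ => ?_
  rw [← Equiv.sum_comp (Equiv.subLeft (ρ - q))]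
  refine Finset.sum_congr rfl fun a _ => ?_
  rw [Equiv.subLeft_apply, sub_sub_cancel, show ρ - q - a = ρ - a - q by abel]

lemma forms_reindex₂ (ρ : G) (F : G → G → G → ℝ) :
    ∑ q0, ∑ q1, F q0 (ρ - q0 - q1) q1 = ∑ qa, ∑ q, F qa q (ρ - qa - q) := by
  refine Finset.sum_congr rfl fun q _ => ?_
  rw [← Equiv.sum_comp (Equiv.subLeft (ρ - q))]
  refine Finset.sum_congr rfl fun a _ => ?_
  rw [Equiv.subLeft_apply, sub_sub_cancel]

lemma forms_integrable (e : G) (X Y : ℕ → ℤ → Matrix G G ℝ) (K l : ℕ) {η T : ℝ} (hη : 0 < η)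
    (hT : η ≤ T) : IntervalIntegrable (fun t : ℝ => t ^ 2 * ∑ k ∈ range K, (∑ r ∈ rng (k + l),
      Gn e (t ^ 2) (X k r) (Y k r) k (r • e)) / 2 ^ (k + l)) MeasureTheory.volume η T :=
  intervalIntegrable_of_continuousOn_Ioi ((continuous_pow 2).continuousOn.mul
    (continuousOn_finset_sum _ fun k _ => (continuousOn_finset_sum _ fun r _ =>
      continuousOn_Gn e _ _ k _).div_const _)) hη hT

lemma forms_general (e : G) (A B : Matrix G G ℝ) (C : ℕ → ℤ → Matrix G G ℝ) (K l : ℕ)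
    {K₁ K₂ K₃ : ℝ}
    (h₁ : ∀ η T : ℝ, 0 < η → η ≤ T → ∫ t in η..T, t ^ 2 * ∑ k ∈ range K, (∑ r ∈ rng (k + l),
      Gn e (t ^ 2) (C k r) Aᵀ k (r • e)) / 2 ^ (k + l) ≤ K₁)
    (h₂ : ∀ η T : ℝ, 0 < η → η ≤ T → ∫ t in η..T, t ^ 2 * ∑ k ∈ range K, (∑ r ∈ rng (k + l),
      Gn e (t ^ 2) A Bᵀ k (r • e)) / 2 ^ (k + l) ≤ K₂)
    (h₃ : ∀ η T : ℝ, 0 < η → η ≤ T → ∫ t in η..T, t ^ 2 * ∑ k ∈ range K, (∑ r ∈ rng (k + l),
      Gn e (t ^ 2) (C k r)ᵀ B k (r • e)) / 2 ^ (k + l) ≤ K₃) :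
    ∑ k ∈ range K, (∑ r ∈ rng (k + l), |Lam e k r A B (C k r)|) / 2 ^ (k + l) ≤
      2 * (K₁ + K₂ + K₃) := by
  have h := tri_weights (ι := Σ _ : ℕ, ℤ × G × G)
    ((range K).sigma fun k => rng (k + l) ×ˢ (univ ×ˢ univ)) (fun i => 1 / 2 ^ (i.1 + l))
    (fun _ _ => by positivity) (fun _ => A) (fun _ => B) (fun i => C i.1 i.2.1)
    (fun i => box e (i.1 + 1) i.2.2.1) (fun i => box e (i.1 + 1) i.2.2.2)
    (fun i => box e (i.1 + 1) (i.2.1 • e - i.2.2.1 - i.2.2.2))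
    (fun i => haar e i.1 i.2.2.1) (fun i => haar e i.1 i.2.2.2)
    (fun i => haar e i.1 (i.2.1 • e - i.2.2.1 - i.2.2.2))
    (fun _ _ _ => abs_haar_le _ _ _ _) (fun _ _ _ => abs_haar_le _ _ _ _)
    (fun _ _ _ => abs_haar_le _ _ _ _) (K₁ + K₂ + K₃) (fun η T hη hT => by
      refine le_of_eq_of_le ?_ (add_le_add (add_le_add (h₁ η T hη hT) (h₂ η T hη hT))
        (h₃ η T hη hT))
      have i₁ := forms_integrable e C (fun _ _ => Aᵀ) K l hη hT
      have i₂ := forms_integrable e (fun _ _ => A) (fun _ _ => Bᵀ) K l hη hT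
      have i₃ := forms_integrable e (fun k r => (C k r)ᵀ) (fun _ _ => B) K l hη hT
      rw [← intervalIntegral.integral_add i₁ i₂, ← intervalIntegral.integral_add (i₁.add i₂) i₃]
      congr 1
      funext t
      rw [← mul_add, ← mul_add, ← Finset.sum_add_distrib, ← Finset.sum_add_distrib,
        Finset.sum_sigma]
      congr 1
      refine Finset.sum_congr rfl fun k _ => ?_
      rw [← add_div, ← add_div, ← Finset.sum_add_distrib, ← Finset.sum_add_distrib,
        Finset.sum_product, Finset.sum_div]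
      refine Finset.sum_congr rfl fun r _ => ?_
      simp only [Finset.sum_product, ← Finset.mul_sum, Finset.sum_add_distrib]
      rw [forms_reindex₁ (r • e) (fun a b c => gn (t ^ 2) (Pm (C k r) Aᵀ (box e (k + 1) a)
          (box e (k + 1) b) (box e (k + 1) c)) (Hm (haar e k b) (box e (k + 1) b))),
        forms_reindex₂ (r • e) (fun a b c => gn (t ^ 2) (Pm (C k r)ᵀ B (box e (k + 1) a)
          (box e (k + 1) b) (box e (k + 1) c)) (Hm (haar e k b) (box e (k + 1) b)))]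
      unfold Gn
      ring)
  refine le_trans ?_ h
  rw [Finset.sum_sigma]
  refine Finset.sum_le_sum fun k _ => ?_
  rw [Finset.sum_product, Finset.sum_div]
  refine Finset.sum_le_sum fun r _ => ?_
  simp only [Finset.sum_product, ← Finset.mul_sum]
  rw [Lam_eq, one_div_mul_eq_div]
  refine div_le_div_of_nonneg_right ?_ (by positivity)
  exact (Finset.abs_sum_le_sum_abs _ _).trans
    (Finset.sum_le_sum fun q0 _ => Finset.abs_sum_le_sum_abs _ _)

omit [DecidableEq G] in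
lemma forms_Lam_cut (e : G) (k : ℕ) (r : ℤ) (A B C : Matrix G G ℝ) (lam : ℝ) (a : G → G → ℝ) :
    Lam e k r A B (cut lam a C) = lam * Lam e k r A B (cut 1 a C) := by
  unfold Lam cut
  simp only [Finset.mul_sum, Matrix.of_apply]
  exact Finset.sum_congr rfl fun _ _ => Finset.sum_congr rfl fun _ _ => by ring

omit [Fintype G] [DecidableEq G] [AddCommGroup G] in
lemma forms_cut_transpose (lam : ℝ) (a : G → G → ℝ) (C : Matrix G G ℝ) :
    (cut lam a C)ᵀ = cut lam (fun u x => a x u) Cᵀ := rfl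

omit [Fintype G] [DecidableEq G] [AddCommGroup G] in
lemma forms_cut_one (C : Matrix G G ℝ) : cut 1 (fun _ _ => 1) C = C := by
  ext u x; simp [cut]

omit [DecidableEq G] in
lemma forms_scale (e : G) (A B C : Matrix G G ℝ) (K l : ℕ) {lam : ℝ} (hl : 0 ≤ lam)
    (a : ℕ → ℤ → G → G → ℝ) :
    ∑ k ∈ range K, (∑ r ∈ rng (k + l), |Lam e k r A B (cut lam (a k r) C)|) / 2 ^ (k + l) =
      lam * ∑ k ∈ range K, (∑ r ∈ rng (k + l), |Lam e k r A B (cut 1 (a k r) C)|) / 2 ^ (k + l) := by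
  rw [Finset.mul_sum]
  refine Finset.sum_congr rfl fun k _ => ?_
  rw [← mul_div_assoc, Finset.mul_sum]
  congr 1
  refine Finset.sum_congr rfl fun r _ => ?_
  rw [forms_Lam_cut, abs_mul, abs_of_nonneg hl]

end aux

lemma forms_gain_const : ∃ c : ℝ, 0 ≤ c ∧
    ∀ (G : Type) [Fintype G] [DecidableEq G] [AddCommGroup G] (e : G) (A B : Matrix G G ℝ)
      (K l : ℕ) (η T : ℝ), 0 < η → η ≤ T →
        ∫ t in η..T, t ^ 2 * ∑ k ∈ range K, (∑ r ∈ rng (k + l),
            Gn e (t ^ 2) A Bᵀ k (r • e)) / 2 ^ (k + l) ≤ c * (l + 1) * (n3 A + n3 B) := by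
  obtain ⟨c, hc, h⟩ := gainM
  refine ⟨c, hc, fun G _ _ _ e A B K l η T hη hT => ?_⟩
  have := h G e A Bᵀ K l 1 0 (fun _ _ _ => 1) zero_le_one le_rfl (by simp) (by simp) η T hη hT
  simpa only [forms_cut_one, n3_transpose, one_pow, mul_one, add_zero, zero_mul, one_mul]
    using this

theorem thmM : ∃ c : ℝ, 0 ≤ c ∧
    ∀ (G : Type) [Fintype G] [DecidableEq G] [AddCommGroup G] (e : G) (A B C : Matrix G G ℝ)
      (K l : ℕ) (ν : ℝ) (γ : ℕ → G → G → ℝ), 1 ≤ ν → (∀ k u x, |γ k u x| ≤ 1) →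
      (∀ u x, ∑ k ∈ range K, |γ (k + 1) u x - γ k u x| ≤ ν) →
      ∑ k ∈ range K, (∑ r ∈ rng (k + l), |Lam e k r A B (cut 1 (γ k) C)|) / 2 ^ (k + l) ≤
        c * (l + 1) * √ν * (n3 A + n3 B + n3 C) := by
  obtain ⟨c, hc, h⟩ := gainM
  obtain ⟨c', hc', h'⟩ := forms_gain_const
  refine ⟨2 * (6 * c + c'), by positivity, fun G _ _ _ e A B C K l ν γ hν hγ hv => ?_⟩
  have hs1 : 1 ≤ √ν := Real.one_le_sqrt.2 hν
  have hs0 : 0 < √ν := by linarith
  set lam : ℝ := (√ν)⁻¹ with hlam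
  have hl0 : 0 < lam := inv_pos.2 hs0
  have hl1 : lam ≤ 1 := inv_le_one_of_one_le₀ hs1
  have hl2 : ν * lam ^ 2 = 1 := by
    rw [hlam, inv_pow, Real.sq_sqrt (by linarith), mul_inv_cancel₀ (by linarith)]
  have hl3 : ν * lam ^ 3 = lam := by rw [pow_succ, ← mul_assoc, hl2, one_mul]
  have hl4 : lam ^ 3 ≤ 1 := pow_le_one₀ hl0.le hl1
  have key := forms_general e A B (fun k _ => cut lam (γ k) C) K l
    (h G e C Aᵀ K l lam ν γ hl0.le (by linarith) hγ hv) (h' G e A B K l)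
    (h G e Cᵀ B K l lam ν (fun k u x => γ k x u) hl0.le (by linarith) (fun k u x => hγ k x u)
      (fun u x => hv x u))
  rw [forms_scale e A B C K l hl0.le (fun k _ => γ k), n3_transpose, n3_transpose, hl2, hl3,
    hlam, inv_mul_le_iff₀ hs0, ← hlam] at key
  refine key.trans ?_
  have hA := n3_nonneg A
  have hB := n3_nonneg B
  have hC := n3_nonneg C
  have hcl : 0 ≤ c * (l + 1) := by positivity
  have hcl' : 0 ≤ c' * (l + 1) := by positivity
  have a1 : (lam ^ 3 + 1 + lam) * n3 C ≤ 3 * n3 C := mul_le_mul_of_nonneg_right (by linarith) hC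
  have a2 : c * (l + 1) * ((lam ^ 3 + 1 + lam) * n3 C + (1 + 1) * n3 A) +
      c' * (l + 1) * (n3 A + n3 B) + c * (l + 1) * ((lam ^ 3 + 1 + lam) * n3 C + (1 + 1) * n3 B) ≤
      (6 * c + c') * (l + 1) * (n3 A + n3 B + n3 C) := by
    nlinarith [mul_le_mul_of_nonneg_left a1 hcl, mul_nonneg hcl hA, mul_nonneg hcl hB,
      mul_nonneg hcl' hC]
  nlinarith [mul_le_mul_of_nonneg_left a2 hs0.le]

theorem thmE : ∃ c : ℝ, 0 ≤ c ∧
    ∀ (G : Type) [Fintype G] [DecidableEq G] [AddCommGroup G] (e : G) (A B C : Matrix G G ℝ)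
      (K l : ℕ) (lam ν : ℝ) (a : ℕ → ℤ → G → G → ℝ) (ab : ℕ → G → G → ℝ), 0 < lam → 0 ≤ ν →
      (∀ k r u x, |a k r u x| ≤ 1) → (∀ k u x, 0 ≤ ab k u x) →
      (∀ k < K, ∀ u x, (∑ r ∈ rng (k + l), a k r u x ^ 2) / 2 ^ (k + l) ≤ ab k u x ^ 2) →
      (∀ u x, ∑ k ∈ range K, ab k u x ≤ ν) →
      ∑ k ∈ range K, (∑ r ∈ rng (k + l), |Lam e k r A B (cut 1 (a k r) C)|) / 2 ^ (k + l) ≤
        c * (l + 1) * (1 / lam + ν * lam + ν * lam ^ 2) * (n3 A + n3 B + n3 C) := by
  obtain ⟨c, hc, h⟩ := gainE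
  obtain ⟨c', hc', h'⟩ := forms_gain_const
  refine ⟨2 * (2 * c + c'), by positivity,
    fun G _ _ _ e A B C K l lam ν a ab hl0 hν ha hab h1 h2 => ?_⟩
  have key := forms_general e A B (fun k r => cut lam (a k r) C) K l
    (h G e C Aᵀ K l lam ν a ab hl0.le hν ha hab h1 h2) (h' G e A B K l)
    (h G e Cᵀ B K l lam ν (fun k r u x => a k r x u) (fun k u x => ab k x u) hl0.le hν
      (fun k r u x => ha k r x u) (fun k u x => hab k x u) (fun k hk u x => h1 k hk x u)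
      (fun u x => h2 x u))
  rw [forms_scale e A B C K l hl0.le a, n3_transpose, n3_transpose] at key
  refine le_of_mul_le_mul_left (key.trans ?_) hl0
  have hA := n3_nonneg A
  have hB := n3_nonneg B
  have hC := n3_nonneg C
  have e1 : lam * (2 * (2 * c + c') * (l + 1) * (1 / lam + ν * lam + ν * lam ^ 2) *
      (n3 A + n3 B + n3 C)) =
      2 * ((2 * c + c') * (l + 1) * (1 + ν * lam ^ 2 + ν * lam ^ 3) * (n3 A + n3 B + n3 C)) := by
    field_simp
  rw [e1]
  refine mul_le_mul_of_nonneg_left ?_ (by norm_num)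
  have b2 : 0 ≤ ν * lam ^ 2 := by positivity
  have b3 : 0 ≤ ν * lam ^ 3 := by positivity
  generalize ν * lam ^ 2 = u at *
  generalize ν * lam ^ 3 = v at *
  have hl : (0 : ℝ) ≤ l := Nat.cast_nonneg l
  have a1 : c * ((u + v) * n3 C + (1 + u) * n3 A) + c * ((u + v) * n3 C + (1 + u) * n3 B) ≤
      2 * c * ((1 + u + v) * (n3 A + n3 B + n3 C)) := by
    have : (u + v) * n3 C + (1 + u) * n3 A + ((u + v) * n3 C + (1 + u) * n3 B) ≤
        2 * ((1 + u + v) * (n3 A + n3 B + n3 C)) := by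
      nlinarith [mul_nonneg b2 hA, mul_nonneg b2 hB, mul_nonneg b3 hA, mul_nonneg b3 hB]
    nlinarith [mul_le_mul_of_nonneg_left this hc]
  have a2 : n3 A + n3 B ≤ (1 + u + v) * (n3 A + n3 B + n3 C) := by
    nlinarith [mul_nonneg (add_nonneg b2 b3) (add_nonneg (add_nonneg hA hB) hC)]
  have a3 : 0 ≤ (1 + u + v) * (n3 A + n3 B + n3 C) := by positivity
  have a4 := mul_le_mul_of_nonneg_left a2 (by positivity : 0 ≤ c' * ((l : ℝ) + 1))
  nlinarith [mul_nonneg (mul_nonneg hc hl) a3]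

end Crest.Agent.R072
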