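import Crest.Agent.R072.CostWin

/-! Row 72: total budgets for the gains. -/

set_option autoImplicit false

open Matrix Finset

namespace Crest.Agent.R072

/-! ### Integrated bounds -/

/-- `f` is continuous on `(0, ∞)` and `∫ t² f ≤ b`. -/
def GainIB (η T : ℝ) (f : ℝ → ℝ) (b : ℝ) : Prop :=
  ContinuousOn f (Set.Ioi 0) ∧ ∫ t in η..T, t ^ 2 * f t ≤ b

section IB
variable {η T : ℝ}

lemma gain_integrable (hη : 0 < η) (hT : η ≤ T) {f : ℝ → ℝ} (hf : ContinuousOn f (Set.Ioi 0)) :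
    IntervalIntegrable (fun t => t ^ 2 * f t) MeasureTheory.volume η T :=
  intervalIntegrable_of_continuousOn_Ioi ((continuousOn_pow 2).mul hf) hη hT

lemma GainIB.add (hη : 0 < η) (hT : η ≤ T) {f g : ℝ → ℝ} {a b : ℝ} (hf : GainIB η T f a)
    (hg : GainIB η T g b) : GainIB η T (fun t => f t + g t) (a + b) := by
  refine ⟨hf.1.add hg.1, ?_⟩
  simp only [mul_add]
  rw [intervalIntegral.integral_add (gain_integrable hη hT hf.1) (gain_integrable hη hT hg.1)]
  exact add_le_add hf.2 hg.2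

lemma GainIB.const_mul {f : ℝ → ℝ} {a c : ℝ} (hc : 0 ≤ c) (hf : GainIB η T f a) :
    GainIB η T (fun t => c * f t) (c * a) := by
  refine ⟨continuousOn_const.mul hf.1, ?_⟩
  simp only [mul_left_comm _ c]
  rw [intervalIntegral.integral_const_mul]
  exact mul_le_mul_of_nonneg_left hf.2 hc

lemma gainIB_sum (hη : 0 < η) (hT : η ≤ T) {ι : Type*} (s : Finset ι) {f : ι → ℝ → ℝ}
    {a : ι → ℝ} (h : ∀ i ∈ s, GainIB η T (f i) (a i)) :
    GainIB η T (fun t => ∑ i ∈ s, f i t) (∑ i ∈ s, a i) := by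
  classical
  induction s using Finset.induction_on with
  | empty => exact ⟨by simpa using continuousOn_const, by simp⟩
  | insert i s hi ih =>
    simp only [Finset.sum_insert hi]
    exact (h i (Finset.mem_insert_self _ _)).add hη hT
      (ih fun j hj => h j (Finset.mem_insert_of_mem hj))

lemma GainIB.mono (hη : 0 < η) (hT : η ≤ T) {f g : ℝ → ℝ} {a b : ℝ} (hg : GainIB η T g a)
    (hf : ContinuousOn f (Set.Ioi 0)) (h : ∀ t, 0 < t → f t ≤ g t) (hab : a ≤ b) :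
    GainIB η T f b :=
  ⟨hf, (intervalIntegral.integral_mono_on hT (gain_integrable hη hT hf)
    (gain_integrable hη hT hg.1) fun t ht =>
      mul_le_mul_of_nonneg_left (h t (hη.trans_le ht.1)) (sq_nonneg t)).trans (hg.2.trans hab)⟩

lemma GainIB.avg (hη : 0 < η) (hT : η ≤ T) {n : ℕ} (hn : 0 < n) {f : ℕ → ℝ → ℝ} {a : ℝ}
    (h : ∀ i, GainIB η T (f i) a) : GainIB η T (fun t => (∑ i ∈ range n, f i t) / n) a := by
  have h1 := (gainIB_sum hη hT (range n) fun i _ => h i).const_mul (c := (n : ℝ)⁻¹) (by positivity)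
  have hn' : (n : ℝ) ≠ 0 := by positivity
  rw [Finset.sum_const, Finset.card_range, nsmul_eq_mul, inv_mul_cancel_left₀ hn'] at h1
  simpa only [div_eq_inv_mul] using h1

end IB

/-! ### Elementary facts -/

section Elem
variable {G : Type} [Fintype G]

lemma gain_n3_zero : n3 (0 : Matrix G G ℝ) = 0 := by simp [n3]

lemma gain_n3_sqrt_two (X : Matrix G G ℝ) : n3 ((√2 : ℝ) • X) ≤ 3 * n3 X := by
  unfold n3
  simp only [Finset.mul_sum]
  refine Finset.sum_le_sum fun a _ => Finset.sum_le_sum fun x _ => ?_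
  rw [Matrix.smul_apply, smul_eq_mul, abs_mul, mul_pow, abs_of_nonneg (Real.sqrt_nonneg _)]
  refine mul_le_mul_of_nonneg_right ?_ (by positivity)
  have h1 : (√2 : ℝ) ^ 2 = 2 := Real.sq_sqrt (by norm_num)
  have h2 : (√2 : ℝ) ≤ 3 / 2 := by
    rw [Real.sqrt_le_left (by norm_num)]; norm_num
  rw [pow_succ, h1]
  linarith

lemma gain_n3_cut {lam : ℝ} (hl : 0 ≤ lam) {g : G → G → ℝ} (hg : ∀ u x, |g u x| ≤ 1)
    (C : Matrix G G ℝ) : n3 (cut lam g C) ≤ lam ^ 3 * n3 C := by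
  unfold n3
  simp only [Finset.mul_sum]
  refine Finset.sum_le_sum fun a _ => Finset.sum_le_sum fun x _ => ?_
  rw [← mul_pow]
  refine pow_le_pow_left₀ (abs_nonneg _) ?_ 3
  simp only [cut, Matrix.of_apply, abs_mul, abs_of_nonneg hl]
  exact mul_le_mul_of_nonneg_right (mul_le_of_le_one_right hl (hg a x)) (abs_nonneg _)

omit [Fintype G] in
lemma gain_smul_cut (c lam : ℝ) (g : G → G → ℝ) (C : Matrix G G ℝ) :
    c • cut lam g C = cut (c * lam) g C := by
  ext u x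
  simp only [cut, Matrix.smul_apply, Matrix.of_apply, smul_eq_mul]
  ring

omit [Fintype G] in
lemma gain_cut_zero (lam : ℝ) (C : Matrix G G ℝ) : cut lam (fun _ _ => 0) C = 0 := by
  ext u x
  simp [cut]

lemma gain_sum_Ico (s : ℤ) (n : ℕ) (F : ℤ → ℝ) :
    ∑ r ∈ Finset.Ico s (s + n), F r = ∑ i ∈ range n, F (s + i) := by
  rw [Int.Ico_eq_finset_map, Finset.sum_map]
  simp

lemma gain_sum_rng (j : ℕ) (F : ℤ → ℝ) :
    ∑ r ∈ rng j, F r = ∑ i ∈ range (2 ^ (j + 1)), F (-2 ^ j + i) := by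
  rw [← gain_sum_Ico, rng]
  congr 2
  push_cast
  ring

lemma gain_cost_sum (C : Matrix G G ℝ) {w1 w2 : G → G → ℝ} (h1 : ∀ u x, 0 ≤ w1 u x)
    (h2 : ∀ u x, 0 ≤ w2 u x) {W1 W2 : ℝ} (hW1 : ∑ u, ∑ x, |C u x| * w1 u x ≤ W1)
    (hW2 : ∑ u, ∑ x, |C u x| * w2 u x ≤ W2) {A B ν : ℝ} (hA : 0 ≤ A) (hB : 0 ≤ B) (hν : 0 ≤ ν)
    (K : ℕ) {δ : ℕ → G → G → ℝ} (hδ : ∀ u x, ∑ k ∈ range K, δ k u x ≤ ν) :
    ∑ k ∈ range K, ∑ u, ∑ x, δ k u x * |C u x| * (A * w1 u x + B * w2 u x) ≤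
      ν * (A * W1 + B * W2) := by
  calc ∑ k ∈ range K, ∑ u, ∑ x, δ k u x * |C u x| * (A * w1 u x + B * w2 u x)
      = ∑ u, ∑ x, (∑ k ∈ range K, δ k u x) * (|C u x| * (A * w1 u x + B * w2 u x)) := by
        rw [Finset.sum_comm]
        refine Finset.sum_congr rfl fun u _ => ?_
        rw [Finset.sum_comm]
        refine Finset.sum_congr rfl fun x _ => ?_
        rw [Finset.sum_mul]
        exact Finset.sum_congr rfl fun k _ => mul_assoc _ _ _
    _ ≤ ∑ u, ∑ x, ν * (|C u x| * (A * w1 u x + B * w2 u x)) :=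
        Finset.sum_le_sum fun u _ => Finset.sum_le_sum fun x _ =>
          mul_le_mul_of_nonneg_right (hδ u x) (mul_nonneg (abs_nonneg _)
            (add_nonneg (mul_nonneg hA (h1 u x)) (mul_nonneg hB (h2 u x))))
    _ = ν * (A * ∑ u, ∑ x, |C u x| * w1 u x + B * ∑ u, ∑ x, |C u x| * w2 u x) := by
        simp only [Finset.mul_sum, ← Finset.sum_add_distrib]
        exact Finset.sum_congr rfl fun u _ => Finset.sum_congr rfl fun x _ => by ring
    _ ≤ _ := mul_le_mul_of_nonneg_left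
        (add_le_add (mul_le_mul_of_nonneg_left hW1 hA) (mul_le_mul_of_nonneg_left hW2 hB)) hν

/-- Telescoping along diagonals. -/
lemma gain_telescope (P : ℕ → ℕ → ℝ) (h0 : ∀ k j, 0 ≤ P k j) (ha : ∀ j, P 0 (j + 1) ≤ P 0 j)
    (K L : ℕ) : ∑ k ∈ range K, (P k k - P k (k + L)) ≤
      ∑ i ∈ range L, (P 0 0 + ∑ k ∈ range K, (P (k + 1) (k + i + 1) - P k (k + i + 1))) := by
  have h1 : ∀ k, P k k - P k (k + L) = ∑ i ∈ range L, (P k (k + i) - P k (k + i + 1)) := fun k =>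
    (Finset.sum_range_sub' (fun i => P k (k + i)) L).symm
  simp only [h1]
  rw [Finset.sum_comm]
  refine Finset.sum_le_sum fun i _ => ?_
  have h2 := Finset.sum_range_sub' (fun k => P k (k + i)) K
  have h3 : P 0 i ≤ P 0 0 := antitone_nat_of_succ_le ha (Nat.zero_le i)
  have h4 : ∑ k ∈ range K, (P k (k + i) - P k (k + i + 1)) =
      ∑ k ∈ range K, (P k (k + i) - P (k + 1) (k + 1 + i)) +
        ∑ k ∈ range K, (P (k + 1) (k + i + 1) - P k (k + i + 1)) := by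
    rw [← Finset.sum_add_distrib]
    refine Finset.sum_congr rfl fun k _ => ?_
    rw [show k + 1 + i = k + i + 1 by ring]
    ring
  rw [h4, h2, zero_add]
  linarith [h0 K (K + i)]

variable [AddCommGroup G]

omit [Fintype G] in
lemma gain_win_nonneg (e : G) (n : ℕ) (s : ℤ) {f : G → ℝ} (hf : ∀ x, 0 ≤ f x) : 0 ≤ win e n s f :=
  div_nonneg (Finset.sum_nonneg fun _ _ => hf _) (Nat.cast_nonneg _)

omit [Fintype G] in
lemma gain_thick_nonneg (e : G) (l k : ℕ) {f : G → ℝ} (hf : ∀ x, 0 ≤ f x) : 0 ≤ thick e l k f :=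
  div_nonneg (add_nonneg (gain_win_nonneg e _ _ hf) (gain_win_nonneg e _ _ hf)) zero_le_two

omit [Fintype G] in
lemma gain_rng_le_thick (e : G) (l k : ℕ) {f : G → ℝ} (hf : ∀ x, 0 ≤ f x) :
    (∑ r ∈ rng (k + l), f (r • e)) / 2 ^ (k + l) ≤ 16 * thick e (l + 1) (k + 1) f := by
  have h1 : ∑ r ∈ rng (k + l), f (r • e) ≤ ∑ i ∈ range (2 ^ (k + 1 + (l + 1) + 1)),
      f ((-(2 ^ (l + 1) + 1) * 2 ^ (k + 1) + (i : ℤ)) • e) := by
    rw [← gain_sum_Ico _ _ fun r => f (r • e)]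
    refine Finset.sum_le_sum_of_subset_of_nonneg (Finset.Ico_subset_Ico ?_ ?_) fun _ _ _ => hf _
    · have h2 : (0 : ℤ) < 2 ^ k := by positivity
      have h3 : (0 : ℤ) < 2 ^ l := by positivity
      simp only [pow_add, pow_one]
      nlinarith [mul_pos h2 h3]
    · have h2 : (0 : ℤ) < 2 ^ k := by positivity
      have h3 : (1 : ℤ) ≤ 2 ^ l := one_le_pow₀ (by norm_num)
      push_cast
      simp only [pow_add, pow_one]
      nlinarith [mul_le_mul_of_nonneg_left h3 h2.le]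
  have h2 := gain_win_nonneg e (2 ^ (k + 1 + (l + 1) + 1)) (-(2 ^ (l + 1) + 2) * 2 ^ (k + 1)) hf
  have h3 : (∑ i ∈ range (2 ^ (k + 1 + (l + 1) + 1)),
      f ((-(2 ^ (l + 1) + 1) * 2 ^ (k + 1) + (i : ℤ)) • e)) / 2 ^ (k + l) =
      8 * win e (2 ^ (k + 1 + (l + 1) + 1)) (-(2 ^ (l + 1) + 1) * 2 ^ (k + 1)) f := by
    unfold win
    push_cast
    rw [show k + 1 + (l + 1) + 1 = (k + l) + 3 by ring, pow_add (2 : ℝ) (k + l) 3]
    field_simp
    norm_num
  refine (div_le_div_of_nonneg_right h1 (by positivity)).trans ?_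
  rw [h3]
  unfold thick
  linarith

end Elem

section Init
variable {G : Type} [Fintype G] [DecidableEq G] [AddCommGroup G] {η T : ℝ}

lemma gainIB_U_zero (hη : 0 < η) (hT : η ≤ T) (e : G) (X Y : Matrix G G ℝ) (r : G) :
    GainIB η T (fun t => U e (t ^ 2) X Y 0 r) (Real.pi / 2 * (n3 X + n3 Y)) :=
  ⟨continuousOn_U e X Y 0 r, int_U_zero e X Y r hη hT⟩

lemma gainIB_Phi_zero (hη : 0 < η) (hT : η ≤ T) (e : G) (X : Matrix G G ℝ) :
    GainIB η T (fun t => Phi e (t ^ 2) X 0) (Real.pi / 2 * (3 * n3 X)) := by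
  have h := gainIB_U_zero hη hT e ((√2 : ℝ) • X) 0 0
  refine h.mono hη hT h.1 (fun _ _ => le_rfl) ?_
  rw [gain_n3_zero, add_zero]
  exact mul_le_mul_of_nonneg_left (gain_n3_sqrt_two X) (by positivity)

lemma gainIB_thick_zero (hη : 0 < η) (hT : η ≤ T) (e : G) (X Y : Matrix G G ℝ) (l : ℕ) :
    GainIB η T (fun t => thick e l 0 (U e (t ^ 2) X Y 0)) (Real.pi / 2 * (n3 X + n3 Y)) := by
  have h : ∀ s : ℤ, GainIB η T (fun t => win e (2 ^ (0 + l + 1)) s (U e (t ^ 2) X Y 0))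
      (Real.pi / 2 * (n3 X + n3 Y)) := fun s =>
    GainIB.avg hη hT (by positivity) fun i => gainIB_U_zero hη hT e X Y ((s + (i : ℤ)) • e)
  have h1 := ((h (-(2 ^ l + 1) * 2 ^ 0)).add hη hT (h (-(2 ^ l + 2) * 2 ^ 0))).const_mul
    (c := 1 / 2) (by norm_num)
  have e1 : (fun t : ℝ => thick e l 0 (U e (t ^ 2) X Y 0)) = fun t => 1 / 2 *
      (win e (2 ^ (0 + l + 1)) (-(2 ^ l + 1) * 2 ^ 0) (U e (t ^ 2) X Y 0) +
        win e (2 ^ (0 + l + 1)) (-(2 ^ l + 2) * 2 ^ 0) (U e (t ^ 2) X Y 0)) := by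
    funext t; unfold thick; ring
  rw [e1]
  exact h1.mono hη hT h1.1 (fun _ _ => le_rfl) (le_of_eq (by ring))

lemma gain_continuousOn_diff (e : G) (X X' : ℕ → Matrix G G ℝ) (Y : Matrix G G ℝ) (k n : ℕ)
    (s : ℤ) : ContinuousOn (fun t : ℝ => (∑ i ∈ range n,
      (U e (t ^ 2) (X i) Y k ((s + (i : ℤ)) • e) - U e (t ^ 2) (X' i) Y k ((s + (i : ℤ)) • e))) / n)
      (Set.Ioi 0) :=
  (continuousOn_finsetSum _ fun _ _ =>
    (continuousOn_U e _ Y k _).sub (continuousOn_U e _ Y k _)).div_const _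

lemma gain_continuousOn_Gn (e : G) (X : ℕ → ℤ → Matrix G G ℝ) (Y : Matrix G G ℝ) (K l : ℕ) :
    ContinuousOn (fun t : ℝ => ∑ k ∈ range K, (∑ r ∈ rng (k + l),
      Gn e (t ^ 2) (X k r) Y k (r • e)) / 2 ^ (k + l)) (Set.Ioi 0) :=
  continuousOn_finsetSum _ fun _ _ =>
    (continuousOn_finsetSum _ fun _ _ => continuousOn_Gn e _ Y _ _).div_const _

end Init

/-- Budget when the first matrix has bounded total variation in the scale. -/
theorem gainM : ∃ c : ℝ, 0 ≤ c ∧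
    ∀ (G : Type) [Fintype G] [DecidableEq G] [AddCommGroup G] (e : G) (C Y : Matrix G G ℝ)
      (K l : ℕ) (lam ν : ℝ) (γ : ℕ → G → G → ℝ), 0 ≤ lam → 0 ≤ ν → (∀ k u x, |γ k u x| ≤ 1) →
      (∀ u x, ∑ k ∈ range K, |γ (k + 1) u x - γ k u x| ≤ ν) →
      ∀ η T : ℝ, 0 < η → η ≤ T →
        ∫ t in η..T, t ^ 2 * ∑ k ∈ range K, (∑ r ∈ rng (k + l),
            Gn e (t ^ 2) (cut lam (γ k) C) Y k (r • e)) / 2 ^ (k + l) ≤
          c * (l + 1) * ((lam ^ 3 + ν * lam ^ 2 + ν * lam ^ 3) * n3 C +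
            (1 + ν * lam ^ 2) * n3 Y) := by
  obtain ⟨c, hc, hcost⟩ := cost_win
  refine ⟨32 * (7 * Real.pi + 13 * c), by positivity, ?_⟩
  intro G _ _ _ e C Y K l lam ν γ hl hν hγ hvar η T hη hT
  obtain ⟨w1, w2, hw1, hw2, hW1, hW2, hwin⟩ := hcost G e C Y
  obtain ⟨v1, v2, hv1, hv2, hV1, hV2, hpure⟩ := hcost G e C 0
  rw [gain_n3_zero, add_zero] at hV1
  set X : ℕ → Matrix G G ℝ := fun k => cut lam (γ k) C with hX
  have hδ : ∀ (k n : ℕ), 0 < n → ∀ u x, (∑ _i ∈ range n, (γ (k + 1) u x - γ k u x) ^ 2) / n ≤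
      |γ (k + 1) u x - γ k u x| ^ 2 := by
    intro k n hn u x
    have hn' : (n : ℝ) ≠ 0 := by positivity
    rw [Finset.sum_const, Finset.card_range, nsmul_eq_mul, mul_div_cancel_left₀ _ hn', sq_abs]
  -- mixed jumps
  have hj1 : ∀ k, GainIB η T (fun t => thick e (l + 1) (k + 1) (U e (t ^ 2) (X (k + 1)) Y (k + 1)) -
      thick e (l + 1) (k + 1) (U e (t ^ 2) (X k) Y (k + 1)))
      (∑ u, ∑ x, |γ (k + 1) u x - γ k u x| * |C u x| * (lam ^ 2 * w1 u x + lam ^ 3 * w2 u x)) := by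
    intro k
    have h : ∀ s : ℤ, |s| ≤ 3 * ((2 ^ (k + 1 + (l + 1) + 1) : ℕ) : ℤ) → GainIB η T
        (fun t => (∑ i ∈ range (2 ^ (k + 1 + (l + 1) + 1)),
          (U e (t ^ 2) (X (k + 1)) Y (k + 1) ((s + (i : ℤ)) • e) -
            U e (t ^ 2) (X k) Y (k + 1) ((s + (i : ℤ)) • e))) / (2 ^ (k + 1 + (l + 1) + 1) : ℕ))
        (∑ u, ∑ x, |γ (k + 1) u x - γ k u x| * |C u x| * (lam ^ 2 * w1 u x + lam ^ 3 * w2 u x)) :=
      fun s hs => ⟨gain_continuousOn_diff e (fun _ => X (k + 1)) (fun _ => X k) Y _ _ s,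
        hwin (k + 1) _ s (Nat.pow_le_pow_right (by norm_num) (by omega)) hs lam hl
          (fun _ => γ (k + 1)) (fun _ => γ k) _ (fun _ => hγ _) (fun _ => hγ _)
          (fun _ _ => abs_nonneg _) (hδ k _ (by positivity)) η T hη hT⟩
    have h2 : (0 : ℤ) < 2 ^ k := by positivity
    have h3 : (1 : ℤ) ≤ 2 ^ l := one_le_pow₀ (by norm_num)
    have h4 := mul_le_mul_of_nonneg_left h3 h2.le
    have h1 := ((h (-(2 ^ (l + 1) + 1) * 2 ^ (k + 1)) (by
        rw [abs_le]; push_cast; simp only [pow_add, pow_one]; constructor <;> nlinarith)).add hη hT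
      (h (-(2 ^ (l + 1) + 2) * 2 ^ (k + 1)) (by
        rw [abs_le]; push_cast; simp only [pow_add, pow_one]; constructor <;> nlinarith))).const_mul
      (c := 1 / 2) (by norm_num)
    convert h1 using 1
    · funext t
      simp only [thick, win, Finset.sum_sub_distrib]
      ring
    · ring
  -- pure jumps
  have hj2 : ∀ k j, GainIB η T (fun t => Phi e (t ^ 2) (X (k + 1)) j - Phi e (t ^ 2) (X k) j)
      (∑ u, ∑ x, |γ (k + 1) u x - γ k u x| * |C u x| *
        ((√2 * lam) ^ 2 * v1 u x + (√2 * lam) ^ 3 * v2 u x)) := by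
    intro k j
    have h1 : GainIB η T (fun t => (∑ i ∈ range (2 ^ j),
        (U e (t ^ 2) (cut (√2 * lam) (γ (k + 1)) C) 0 j (((0 : ℤ) + (i : ℤ)) • e) -
          U e (t ^ 2) (cut (√2 * lam) (γ k) C) 0 j (((0 : ℤ) + (i : ℤ)) • e))) / (2 ^ j : ℕ)) _ :=
      ⟨gain_continuousOn_diff e (fun _ => cut (√2 * lam) (γ (k + 1)) C)
          (fun _ => cut (√2 * lam) (γ k) C) 0 _ _ 0,
        hpure j _ 0 le_rfl (by simp) (√2 * lam) (by positivity)
          (fun _ => γ (k + 1)) (fun _ => γ k) _ (fun _ => hγ _) (fun _ => hγ _)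
          (fun _ _ => abs_nonneg _) (hδ k _ (by positivity)) η T hη hT⟩
    convert h1 using 1
    funext t
    simp only [U_zero_right e (t ^ 2) _ j (((0 : ℤ) + _) • e) 0, Finset.sum_const,
      Finset.card_range, nsmul_eq_mul, Phi, hX, gain_smul_cut]
    field_simp
  have hbound := ((((gainIB_thick_zero hη hT e (X 0) Y (l + 1)).add hη hT
    (gainIB_sum hη hT (range K) fun k _ => hj1 k)).add hη hT
    ((gainIB_sum hη hT (range (l + 2)) fun i _ => (gainIB_Phi_zero hη hT e (X 0)).add hη hT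
      (gainIB_sum hη hT (range K) fun k _ => hj2 k (k + i + 1))).const_mul (c := 2) zero_le_two)).add
    hη hT ((gainIB_Phi_zero hη hT e Y).const_mul (c := 2 * (l + 2)) (by positivity))).const_mul
    (c := 32) (by norm_num)
  refine (hbound.mono hη hT (gain_continuousOn_Gn e (fun k _ => X k) Y K l) (fun t ht => ?_) ?_).2
  · have hτ : 0 < t ^ 2 := by positivity
    set τ := t ^ 2
    have h1 : ∀ k ∈ range K, (∑ r ∈ rng (k + l), Gn e τ (X k) Y k (r • e)) / 2 ^ (k + l) ≤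
        32 * ((thick e (l + 1) k (U e τ (X k) Y k) -
            thick e (l + 1) (k + 1) (U e τ (X (k + 1)) Y (k + 1))) +
          (thick e (l + 1) (k + 1) (U e τ (X (k + 1)) Y (k + 1)) -
            thick e (l + 1) (k + 1) (U e τ (X k) Y (k + 1))) +
          2 * (Phi e τ (X k) k - Phi e τ (X k) (k + (l + 2))) +
          2 * (Phi e τ Y k - Phi e τ Y (k + (l + 2)))) := by
      intro k _
      have h2 := gain_rng_le_thick e l k (Gn_nonneg e hτ (X k) Y k)
      have h3 := thick_step e hτ (X k) Y (l + 1) k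
      rw [show k + (l + 1) + 1 = k + (l + 2) by ring] at h3
      linarith
    refine (Finset.sum_le_sum h1).trans ?_
    rw [← Finset.mul_sum]
    refine mul_le_mul_of_nonneg_left ?_ (by norm_num)
    simp only [Finset.sum_add_distrib, ← Finset.mul_sum]
    have h2 := Finset.sum_range_sub' (fun k => thick e (l + 1) k (U e τ (X k) Y k)) K
    have h3 := gain_thick_nonneg e (l + 1) K (U_nonneg e hτ (X K) Y K)
    have h4 := gain_telescope (fun k j => Phi e τ (X k) j) (fun k j => U_nonneg e hτ _ _ _ _)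
      (fun j => Phi_succ_le e hτ _ j) K (l + 2)
    have h5 := gain_telescope (fun _ j => Phi e τ Y j) (fun k j => U_nonneg e hτ _ _ _ _)
      (fun j => Phi_succ_le e hτ _ j) K (l + 2)
    simp only [sub_self, Finset.sum_const_zero, add_zero, Finset.sum_const, Finset.card_range,
      nsmul_eq_mul] at h5
    simp only [Finset.sum_add_distrib] at h4
    push_cast at h5
    linarith
  · have hC := n3_nonneg C
    have hY := n3_nonneg Y
    have hX0 : n3 (X 0) ≤ lam ^ 3 * n3 C := gain_n3_cut hl (hγ 0) C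
    have hs1 := gain_cost_sum C hw1 hw2 hW1 hW2 (sq_nonneg lam) (pow_nonneg hl 3) hν K hvar
    have hs2 := gain_cost_sum C hv1 hv2 hV1 hV2 (sq_nonneg (√2 * lam))
      (pow_nonneg (by positivity : 0 ≤ √2 * lam) 3) hν K hvar
    have h1 : (√2 : ℝ) ^ 2 = 2 := Real.sq_sqrt (by norm_num)
    have h2 : (√2 : ℝ) ^ 3 ≤ 3 := by
      have h3 : (√2 : ℝ) ≤ 3 / 2 := by
        rw [Real.sqrt_le_left (by norm_num)]; norm_num
      rw [pow_succ, h1]
      linarith
    have hs3 : ν * ((√2 * lam) ^ 2 * (c * n3 C) + (√2 * lam) ^ 3 * (c * n3 C)) ≤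
        2 * (c * (ν * lam ^ 2 * n3 C)) + 3 * (c * (ν * lam ^ 3 * n3 C)) := by
      have h3 := mul_le_mul_of_nonneg_right h2 (by positivity : 0 ≤ c * (ν * lam ^ 3 * n3 C))
      rw [mul_pow, mul_pow, h1]
      nlinarith
    rw [Finset.sum_const, Finset.card_range, nsmul_eq_mul]
    set S1 := ∑ k ∈ range K, ∑ u, ∑ x, |γ (k + 1) u x - γ k u x| * |C u x| *
      (lam ^ 2 * w1 u x + lam ^ 3 * w2 u x)
    set S2 := ∑ k ∈ range K, ∑ u, ∑ x, |γ (k + 1) u x - γ k u x| * |C u x| *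
      ((√2 * lam) ^ 2 * v1 u x + (√2 * lam) ^ 3 * v2 u x)
    have hπ := Real.pi_pos
    set a1 := lam ^ 3 * n3 C with ha1
    set a2 := ν * lam ^ 2 * n3 C with ha2
    set a3 := ν * lam ^ 3 * n3 C with ha3
    set a4 := ν * lam ^ 2 * n3 Y with ha4
    have p1 : 0 ≤ a1 := by positivity
    have p2 : 0 ≤ a2 := by positivity
    have p3 : 0 ≤ a3 := by positivity
    have p4 : 0 ≤ a4 := by positivity
    have hl0 : (0 : ℝ) ≤ l := Nat.cast_nonneg l
    have q1 : Real.pi / 2 * (n3 (X 0) + n3 Y) + S1 ≤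
        Real.pi / 2 * (a1 + n3 Y) + c * (a2 + a3 + a4) := by
      have : ν * (lam ^ 2 * (c * (n3 C + n3 Y)) + lam ^ 3 * (c * n3 C)) = c * (a2 + a3 + a4) := by
        rw [ha2, ha3, ha4]; ring
      nlinarith
    have q2 : Real.pi / 2 * (3 * n3 (X 0)) + S2 ≤
        Real.pi / 2 * (3 * a1) + (2 * (c * a2) + 3 * (c * a3)) := by nlinarith
    have q3 : (lam ^ 3 + ν * lam ^ 2 + ν * lam ^ 3) * n3 C + (1 + ν * lam ^ 2) * n3 Y =
        a1 + a2 + a3 + a4 + n3 Y := by rw [ha1, ha2, ha3, ha4]; ring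
    rw [q3]
    push_cast
    set A := Real.pi / 2 * (a1 + n3 Y) + c * (a2 + a3 + a4) with hA
    set B := Real.pi / 2 * (3 * a1) + (2 * (c * a2) + 3 * (c * a3)) with hB
    have pA : 0 ≤ A := by positivity
    have pB : 0 ≤ B := by positivity
    have pY : 0 ≤ Real.pi / 2 * (3 * n3 Y) := by positivity
    have q4 : ((l : ℝ) + 2) * (Real.pi / 2 * (3 * n3 (X 0)) + S2) ≤ (l + 2) * B :=
      mul_le_mul_of_nonneg_left q2 (by positivity)
    have q5 : A + 4 * B + 4 * (Real.pi / 2 * (3 * n3 Y)) ≤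
        (7 * Real.pi + 13 * c) * (a1 + a2 + a3 + a4 + n3 Y) := by
      rw [hA, hB]
      nlinarith [mul_nonneg hπ.le p1, mul_nonneg hπ.le p2, mul_nonneg hπ.le p3,
        mul_nonneg hπ.le p4, mul_nonneg hπ.le hY, mul_nonneg hc p1, mul_nonneg hc p2,
        mul_nonneg hc p3, mul_nonneg hc p4, mul_nonneg hc hY]
    have q6 := mul_le_mul_of_nonneg_left q5 (by positivity : (0 : ℝ) ≤ l + 1)
    nlinarith [mul_nonneg hl0 pA, mul_nonneg hl0 pB, mul_nonneg hl0 pY]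

/-- Budget when the first matrix is small on average. -/
theorem gainE : ∃ c : ℝ, 0 ≤ c ∧
    ∀ (G : Type) [Fintype G] [DecidableEq G] [AddCommGroup G] (e : G) (C Y : Matrix G G ℝ)
      (K l : ℕ) (lam ν : ℝ) (a : ℕ → ℤ → G → G → ℝ) (ab : ℕ → G → G → ℝ), 0 ≤ lam → 0 ≤ ν →
      (∀ k r u x, |a k r u x| ≤ 1) → (∀ k u x, 0 ≤ ab k u x) →
      (∀ k < K, ∀ u x, (∑ r ∈ rng (k + l), a k r u x ^ 2) / 2 ^ (k + l) ≤ ab k u x ^ 2) →
      (∀ u x, ∑ k ∈ range K, ab k u x ≤ ν) →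
      ∀ η T : ℝ, 0 < η → η ≤ T →
        ∫ t in η..T, t ^ 2 * ∑ k ∈ range K, (∑ r ∈ rng (k + l),
            Gn e (t ^ 2) (cut lam (a k r) C) Y k (r • e)) / 2 ^ (k + l) ≤
          c * ((ν * lam ^ 2 + ν * lam ^ 3) * n3 C + (1 + ν * lam ^ 2) * n3 Y) := by
  obtain ⟨c, hc, hcost⟩ := cost_win
  refine ⟨2 * Real.pi + 4 * c, by positivity, ?_⟩
  intro G _ _ _ e C Y K l lam ν a ab hl hν ha hab hsq hsum η T hη hT
  obtain ⟨w1, w2, hw1, hw2, hW1, hW2, hwin⟩ := hcost G e C Y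
  have hj : ∀ k ∈ range K, ∀ b : ℕ, b ≤ k + 1 → GainIB η T
      (fun t => (∑ i ∈ range (2 ^ (k + l + 1)),
        (U e (t ^ 2) (cut lam (a k (-2 ^ (k + l) + i)) C) Y k
            ((-2 ^ (k + l) + 2 ^ b + (i : ℤ)) • e) -
          U e (t ^ 2) (cut lam (fun _ _ => 0) C) Y k ((-2 ^ (k + l) + 2 ^ b + (i : ℤ)) • e))) /
        (2 ^ (k + l + 1) : ℕ))
      (∑ u, ∑ x, ab k u x * |C u x| * (lam ^ 2 * w1 u x + lam ^ 3 * w2 u x)) := by
    intro k hk b hb
    refine ⟨gain_continuousOn_diff e (fun i => cut lam (a k (-2 ^ (k + l) + i)) C)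
      (fun _ => cut lam (fun _ _ => 0) C) Y _ _ _,
      hwin k _ _ (Nat.pow_le_pow_right (by norm_num) (by omega)) ?_ lam hl
        (fun i => a k (-2 ^ (k + l) + i)) (fun _ _ _ => 0) _ (fun _ => ha _ _) (by simp)
        (hab k) (fun u x => ?_) η T hη hT⟩
    · have h1 : (2 : ℤ) ^ b ≤ 2 ^ (k + l + 1) := pow_le_pow_right₀ (by norm_num) (by omega)
      have h2 : (0 : ℤ) < 2 ^ b := by positivity
      have h3 : (0 : ℤ) < 2 ^ (k + l) := by positivity
      rw [abs_le]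
      push_cast
      rw [pow_succ] at h1 ⊢
      constructor <;> linarith
    · refine le_trans ?_ (hsq k (Finset.mem_range.1 hk) u x)
      rw [gain_sum_rng]
      simp only [sub_zero]
      push_cast
      exact div_le_div_of_nonneg_left (Finset.sum_nonneg fun _ _ => sq_nonneg _) (by positivity)
        (pow_le_pow_right₀ (by norm_num) (Nat.le_succ _))
  have hbound := ((gainIB_sum hη hT (range K) fun k hk =>
    (hj k hk k (Nat.le_succ k)).add hη hT (hj k hk (k + 1) le_rfl)).const_mul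
      (c := 2) zero_le_two).add hη hT
    ((gainIB_U_zero hη hT e 0 Y 0).const_mul (c := 4) (by norm_num))
  refine (hbound.mono hη hT (gain_continuousOn_Gn e (fun k r => cut lam (a k r) C) Y K l)
    (fun t ht => ?_) ?_).2
  · have hτ : 0 < t ^ 2 := by positivity
    set τ := t ^ 2
    have hΨ : ∀ k r, U e τ 0 Y k r = U e τ 0 Y k 0 := fun k r => by
      rw [U_comm, U_zero_right e τ Y k r 0, U_comm]
    have h2 := Finset.sum_range_sub' (fun k => U e τ 0 Y k 0) K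
    have h3 := U_nonneg e hτ 0 Y K 0
    have h8 : 4 * ∑ k ∈ range K, (U e τ 0 Y k 0 - U e τ 0 Y (k + 1) 0) ≤ 4 * U e τ 0 Y 0 0 := by
      linarith
    refine le_trans ?_ (add_le_add le_rfl h8)
    rw [Finset.mul_sum, Finset.mul_sum, ← Finset.sum_add_distrib]
    refine Finset.sum_le_sum fun k _ => ?_
    rw [gain_sum_rng, gain_cut_zero]
    simp only [hΨ]
    have h4 : ∀ i ∈ range (2 ^ (k + l + 1)),
        Gn e τ (cut lam (a k (-2 ^ (k + l) + i)) C) Y k ((-2 ^ (k + l) + (i : ℤ)) • e) ≤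
        (U e τ (cut lam (a k (-2 ^ (k + l) + i)) C) Y k ((-2 ^ (k + l) + 2 ^ k + (i : ℤ)) • e) -
          U e τ 0 Y k 0) +
        (U e τ (cut lam (a k (-2 ^ (k + l) + i)) C) Y k
          ((-2 ^ (k + l) + 2 ^ (k + 1) + (i : ℤ)) • e) - U e τ 0 Y k 0) +
        2 * (U e τ 0 Y k 0 - U e τ 0 Y (k + 1) 0) := by
      intro i _
      have h5 := U_step e hτ (cut lam (a k (-2 ^ (k + l) + i)) C) Y k
        ((-2 ^ (k + l) + (i : ℤ)) • e)
      have h6 := U_zero_left_le e hτ (cut lam (a k (-2 ^ (k + l) + i)) C) Y (k + 1)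
        ((-2 ^ (k + l) + (i : ℤ)) • e)
      have h7 : ∀ b : ℕ, (-2 ^ (k + l) + (i : ℤ)) • e + (2 ^ b : ℕ) • e =
          (-2 ^ (k + l) + 2 ^ b + (i : ℤ)) • e := fun b => by
        rw [← natCast_zsmul, ← add_smul]
        congr 1
        push_cast
        ring
      rw [h7, h7] at h5
      rw [hΨ] at h6
      linarith
    refine (div_le_div_of_nonneg_right (Finset.sum_le_sum h4) (by positivity)).trans (le_of_eq ?_)
    rw [Finset.sum_add_distrib, Finset.sum_add_distrib, Finset.sum_const, Finset.card_range,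
      nsmul_eq_mul]
    push_cast
    rw [pow_succ (2 : ℝ) (k + l)]
    field_simp
    ring
  · have hC := n3_nonneg C
    have hY := n3_nonneg Y
    have hs1 := gain_cost_sum C hw1 hw2 hW1 hW2 (sq_nonneg lam) (pow_nonneg hl 3) hν K hsum
    rw [Finset.sum_add_distrib, gain_n3_zero, zero_add]
    have hπ := Real.pi_pos
    have p2 : 0 ≤ ν * lam ^ 2 * n3 C := by positivity
    have p3 : 0 ≤ ν * lam ^ 3 * n3 C := by positivity
    have p4 : 0 ≤ ν * lam ^ 2 * n3 Y := by positivity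
    nlinarith [mul_nonneg hπ.le p2, mul_nonneg hπ.le p3, mul_nonneg hπ.le p4, mul_nonneg hc hY]

end Crest.Agent.R072
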