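import Crest.Agent.R072.Basic

/-! Row 72: log-determinant inequalities for the Bellman function `phi`. -/

set_option autoImplicit false

open Matrix Finset

namespace Crest.Agent.R072

variable {G : Type} [Fintype G] [DecidableEq G]

/-- `log det N ≤ tr N - card` for positive semidefinite `N` of positive determinant. -/
lemma ld_log_det_le {N : Matrix G G ℝ} (hN : N.PosSemidef) (hd : 0 < N.det) :
    Real.log N.det ≤ N.trace - Fintype.card G := by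
  have h1 := hN.isHermitian.det_eq_prod_eigenvalues
  have h2 := hN.isHermitian.trace_eq_sum_eigenvalues
  simp only [RCLike.ofReal_real_eq_id, id_eq] at h1 h2
  have hne : ∀ i ∈ (univ : Finset G), hN.isHermitian.eigenvalues i ≠ 0 := by
    intro i hi h0
    rw [h1, Finset.prod_eq_zero hi h0] at hd
    exact lt_irrefl _ hd
  rw [h1, h2, Real.log_prod hne]
  have : (Fintype.card G : ℝ) = ∑ _i : G, (1 : ℝ) := by simp
  rw [this, ← Finset.sum_sub_distrib]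
  refine Finset.sum_le_sum fun i hi => ?_
  exact Real.log_le_sub_one_of_pos
    (lt_of_le_of_ne (hN.eigenvalues_nonneg i) (hne i hi).symm)

lemma ld_isUnit_det {X : Matrix G G ℝ} (hX : X.PosDef) : IsUnit X.det :=
  isUnit_iff_ne_zero.mpr hX.det_pos.ne'

/-- The log-determinant divergence. -/
noncomputable def ldKL (X X0 : Matrix G G ℝ) : ℝ :=
  (X0⁻¹ * X).trace - Fintype.card G - Real.log X.det + Real.log X0.det

lemma ldKL_nonneg {X X0 : Matrix G G ℝ} (hX : X.PosDef) (hX0 : X0.PosDef) : 0 ≤ ldKL X X0 := by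
  obtain ⟨T, hT, hTT⟩ := psd_exists_sqrt hX0.inv.posSemidef
  have hN : (T * X * T).PosSemidef := by
    have := psd_conj hX.posSemidef T
    rwa [hT] at this
  have hdet : (T * X * T).det = X.det / X0.det := by
    rw [det_mul, det_mul, mul_comm T.det, mul_assoc, ← det_mul, hTT, det_nonsing_inv,
      Ring.inverse_eq_inv', div_eq_mul_inv]
  have htr : (T * X * T).trace = (X0⁻¹ * X).trace := by
    rw [trace_mul_comm, ← Matrix.mul_assoc, hTT]
  have h := ld_log_det_le hN (by rw [hdet]; exact div_pos hX.det_pos hX0.det_pos)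
  rw [hdet, htr, Real.log_div hX.det_pos.ne' hX0.det_pos.ne'] at h
  unfold ldKL
  linarith

lemma ldKL_smul {c : ℝ} (hc : 0 < c) {X X0 : Matrix G G ℝ} (hX : X.PosDef) (hX0 : X0.PosDef) :
    ldKL (c • X) (c • X0) = ldKL X X0 := by
  have hinv : (c • X0)⁻¹ = c⁻¹ • X0⁻¹ := by
    apply Matrix.inv_eq_left_inv
    rw [Matrix.smul_mul, Matrix.mul_smul, smul_smul, inv_mul_cancel₀ hc.ne', one_smul,
      nonsing_inv_mul _ (ld_isUnit_det hX0)]
  unfold ldKL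
  rw [hinv, Matrix.smul_mul, Matrix.mul_smul, smul_smul, inv_mul_cancel₀ hc.ne', one_smul,
    det_smul, det_smul, Real.log_mul (pow_pos hc _).ne' hX.det_pos.ne',
    Real.log_mul (pow_pos hc _).ne' hX0.det_pos.ne']
  ring

omit [Fintype G] in
lemma ld_one_add_eq {τ : ℝ} (hτ : 0 < τ) (P : Matrix G G ℝ) :
    1 + τ⁻¹ • P = τ⁻¹ • (P + τ • (1 : Matrix G G ℝ)) := by
  rw [smul_add, smul_smul, inv_mul_cancel₀ hτ.ne', one_smul, add_comm]

lemma ld_det_one_add_pos {τ : ℝ} (hτ : 0 < τ) {P : Matrix G G ℝ} (hP : P.PosSemidef) :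
    0 < (1 + τ⁻¹ • P).det := by
  rw [ld_one_add_eq hτ, det_smul]
  exact mul_pos (pow_pos (inv_pos.mpr hτ) _) (posDef_add_smul hτ hP).det_pos

lemma Breg_eq_ldKL {τ : ℝ} (hτ : 0 < τ) {P P0 : Matrix G G ℝ} (hP : P.PosSemidef)
    (hP0 : P0.PosSemidef) :
    Breg τ P P0 = ldKL (P + τ • (1 : Matrix G G ℝ)) (P0 + τ • (1 : Matrix G G ℝ)) := by
  have hX := posDef_add_smul hτ hP
  have hX0 := posDef_add_smul hτ hP0
  have hsub : P - P0 = (P + τ • (1 : Matrix G G ℝ)) - (P0 + τ • (1 : Matrix G G ℝ)) := by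
    abel
  have htr : (Dm τ P0 * (P - P0)).trace = P.trace - P0.trace -
      τ * (((P0 + τ • (1 : Matrix G G ℝ))⁻¹ * (P + τ • (1 : Matrix G G ℝ))).trace
        - Fintype.card G) := by
    unfold Dm Em
    rw [Matrix.sub_mul, Matrix.one_mul, trace_sub, trace_sub, Matrix.smul_mul, trace_smul, hsub,
      Matrix.mul_sub, nonsing_inv_mul _ (ld_isUnit_det hX0), trace_sub, trace_one, smul_eq_mul]
  unfold Breg phi ldKL
  rw [htr, ld_one_add_eq hτ, ld_one_add_eq hτ, det_smul, det_smul,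
    Real.log_mul (pow_pos (inv_pos.mpr hτ) _).ne' hX.det_pos.ne',
    Real.log_mul (pow_pos (inv_pos.mpr hτ) _).ne' hX0.det_pos.ne']
  field_simp
  ring

lemma ld_par_inv {X Y : Matrix G G ℝ} (hX : X.PosDef) (hY : Y.PosDef) :
    (X⁻¹ + Y⁻¹)⁻¹ = Y * (X + Y)⁻¹ * X := by
  have hZ := hX.add hY
  apply Matrix.inv_eq_left_inv
  have h1 : X * (X⁻¹ + Y⁻¹) = (X + Y) * Y⁻¹ := by
    rw [Matrix.mul_add, Matrix.add_mul, mul_nonsing_inv _ (ld_isUnit_det hX),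
      mul_nonsing_inv _ (ld_isUnit_det hY), add_comm]
  rw [Matrix.mul_assoc, h1, Matrix.mul_assoc, ← Matrix.mul_assoc (X + Y)⁻¹,
    nonsing_inv_mul _ (ld_isUnit_det hZ), Matrix.one_mul, mul_nonsing_inv _ (ld_isUnit_det hY)]

lemma ld_par_posDef {X Y : Matrix G G ℝ} (hX : X.PosDef) (hY : Y.PosDef) :
    (Y * (X + Y)⁻¹ * X).PosDef := by
  rw [← ld_par_inv hX hY]
  exact (hX.inv.add hY.inv).inv

lemma ld_par_log_det {X Y : Matrix G G ℝ} (hX : X.PosDef) (hY : Y.PosDef) :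
    Real.log (Y * (X + Y)⁻¹ * X).det =
      Real.log X.det + Real.log Y.det - Real.log (X + Y).det := by
  have hZ := hX.add hY
  rw [det_mul, det_mul, det_nonsing_inv, Ring.inverse_eq_inv',
    Real.log_mul (mul_ne_zero hY.det_pos.ne' (inv_ne_zero hZ.det_pos.ne')) hX.det_pos.ne',
    Real.log_mul hY.det_pos.ne' (inv_ne_zero hZ.det_pos.ne'), Real.log_inv]
  ring

lemma ld_par_le {X Y : Matrix G G ℝ} (hX : X.PosDef) (hY : Y.PosDef) (A : Matrix G G ℝ) :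
    (A * X * Aᵀ + (1 - A) * Y * (1 - A)ᵀ - Y * (X + Y)⁻¹ * X).PosSemidef := by
  have hZ := hX.add hY
  have h := psd_conj hZ.posSemidef (A - Y * (X + Y)⁻¹)
  have hYs : Yᵀ = Y := psd_symm hY.posSemidef
  have hZs : ((X + Y)⁻¹)ᵀ = (X + Y)⁻¹ := psd_symm hZ.inv.posSemidef
  have e1 : (X + Y)⁻¹ * (X + Y) = 1 := nonsing_inv_mul _ (ld_isUnit_det hZ)
  have e2 : (X + Y) * (X + Y)⁻¹ = 1 := mul_nonsing_inv _ (ld_isUnit_det hZ)
  convert h using 1
  rw [transpose_sub, transpose_sub, transpose_mul, hYs, hZs, transpose_one]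
  generalize (X + Y)⁻¹ = Zi at e1 e2 ⊢
  have hXe : X = (X + Y) - Y := by abel
  generalize X + Y = Z at e1 e2 hXe ⊢
  subst hXe
  have e3 : Y * Zi * Z = Y := by rw [Matrix.mul_assoc, e1, Matrix.mul_one]
  have e4 : A * Z * (Zi * Y) = A * Y := by
    rw [Matrix.mul_assoc, ← Matrix.mul_assoc Z, e2, Matrix.one_mul]
  simp only [Matrix.mul_sub, Matrix.sub_mul, e3, e4, Matrix.one_mul, Matrix.mul_one]
  simp only [Matrix.mul_assoc]
  abel

lemma ld_par_conj {X Y : Matrix G G ℝ} (hX : X.PosDef) (hY : Y.PosDef) :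
    (Y * (X + Y)⁻¹)ᵀ * (X⁻¹ + Y⁻¹) * (Y * (X + Y)⁻¹) = X⁻¹ - (X + Y)⁻¹ := by
  have hZ := hX.add hY
  have hYs : Yᵀ = Y := psd_symm hY.posSemidef
  have hZs : ((X + Y)⁻¹)ᵀ = (X + Y)⁻¹ := psd_symm hZ.inv.posSemidef
  have e1 : (X + Y)⁻¹ * (X + Y) = 1 := nonsing_inv_mul _ (ld_isUnit_det hZ)
  have e2 : (X + Y) * (X + Y)⁻¹ = 1 := mul_nonsing_inv _ (ld_isUnit_det hZ)
  have h1 : (X⁻¹ + Y⁻¹) * Y = X⁻¹ * (X + Y) := by
    rw [Matrix.mul_add, Matrix.add_mul, nonsing_inv_mul _ (ld_isUnit_det hX),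
      nonsing_inv_mul _ (ld_isUnit_det hY), add_comm]
  have h2 : (X⁻¹ + Y⁻¹) * (Y * (X + Y)⁻¹) = X⁻¹ := by
    rw [← Matrix.mul_assoc, h1, Matrix.mul_assoc, e2, Matrix.mul_one]
  rw [Matrix.mul_assoc, h2, transpose_mul, hYs, hZs]
  have h3 : Y = (X + Y) - X := by abel
  calc (X + Y)⁻¹ * Y * X⁻¹ = (X + Y)⁻¹ * ((X + Y) - X) * X⁻¹ := by rw [← h3]
    _ = X⁻¹ - (X + Y)⁻¹ := by
      rw [Matrix.mul_sub, e1, Matrix.sub_mul, Matrix.one_mul, Matrix.mul_assoc,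
        mul_nonsing_inv _ (ld_isUnit_det hX), Matrix.mul_one]

lemma ldKL_add {X Y X0 Y0 : Matrix G G ℝ} (hX : X.PosDef) (hY : Y.PosDef) (hX0 : X0.PosDef)
    (hY0 : Y0.PosDef) : ldKL (X + Y) (X0 + Y0) ≤ ldKL X X0 + ldKL Y Y0 := by
  have hZ0 := hX0.add hY0
  have hS := ldKL_nonneg (ld_par_posDef hX hY) (ld_par_posDef hX0 hY0)
  have hM : (X0⁻¹ + Y0⁻¹).PosDef := hX0.inv.add hY0.inv
  have hS0 : (Y0 * (X0 + Y0)⁻¹ * X0)⁻¹ = X0⁻¹ + Y0⁻¹ := by
    rw [← ld_par_inv hX0 hY0, nonsing_inv_nonsing_inv _ (ld_isUnit_det hM)]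
  have hA : 1 - Y0 * (X0 + Y0)⁻¹ = X0 * (Y0 + X0)⁻¹ := by
    rw [add_comm Y0 X0, sub_eq_iff_eq_add, ← Matrix.add_mul,
      mul_nonsing_inv _ (ld_isUnit_det hZ0)]
  have htr := trace_mul_nonneg hM.posSemidef (ld_par_le hX hY (Y0 * (X0 + Y0)⁻¹))
  have c1 : ((X0⁻¹ + Y0⁻¹) * (Y0 * (X0 + Y0)⁻¹ * X * (Y0 * (X0 + Y0)⁻¹)ᵀ)).trace =
      (X0⁻¹ * X).trace - ((X0 + Y0)⁻¹ * X).trace := by
    rw [← Matrix.mul_assoc, trace_mul_comm, ← Matrix.mul_assoc, ← Matrix.mul_assoc,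
      ld_par_conj hX0 hY0, Matrix.sub_mul, trace_sub]
  have c2 : ((X0⁻¹ + Y0⁻¹) * ((1 - Y0 * (X0 + Y0)⁻¹) * Y * (1 - Y0 * (X0 + Y0)⁻¹)ᵀ)).trace =
      (Y0⁻¹ * Y).trace - ((X0 + Y0)⁻¹ * Y).trace := by
    rw [hA, ← Matrix.mul_assoc, trace_mul_comm, ← Matrix.mul_assoc, ← Matrix.mul_assoc,
      add_comm X0⁻¹ Y0⁻¹, ld_par_conj hY0 hX0, Matrix.sub_mul, trace_sub, add_comm Y0 X0]
  rw [Matrix.mul_sub, Matrix.mul_add, trace_sub, trace_add, c1, c2] at htr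
  unfold ldKL at hS ⊢
  rw [hS0, ld_par_log_det hX hY, ld_par_log_det hX0 hY0] at hS
  rw [Matrix.mul_add, trace_add]
  linarith

lemma ld_sqw_mul_sqw {W : G → ℝ} (hW : ∀ x, 0 ≤ W x) : sqw W * sqw W = diagonal W := by
  unfold sqw
  rw [diagonal_mul_diagonal]
  congr 1
  funext x
  exact Real.mul_self_sqrt (hW x)

lemma ld_trace_sqw (Q : Matrix G G ℝ) {W : G → ℝ} (hW : ∀ x, 0 ≤ W x) :
    (sqw W * Q * sqw W).trace = ∑ x, W x * Q x x := by
  rw [trace_mul_comm, ← Matrix.mul_assoc, ld_sqw_mul_sqw hW]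
  simp [trace, diagonal_mul]

lemma ld_det_sqw {τ : ℝ} (hτ : 0 < τ) {Q : Matrix G G ℝ} (hQ : Q.PosSemidef) {W W' : G → ℝ}
    (hW' : ∀ x, 0 ≤ W' x) (H : Matrix G G ℝ) (hH : sqw W * (1 + H) * sqw W = diagonal W') :
    (1 + τ⁻¹ • (sqw W' * Q * sqw W')).det =
      (1 + τ⁻¹ • (sqw W * Q * sqw W)).det * (1 + Dm τ (sqw W * Q * sqw W) * H).det := by
  have hP := sqw_conj_psd hQ W
  have e1 : (1 + τ⁻¹ • (sqw W' * Q * sqw W')).det = (1 + τ⁻¹ • (Q * diagonal W')).det := by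
    rw [Matrix.mul_assoc, ← Matrix.mul_smul, det_one_add_mul_comm, Matrix.smul_mul,
      Matrix.mul_assoc, ld_sqw_mul_sqw hW']
  have e2 : (1 + τ⁻¹ • (Q * diagonal W')).det =
      (1 + τ⁻¹ • (sqw W * Q * sqw W * (1 + H))).det := by
    rw [← hH, ← Matrix.mul_assoc, ← Matrix.smul_mul, det_one_add_mul_comm, Matrix.mul_smul]
    simp only [Matrix.mul_assoc]
  have e3 : (1 + τ⁻¹ • (sqw W * Q * sqw W)) * Dm τ (sqw W * Q * sqw W) =
      τ⁻¹ • (sqw W * Q * sqw W) := by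
    have := mul_Em hτ hP
    generalize sqw W * Q * sqw W = P at this ⊢
    have hD : Dm τ P = 1 - Em τ P := rfl
    rw [Matrix.add_mul, Matrix.one_mul, Matrix.smul_mul]
    nth_rewrite 2 [hD]
    rw [Matrix.mul_sub, this, Matrix.mul_one, smul_sub, smul_smul, inv_mul_cancel₀ hτ.ne', one_smul]
    abel
  rw [e1, e2, ← det_mul, Matrix.mul_add (1 + τ⁻¹ • (sqw W * Q * sqw W)), Matrix.mul_one,
    ← Matrix.mul_assoc, e3, Matrix.mul_add, Matrix.mul_one, smul_add, Matrix.smul_mul, add_assoc]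

lemma ld_log_det_DH {D H : Matrix G G ℝ} (hD : D.PosSemidef) (hE : (1 - D).PosSemidef)
    (hH : Hᵀ = H) (hHH : (1 - H * H).PosSemidef) (hpos : 0 < (1 - D * H * D * H).det) :
    Real.log (1 - D * H * D * H).det ≤ -(D * H * D * H).trace := by
  obtain ⟨T, hT, hTT⟩ := psd_exists_sqrt hD
  have hN : (1 - T * H * D * H * T).PosSemidef := by
    have h1 := psd_conj hHH T
    have h2 := psd_conj hE (T * H)
    rw [transpose_mul, hT, hH] at h2
    rw [hT] at h1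
    convert (hE.add h1).add h2 using 1
    simp only [Matrix.mul_sub, Matrix.sub_mul, Matrix.mul_one, hTT, Matrix.mul_assoc]
    abel
  have hdet : (1 - T * H * D * H * T).det = (1 - D * H * D * H).det := by
    rw [det_one_sub_mul_comm]
    simp only [← Matrix.mul_assoc, hTT]
  have htr : (T * H * D * H * T).trace = (D * H * D * H).trace := by
    rw [trace_mul_comm]
    simp only [← Matrix.mul_assoc, hTT]
  have h := ld_log_det_le hN (by rw [hdet]; exact hpos)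
  rw [hdet, trace_sub, trace_one, htr] at h
  linarith

lemma ld_Qm_mid (X : Matrix G G ℝ) {W W0 W1 : G → ℝ} (hW : ∀ x, W x = (W0 x + W1 x) / 2) :
    Qm X W = (1 / 2 : ℝ) • (Qm X W0 + Qm X W1) := by
  have : diagonal W = (1 / 2 : ℝ) • (diagonal W0 + diagonal W1) := by
    rw [diagonal_add, ← diagonal_smul]
    congr 1
    funext x
    simp only [Pi.smul_apply, smul_eq_mul, hW x]
    ring
  unfold Qm
  rw [this, Matrix.mul_smul, Matrix.smul_mul, Matrix.mul_add, Matrix.add_mul]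

lemma ld_Pm_mid (X Y : Matrix G G ℝ) (W : G → ℝ) {Wa Wa0 Wa1 Wb Wb0 Wb1 : G → ℝ}
    (hWa : ∀ x, Wa x = (Wa0 x + Wa1 x) / 2) (hWb : ∀ x, Wb x = (Wb0 x + Wb1 x) / 2) :
    Pm X Y Wa W Wb = (1 / 2 : ℝ) • (Pm X Y Wa0 W Wb0 + Pm X Y Wa1 W Wb1) := by
  unfold Pm
  rw [ld_Qm_mid X hWa, ld_Qm_mid Y hWb, ← smul_add, Matrix.mul_smul, Matrix.smul_mul,
    ← Matrix.add_mul, ← Matrix.mul_add]
  congr 3
  abel

lemma phi_zero (τ : ℝ) : phi τ (0 : Matrix G G ℝ) = 0 := by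
  simp [phi]

/-- Tangent inequality (convexity of `phi`). -/
theorem Breg_nonneg {τ : ℝ} (hτ : 0 < τ) {P P0 : Matrix G G ℝ} (hP : P.PosSemidef)
    (hP0 : P0.PosSemidef) : 0 ≤ Breg τ P P0 := by
  rw [Breg_eq_ldKL hτ hP hP0]
  exact ldKL_nonneg (posDef_add_smul hτ hP) (posDef_add_smul hτ hP0)

theorem phi_nonneg {τ : ℝ} (hτ : 0 < τ) {P : Matrix G G ℝ} (hP : P.PosSemidef) :
    0 ≤ phi τ P := by
  have h := Breg_nonneg hτ hP (PosSemidef.zero (n := G) (R := ℝ))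
  have h2 := trace_mul_nonneg (Dm_psd hτ (PosSemidef.zero (n := G) (R := ℝ))) hP
  unfold Breg at h
  rw [phi_zero, sub_zero P] at h
  have := div_nonneg h2 hτ.le
  linarith

theorem phi_mono {τ : ℝ} (hτ : 0 < τ) {P Q : Matrix G G ℝ} (hP : P.PosSemidef)
    (hQ : Q.PosSemidef) : phi τ P ≤ phi τ (P + Q) := by
  have h := Breg_nonneg hτ (hP.add hQ) hP
  have h2 := trace_mul_nonneg (Dm_psd hτ hP) hQ
  unfold Breg at h
  rw [add_sub_cancel_left] at h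
  have := div_nonneg h2 hτ.le
  linarith

theorem phi_midpoint {τ : ℝ} (hτ : 0 < τ) {P Q : Matrix G G ℝ} (hP : P.PosSemidef)
    (hQ : Q.PosSemidef) : phi τ ((1 / 2 : ℝ) • (P + Q)) ≤ (phi τ P + phi τ Q) / 2 := by
  have hM : ((1 / 2 : ℝ) • (P + Q)).PosSemidef := (hP.add hQ).smul (by norm_num)
  have h1 := Breg_nonneg hτ hP hM
  have h2 := Breg_nonneg hτ hQ hM
  unfold Breg at h1 h2
  generalize Dm τ ((1 / 2 : ℝ) • (P + Q)) = D at h1 h2
  simp only [Matrix.mul_sub, Matrix.mul_smul, Matrix.mul_add, trace_sub, trace_smul, trace_add,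
    smul_eq_mul] at h1 h2
  have e : ((D * P).trace - 1 / 2 * ((D * P).trace + (D * Q).trace)) / τ +
      ((D * Q).trace - 1 / 2 * ((D * P).trace + (D * Q).trace)) / τ = 0 := by ring
  linarith

/-- Data processing for the log-determinant divergence. -/
theorem Breg_add {τ : ℝ} (hτ : 0 < τ) {P Q P0 Q0 : Matrix G G ℝ} (hP : P.PosSemidef)
    (hQ : Q.PosSemidef) (hP0 : P0.PosSemidef) (hQ0 : Q0.PosSemidef) :
    Breg τ (P + Q) (P0 + Q0) ≤
      Breg τ ((2 : ℝ) • P) ((2 : ℝ) • P0) + Breg τ ((2 : ℝ) • Q) ((2 : ℝ) • Q0) := by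
  have h2 : (0 : ℝ) < 2 := by norm_num
  have hτ2 : 0 < τ / 2 := by positivity
  have e1 : ∀ A : Matrix G G ℝ, (2 : ℝ) • A + τ • (1 : Matrix G G ℝ) =
      (2 : ℝ) • (A + (τ / 2) • (1 : Matrix G G ℝ)) := by
    intro A
    rw [smul_add, smul_smul]
    congr 2
    ring
  have e2 : ∀ A B : Matrix G G ℝ, A + B + τ • (1 : Matrix G G ℝ) =
      (A + (τ / 2) • (1 : Matrix G G ℝ)) + (B + (τ / 2) • (1 : Matrix G G ℝ)) := by
    intro A B
    have : τ • (1 : Matrix G G ℝ) = (τ / 2) • (1 : Matrix G G ℝ) + (τ / 2) • (1 : Matrix G G ℝ) := by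
      rw [← add_smul]
      congr 1
      ring
    rw [this]
    abel
  rw [Breg_eq_ldKL hτ (hP.add hQ) (hP0.add hQ0), Breg_eq_ldKL hτ (hP.smul h2.le) (hP0.smul h2.le),
    Breg_eq_ldKL hτ (hQ.smul h2.le) (hQ0.smul h2.le), e1, e1, e1, e1, e2, e2,
    ldKL_smul h2 (posDef_add_smul hτ2 hP) (posDef_add_smul hτ2 hP0),
    ldKL_smul h2 (posDef_add_smul hτ2 hQ) (posDef_add_smul hτ2 hQ0)]
  exact ldKL_add (posDef_add_smul hτ2 hP) (posDef_add_smul hτ2 hQ) (posDef_add_smul hτ2 hP0)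
    (posDef_add_smul hτ2 hQ0)

/-- Mixed second differences are bounded by pure Bregman divergences. -/
theorem phi_mixed {τ : ℝ} (hτ : 0 < τ) {P P' Q Q' P0 Q0 : Matrix G G ℝ} (hP : P.PosSemidef)
    (hP' : P'.PosSemidef) (hQ : Q.PosSemidef) (hQ' : Q'.PosSemidef) (hP0 : P0.PosSemidef)
    (hQ0 : Q0.PosSemidef) :
    phi τ (P' + Q') + phi τ (P + Q) - phi τ (P' + Q) - phi τ (P + Q') ≤
      Breg τ ((2 : ℝ) • P) ((2 : ℝ) • P0) + Breg τ ((2 : ℝ) • P') ((2 : ℝ) • P0) +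
        Breg τ ((2 : ℝ) • Q) ((2 : ℝ) • Q0) + Breg τ ((2 : ℝ) • Q') ((2 : ℝ) • Q0) := by
  have h0 := hP0.add hQ0
  have a1 := Breg_add hτ hP' hQ' hP0 hQ0
  have a2 := Breg_add hτ hP hQ hP0 hQ0
  have b1 := Breg_nonneg hτ (hP'.add hQ) h0
  have b2 := Breg_nonneg hτ (hP.add hQ') h0
  have e : phi τ (P' + Q') + phi τ (P + Q) - phi τ (P' + Q) - phi τ (P + Q') =
      Breg τ (P' + Q') (P0 + Q0) + Breg τ (P + Q) (P0 + Q0) - Breg τ (P' + Q) (P0 + Q0) -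
        Breg τ (P + Q') (P0 + Q0) := by
    unfold Breg
    simp only [Matrix.mul_sub, Matrix.mul_add, trace_sub, trace_add]
    ring
  linarith

/-- Splitting the sandwiching weight gains `gn / 2`. -/
theorem phi_split {τ : ℝ} (hτ : 0 < τ) {Q : Matrix G G ℝ} (hQ : Q.PosSemidef)
    {W h W0 W1 : G → ℝ} (h0 : ∀ x, 0 ≤ W0 x) (h1 : ∀ x, 0 ≤ W1 x)
    (hW : ∀ x, W x = (W0 x + W1 x) / 2) (hh : ∀ x, h x = (W0 x - W1 x) / 2) :
    phi τ (sqw W * Q * sqw W) + gn τ (sqw W * Q * sqw W) (Hm h W) / 2 ≤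
      (phi τ (sqw W0 * Q * sqw W0) + phi τ (sqw W1 * Q * sqw W1)) / 2 := by
  have hWn : ∀ x, 0 ≤ W x := fun x => by
    have := h0 x; have := h1 x; rw [hW x]; positivity
  have hP := sqw_conj_psd hQ W
  have hP0 := sqw_conj_psd hQ W0
  have hP1 := sqw_conj_psd hQ W1
  have hs : ∀ x, √(W x) * (h x / W x) * √(W x) = h x := by
    intro x
    rcases (hWn x).eq_or_lt with hx | hx
    · have a0 := h0 x
      have a1 := h1 x
      have a2 := hW x
      have : h x = 0 := by rw [hh x]; linarith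
      simp [this]
    · rw [mul_comm, ← mul_assoc, Real.mul_self_sqrt hx.le]
      field_simp
  have hsH : sqw W * Hm h W * sqw W = diagonal h := by
    unfold sqw Hm
    rw [diagonal_mul_diagonal, diagonal_mul_diagonal]
    congr 1
    funext x
    exact hs x
  have hH0 : sqw W * (1 + Hm h W) * sqw W = diagonal W0 := by
    rw [Matrix.mul_add, Matrix.add_mul, Matrix.mul_one, ld_sqw_mul_sqw hWn, hsH, diagonal_add]
    congr 1
    funext x
    rw [hW x, hh x]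
    ring
  have hH1 : sqw W * (1 + -Hm h W) * sqw W = diagonal W1 := by
    rw [Matrix.mul_add, Matrix.add_mul, Matrix.mul_one, ld_sqw_mul_sqw hWn, Matrix.mul_neg,
      Matrix.neg_mul, hsH, diagonal_neg, diagonal_add]
    congr 1
    funext x
    rw [hW x, hh x]
    ring
  have d0 := ld_det_sqw hτ hQ h0 _ hH0
  have d1 := ld_det_sqw hτ hQ h1 _ hH1
  have p := ld_det_one_add_pos hτ hP
  have p0 := ld_det_one_add_pos hτ hP0
  have p1 := ld_det_one_add_pos hτ hP1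
  have q0 := (mul_pos_iff_of_pos_left p).mp (d0 ▸ p0)
  have q1 := (mul_pos_iff_of_pos_left p).mp (d1 ▸ p1)
  have hE : (1 - Dm τ (sqw W * Q * sqw W)).PosSemidef := by
    have := Em_psd hτ hP
    unfold Dm
    rwa [sub_sub_cancel]
  have hc : ∀ x, |h x| ≤ W x := fun x => by
    have a0 := h0 x
    have a1 := h1 x
    rw [hh x, hW x, abs_le]
    constructor <;> linarith
  have hprod : (1 + Dm τ (sqw W * Q * sqw W) * Hm h W).det *
      (1 + Dm τ (sqw W * Q * sqw W) * -Hm h W).det =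
      (1 - Dm τ (sqw W * Q * sqw W) * Hm h W * Dm τ (sqw W * Q * sqw W) * Hm h W).det := by
    rw [← det_mul]
    congr 1
    simp only [Matrix.mul_add, Matrix.add_mul, Matrix.mul_neg, Matrix.mul_one, Matrix.one_mul,
      Matrix.mul_assoc]
    abel
  have key := ld_log_det_DH (Dm_psd hτ hP) hE (Hm_symm h W) (Hm_contr hc)
    (hprod ▸ mul_pos q0 q1)
  rw [← hprod, Real.log_mul q0.ne' q1.ne'] at key
  have htr : (sqw W * Q * sqw W).trace =
      ((sqw W0 * Q * sqw W0).trace + (sqw W1 * Q * sqw W1).trace) / 2 := by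
    rw [ld_trace_sqw Q hWn, ld_trace_sqw Q h0, ld_trace_sqw Q h1, ← Finset.sum_add_distrib,
      Finset.sum_div]
    refine Finset.sum_congr rfl fun x _ => ?_
    rw [hW x]
    ring
  unfold phi gn
  rw [d0, d1, Real.log_mul p.ne' q0.ne', Real.log_mul p.ne' q1.ne', htr]
  have e : ((sqw W0 * Q * sqw W0).trace + (sqw W1 * Q * sqw W1).trace) / 2 / τ =
      ((sqw W0 * Q * sqw W0).trace / τ + (sqw W1 * Q * sqw W1).trace / τ) / 2 := by ring
  linarith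

/-- The full local step: the four children. -/
theorem phi_step {τ : ℝ} (hτ : 0 < τ) (X Y : Matrix G G ℝ)
    {Wa Wa0 Wa1 Wa0' Wa1' W h W0 W1 Wb Wb0 Wb1 Wb0' Wb1' : G → ℝ}
    (ha0 : ∀ x, 0 ≤ Wa0 x) (ha1 : ∀ x, 0 ≤ Wa1 x) (ha0' : ∀ x, 0 ≤ Wa0' x)
    (ha1' : ∀ x, 0 ≤ Wa1' x) (h0 : ∀ x, 0 ≤ W0 x) (h1 : ∀ x, 0 ≤ W1 x)
    (hb0 : ∀ x, 0 ≤ Wb0 x) (hb1 : ∀ x, 0 ≤ Wb1 x) (hb0' : ∀ x, 0 ≤ Wb0' x)
    (hb1' : ∀ x, 0 ≤ Wb1' x)
    (hWa : ∀ x, Wa x = (Wa0 x + Wa1 x) / 2) (hWa' : ∀ x, Wa x = (Wa0' x + Wa1' x) / 2)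
    (hW : ∀ x, W x = (W0 x + W1 x) / 2) (hh : ∀ x, h x = (W0 x - W1 x) / 2)
    (hWb : ∀ x, Wb x = (Wb0 x + Wb1 x) / 2) (hWb' : ∀ x, Wb x = (Wb0' x + Wb1' x) / 2) :
    phi τ (Pm X Y Wa W Wb) + gn τ (Pm X Y Wa W Wb) (Hm h W) / 2 ≤
      (phi τ (Pm X Y Wa0 W0 Wb0) + phi τ (Pm X Y Wa1 W0 Wb1) +
        phi τ (Pm X Y Wa0' W1 Wb0') + phi τ (Pm X Y Wa1' W1 Wb1')) / 4 := by
  have hWan : ∀ x, 0 ≤ Wa x := fun x => by
    have := ha0 x; have := ha1 x; rw [hWa x]; positivity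
  have hWbn : ∀ x, 0 ≤ Wb x := fun x => by
    have := hb0 x; have := hb1 x; rw [hWb x]; positivity
  have hs := phi_split hτ ((Qm_psd X hWan).add (Qm_psd Y hWbn)) h0 h1 hW hh
  have m0 := phi_midpoint hτ (Pm_psd X Y W0 ha0 hb0) (Pm_psd X Y W0 ha1 hb1)
  have m1 := phi_midpoint hτ (Pm_psd X Y W1 ha0' hb0') (Pm_psd X Y W1 ha1' hb1')
  rw [← ld_Pm_mid X Y W0 hWa hWb] at m0
  rw [← ld_Pm_mid X Y W1 hWa' hWb'] at m1
  change phi τ (Pm X Y Wa W Wb) + gn τ (Pm X Y Wa W Wb) (Hm h W) / 2 ≤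
    (phi τ (Pm X Y Wa W0 Wb) + phi τ (Pm X Y Wa W1 Wb)) / 2 at hs
  linarith

/-- Value at point masses. -/
theorem phi_single {τ : ℝ} (hτ : 0 < τ) (X Y : Matrix G G ℝ) (a x b : G) :
    τ * phi τ (Pm X Y (Pi.single a 1) (Pi.single x 1) (Pi.single b 1)) ≤
      (X a x ^ 2 + Y b x ^ 2) ^ 2 / ((X a x ^ 2 + Y b x ^ 2) + 2 * τ) := by
  set lam := X a x ^ 2 + Y b x ^ 2 with hlam
  have hl : 0 ≤ lam := by positivity
  have hsq : sqw (Pi.single x (1 : ℝ) : G → ℝ) = diagonal (Pi.single x (1 : ℝ) : G → ℝ) := by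
    unfold sqw
    congr 1
    funext y
    by_cases hy : y = x
    · subst hy; simp
    · simp [hy]
  have hQ : ∀ (Z : Matrix G G ℝ) (c : G), Qm Z (Pi.single c 1) x x = Z c x ^ 2 := by
    intro Z c
    unfold Qm
    rw [Matrix.mul_apply, Finset.sum_eq_single c]
    · simp [mul_diagonal, sq]
    · intro y _ hy
      simp [mul_diagonal, hy]
    · simp
  have hP : Pm X Y (Pi.single a 1) (Pi.single x 1) (Pi.single b 1) =
      diagonal (Pi.single x lam : G → ℝ) := by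
    unfold Pm
    rw [hsq]
    ext y z
    rw [mul_diagonal, diagonal_mul]
    by_cases hy : y = x
    · by_cases hz : z = x
      · subst hy; subst hz
        simp [hQ, hlam]
      · subst hy
        simp [hz, diagonal_apply_ne _ (Ne.symm hz)]
    · by_cases hyz : y = z
      · subst hyz; simp [hy]
      · simp [hy, diagonal_apply_ne _ hyz]
  have hdet : (1 + τ⁻¹ • diagonal (Pi.single x lam : G → ℝ)).det = 1 + lam / τ := by
    rw [← diagonal_one, ← diagonal_smul, diagonal_add, det_diagonal, Finset.prod_eq_single x]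
    · simp [div_eq_inv_mul]
    · intro y _ hy
      simp [hy]
    · simp
  have hlog := Real.le_log_one_add_of_nonneg (div_nonneg hl hτ.le)
  unfold phi
  rw [hP, hdet, trace_diagonal, Finset.sum_pi_single', if_pos (mem_univ x)]
  have e : lam ^ 2 / (lam + 2 * τ) = τ * (lam / τ - 2 * (lam / τ) / (lam / τ + 2)) := by
    field_simp
    ring
  rw [e]
  exact mul_le_mul_of_nonneg_left (by linarith) hτ.le

end Crest.Agent.R072
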