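import Crest.Prelude.Def_TriangularHilbert

/-! Row 72: measurability of the annulus count and its invariance under null modifications. -/

set_option autoImplicit false

open MeasureTheory
open scoped ENNReal

namespace Crest.Agent.R072

open Crest.AnalysisR

theorem measurable_annularHT {F G : ℝ × ℝ → ℂ} (hF : Measurable F) (hG : Measurable G)
    (ε R : ℝ) : Measurable (annularTriangularHT F G ε R) := by
  have h : Measurable fun p : (ℝ × ℝ) × ℝ =>
      F (p.1.1 + p.2, p.1.2) * G (p.1.1, p.1.2 + p.2) / (p.2 : ℂ) := by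
    refine Measurable.div (Measurable.mul (hF.comp ?_) (hG.comp ?_)) ?_
    · fun_prop
    · fun_prop
    · exact Complex.measurable_ofReal.comp measurable_snd
  exact (h.stronglyMeasurable.integral_prod_right'
    (ν := volume.restrict {t : ℝ | ε < abs t ∧ abs t < R})).measurable

theorem measurable_annulusCount {F G : ℝ × ℝ → ℂ} (hF : Measurable F) (hG : Measurable G)
    (n : ℕ) : Measurable (annulusCount n F G) := by
  unfold annulusCount
  refine Measurable.iSup fun m => Measurable.iSup_Prop _ (Measurable.iSup fun ε =>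
    Measurable.iSup fun R => Measurable.iSup_Prop _ (Measurable.iSup_Prop _ ?_))
  exact Finset.measurable_sum _ fun j _ => (measurable_annularHT hF hG _ _).enorm

theorem annularHT_congr_ae {F F' G G' : ℝ × ℝ → ℂ} (hF : F =ᵐ[volume] F')
    (hG : G =ᵐ[volume] G') :
    ∀ᵐ z, ∀ ε R : ℝ, annularTriangularHT F G ε R z = annularTriangularHT F' G' ε R z := by
  have hG1 : ∀ᵐ x : ℝ, ∀ᵐ y : ℝ, G (x, y) = G' (x, y) :=
    Measure.ae_ae_of_ae_prod (μ := volume) (ν := volume) hG
  have hF0 : ∀ᵐ p : ℝ × ℝ ∂(volume.prod volume), F p.swap = F' p.swap :=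
    (Measure.measurePreserving_swap (μ := volume) (ν := volume)).quasiMeasurePreserving.ae hF
  have hF1 : ∀ᵐ y : ℝ, ∀ᵐ x : ℝ, F (x, y) = F' (x, y) := Measure.ae_ae_of_ae_prod hF0
  have hG2 : ∀ᵐ z : ℝ × ℝ, ∀ᵐ y : ℝ, G (z.1, y) = G' (z.1, y) :=
    (Measure.quasiMeasurePreserving_fst (μ := volume) (ν := volume)).ae hG1
  have hF2 : ∀ᵐ z : ℝ × ℝ, ∀ᵐ x : ℝ, F (x, z.2) = F' (x, z.2) :=
    (Measure.quasiMeasurePreserving_snd (μ := volume) (ν := volume)).ae hF1
  filter_upwards [hF2, hG2] with z h1 h2 ε R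
  have h3 : ∀ᵐ t : ℝ, F (z.1 + t, z.2) = F' (z.1 + t, z.2) :=
    (measurePreserving_add_left volume z.1).quasiMeasurePreserving.ae h1
  have h4 : ∀ᵐ t : ℝ, G (z.1, z.2 + t) = G' (z.1, z.2 + t) :=
    (measurePreserving_add_left volume z.2).quasiMeasurePreserving.ae h2
  refine integral_congr_ae (ae_restrict_of_ae ?_)
  filter_upwards [h3, h4] with t h5 h6
  rw [h5, h6]

theorem annulusCount_congr_ae {F F' G G' : ℝ × ℝ → ℂ} (hF : F =ᵐ[volume] F')
    (hG : G =ᵐ[volume] G') :
    ∀ᵐ z, ∀ n, annulusCount n F G z = annulusCount n F' G' z := by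
  filter_upwards [annularHT_congr_ae hF hG] with z hz n
  simp only [annulusCount, hz]

theorem aemeasurable_annulusCount {F G : ℝ × ℝ → ℂ} (hF : AEStronglyMeasurable F volume)
    (hG : AEStronglyMeasurable G volume) (n : ℕ) : AEMeasurable (annulusCount n F G) volume := by
  refine ⟨annulusCount n (hF.mk F) (hG.mk G),
    measurable_annulusCount hF.measurable_mk hG.measurable_mk n, ?_⟩
  filter_upwards [annulusCount_congr_ae hF.ae_eq_mk hG.ae_eq_mk] with z hz using hz n

end Crest.Agent.R072
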