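import Crest.Agent.R072.Dyadic
import Crest.Prelude.Def_DyadicTriangular

/-! Row 72: the continuous dyadic model from the discrete one by sampling. -/

set_option autoImplicit false

open Finset MeasureTheory Crest.AnalysisR.TriangularDyadic

namespace Crest.Agent.R072

/-- Bounded measurable functions. -/
def S97BM {X : Type} [MeasurableSpace X] (f : X → ℝ) : Prop :=
  Measurable f ∧ ∃ M, ∀ x, |f x| ≤ M

/-- `ν` is obtained from `μ` by sampling along the maps `p i`. -/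
def S97Samp {X Y ι : Type} [MeasurableSpace X] [MeasurableSpace Y] (ν : Measure Y) (μ : Measure X)
    (s : Finset ι) (c : ℝ) (p : ι → X → Y) : Prop :=
  0 ≤ c ∧ (∀ i, Measurable (p i)) ∧ ν = ∑ i ∈ s, ENNReal.ofReal c • μ.map (p i)

section gen
variable {X Y X' Y' ι ι' : Type} [MeasurableSpace X] [MeasurableSpace Y] [MeasurableSpace X']
  [MeasurableSpace Y']

theorem S97BM.integrable {f : X → ℝ} (h : S97BM f) (μ : Measure X) [IsFiniteMeasure μ] :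
    Integrable f μ := by
  obtain ⟨h1, M, h2⟩ := h
  exact Integrable.of_bound h1.aestronglyMeasurable M (Filter.Eventually.of_forall h2)

theorem S97BM.comp {f : Y → ℝ} (h : S97BM f) {p : X → Y} (hp : Measurable p) :
    S97BM fun x => f (p x) :=
  ⟨h.1.comp hp, h.2.imp fun _ hM x => hM (p x)⟩

theorem S97BM.mul {f g : X → ℝ} (h : S97BM f) (h' : S97BM g) : S97BM fun x => f x * g x := by
  obtain ⟨h1, M, h2⟩ := h
  obtain ⟨h1', M', h2'⟩ := h'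
  refine ⟨h1.mul h1', M * M', fun x => ?_⟩
  rw [abs_mul]
  exact mul_le_mul (h2 x) (h2' x) (abs_nonneg _) ((abs_nonneg _).trans (h2 x))

theorem S97BM.const (c : ℝ) : S97BM fun _ : X => c := ⟨measurable_const, |c|, fun _ => le_rfl⟩

theorem S97BM.add {f g : X → ℝ} (h : S97BM f) (h' : S97BM g) : S97BM fun x => f x + g x := by
  obtain ⟨h1, M, h2⟩ := h
  obtain ⟨h1', M', h2'⟩ := h'
  exact ⟨h1.add h1', M + M', fun x => (abs_add_le _ _).trans (add_le_add (h2 x) (h2' x))⟩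

theorem S97BM.sum (s : Finset ι) {f : ι → X → ℝ} (h : ∀ i, S97BM (f i)) :
    S97BM fun x => ∑ i ∈ s, f i x := by
  classical
  induction s using Finset.induction_on with
  | empty => simpa using S97BM.const 0
  | insert i s hi ih => simpa [Finset.sum_insert hi] using (h i).add ih

theorem S97BM.abs {f : X → ℝ} (h : S97BM f) : S97BM fun x => |f x| :=
  ⟨h.1.abs, h.2.imp fun _ hM x => by rw [abs_abs]; exact hM x⟩

theorem S97BM.cube {f : X → ℝ} (h : S97BM f) : S97BM fun x => |f x| ^ 3 := by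
  simpa [pow_succ] using (h.abs.mul h.abs).mul h.abs

theorem S97Samp.prod {ν : Measure Y} {μ : Measure X} {s : Finset ι} {c : ℝ} {p : ι → X → Y}
    {ν' : Measure Y'} {μ' : Measure X'} {s' : Finset ι'} {c' : ℝ} {p' : ι' → X' → Y'}
    [SigmaFinite ν] [SigmaFinite ν'] [SFinite μ'] (h : S97Samp ν μ s c p)
    (h' : S97Samp ν' μ' s' c' p') : S97Samp (ν.prod ν') (μ.prod μ') (s ×ˢ s') (c * c')
      fun i => Prod.map (p i.1) (p' i.2) := by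
  refine ⟨mul_nonneg h.1 h'.1, fun i => (h.2.1 _).prodMap (h'.2.1 _),
    Measure.prod_eq fun A B hA hB => ?_⟩
  rw [h.2.2, h'.2.2]
  simp only [Measure.coe_finsetSum, Finset.sum_apply, Measure.smul_apply, smul_eq_mul]
  rw [Finset.sum_mul_sum, Finset.sum_product]
  refine Finset.sum_congr rfl fun i _ => Finset.sum_congr rfl fun j _ => ?_
  rw [Measure.map_apply ((h.2.1 _).prodMap (h'.2.1 _)) (hA.prod hB), Measure.map_apply (h.2.1 _) hA,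
    Measure.map_apply (h'.2.1 _) hB, Set.preimage_prod_map_prod, Measure.prod_prod,
    ENNReal.ofReal_mul h.1, mul_mul_mul_comm]

theorem S97Samp.integral {ν : Measure Y} {μ : Measure X} {s : Finset ι} {c : ℝ} {p : ι → X → Y}
    [IsFiniteMeasure μ] (h : S97Samp ν μ s c p) {f : Y → ℝ} (hf : S97BM f) :
    ∫ y, f y ∂ν = c * ∫ x, ∑ i ∈ s, f (p i x) ∂μ := by
  rw [h.2.2, integral_finsetSum_measure fun i _ =>
      (hf.integrable _).smul_measure ENNReal.ofReal_ne_top,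
    integral_finsetSum _ fun i _ => (hf.comp (h.2.1 i)).integrable μ, Finset.mul_sum]
  refine Finset.sum_congr rfl fun i _ => ?_
  rw [integral_smul_measure, integral_map (h.2.1 i).aemeasurable hf.1.aestronglyMeasurable,
    ENNReal.toReal_ofReal h.1, smul_eq_mul]

theorem s97_iter (ρ : Measure X) [IsFiniteMeasure ρ] {f : X × X × X → ℝ} (hf : S97BM f) :
    ∫ x, ∫ y, ∫ z, f (x, y, z) ∂ρ ∂ρ ∂ρ = ∫ w, f w ∂(ρ.prod (ρ.prod ρ)) := by
  rw [integral_prod _ (hf.integrable _)]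
  refine integral_congr_ae (Filter.Eventually.of_forall fun x => ?_)
  exact (integral_prod _ ((hf.comp measurable_prodMk_left).integrable _)).symm

end gen

theorem s97_samp {δ : ℝ} (hδ : 0 < δ) (N : ℕ) :
    S97Samp (volume.restrict (Set.Ico (0 : ℝ) (δ * N))) (volume.restrict (Set.Ico (0 : ℝ) 1))
      (range N) δ fun i θ => δ * (i + θ) := by
  have hm : ∀ i : ℕ, Measurable fun θ : ℝ => δ * (i + θ) := fun i => by fun_prop
  refine ⟨hδ.le, hm, ?_⟩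
  induction N with
  | zero => simp
  | succ N ih =>
    have h1 : (0 : ℝ) ≤ δ * N := by positivity
    have h2 : δ * N ≤ δ * (N + 1 : ℕ) := by push_cast; nlinarith
    rw [Finset.sum_range_succ, ← ih, ← Set.Ico_union_Ico_eq_Ico h1 h2,
      Measure.restrict_union Set.Ico_disjoint_Ico_same measurableSet_Ico]
    congr 1
    have h3 : (volume : Measure ℝ).map (fun θ : ℝ => δ * (N + θ))
        = ENNReal.ofReal δ⁻¹ • volume := by
      have : (fun θ : ℝ => δ * (N + θ)) = (fun x => δ * x) ∘ fun θ => N + θ := rfl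
      rw [this, ← Measure.map_map (by fun_prop) (by fun_prop), map_add_left_eq_self,
        Real.map_volume_mul_left hδ.ne', abs_of_pos (inv_pos.2 hδ)]
    have h4 : Set.Ico (0 : ℝ) 1 =
        (fun θ : ℝ => δ * (N + θ)) ⁻¹' Set.Ico (δ * N) (δ * (N + 1 : ℕ)) := by
      ext θ
      simp [hδ]
    rw [h4, ← Measure.restrict_map (hm N) measurableSet_Ico, h3, Measure.restrict_smul, smul_smul,
      ← ENNReal.ofReal_mul hδ.le, mul_inv_cancel₀ hδ.ne', ENNReal.ofReal_one, one_smul]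

theorem s97_haar_bm (k : ℤ) (n : ℕ) : S97BM (haarSign k n) := by
  refine ⟨Measurable.ite measurableSet_Ico measurable_const
    (Measurable.ite measurableSet_Ico measurable_const measurable_const), 1, fun x => ?_⟩
  unfold haarSign
  split_ifs <;> simp

theorem s97_haar_zero {k : ℤ} {n : ℕ} {x : ℝ} (h : x ∉ interval k n) : haarSign k n x = 0 := by
  have h1 : (0 : ℝ) < 2 ^ (k - 1) := by positivity
  have h2 : (2 : ℝ) ^ k = 2 * 2 ^ (k - 1) := by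
    rw [zpow_sub_one₀ two_ne_zero]; ring
  unfold haarSign
  rw [if_neg, if_neg]
  · exact fun h' => h ⟨by linarith [h'.1], h'.2⟩
  · exact fun h' => h ⟨h'.1, by linarith [h'.2]⟩

theorem s97_haar_eq (k0 : ℤ) (κ n i : ℕ) {θ : ℝ} (hθ : θ ∈ Set.Ico (0 : ℝ) 1) :
    haarSign (k0 + κ + 1) n (2 ^ k0 * (i + θ)) = hs κ n i := by
  have hδ : (0 : ℝ) < 2 ^ k0 := by positivity
  have key : ∀ m : ℕ, 2 ^ k0 * ((m * 2 ^ κ : ℕ) : ℝ) ≤ 2 ^ k0 * (i + θ) ↔ m ≤ i / 2 ^ κ := by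
    intro m
    rw [mul_le_mul_iff_right₀ hδ, Nat.le_div_iff_mul_le (by positivity)]
    constructor
    · intro h
      have : ((m * 2 ^ κ : ℕ) : ℝ) < (i + 1 : ℕ) := by push_cast at h ⊢; linarith [hθ.2]
      exact Nat.lt_succ_iff.1 (by exact_mod_cast this)
    · intro h
      have : ((m * 2 ^ κ : ℕ) : ℝ) ≤ i := by exact_mod_cast h
      linarith [hθ.1]
  have e0 : (2 : ℝ) ^ (k0 + κ + 1) = 2 ^ k0 * 2 ^ κ * 2 := by
    rw [zpow_add_one₀ two_ne_zero, zpow_add₀ two_ne_zero, zpow_natCast]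
  have e0' : (2 : ℝ) ^ (k0 + κ + 1 - 1) = 2 ^ k0 * 2 ^ κ := by
    rw [add_sub_cancel_right, zpow_add₀ two_ne_zero, zpow_natCast]
  have e1 : (2 : ℝ) ^ (k0 + κ + 1) * n = 2 ^ k0 * ((2 * n * 2 ^ κ : ℕ) : ℝ) := by
    rw [e0]; push_cast; ring
  have e2 : (2 : ℝ) ^ (k0 + κ + 1) * n + 2 ^ (k0 + κ + 1 - 1)
      = 2 ^ k0 * (((2 * n + 1) * 2 ^ κ : ℕ) : ℝ) := by
    rw [e0, e0']; push_cast; ring
  have e3 : (2 : ℝ) ^ (k0 + κ + 1) * (n + 1) = 2 ^ k0 * (((2 * n + 2) * 2 ^ κ : ℕ) : ℝ) := by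
    rw [e0]; push_cast; ring
  unfold haarSign hs
  rw [e2, e1, e3]
  simp only [Set.mem_Ico, ← not_le, key]
  refine if_congr (by omega) rfl (if_congr (by omega) rfl rfl)

theorem s97_interval_subset (k0 : ℤ) {κ K n : ℕ} (hκ : κ < K) (hn : n < 2 ^ (K - 1 - κ)) :
    interval (k0 + κ + 1) n ⊆ Set.Ico (0 : ℝ) (2 ^ k0 * ((2 ^ K : ℕ) : ℝ)) := by
  refine Set.Ico_subset_Ico (by positivity) ?_
  have h1 : 2 ^ κ * 2 * (n + 1) ≤ 2 ^ K := by
    have e : K = κ + 1 + (K - 1 - κ) := by omega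
    rw [e, pow_add, pow_succ]
    exact Nat.mul_le_mul_left _ hn
  have h2 : (2 : ℝ) ^ κ * 2 * (n + 1) ≤ ((2 ^ K : ℕ) : ℝ) := by exact_mod_cast h1
  rw [zpow_add_one₀ two_ne_zero, zpow_add₀ two_ne_zero, zpow_natCast, mul_assoc, mul_assoc,
    ← mul_assoc _ 2]
  exact mul_le_mul_of_nonneg_left h2 (by positivity)

/-- The uniform law on the unit cube. -/
noncomputable abbrev s97P : Measure (ℝ × ℝ × ℝ) :=
  (volume.restrict (Set.Ico (0 : ℝ) 1)).prod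
    ((volume.restrict (Set.Ico (0 : ℝ) 1)).prod (volume.restrict (Set.Ico (0 : ℝ) 1)))

instance s97_prob : IsProbabilityMeasure (volume.restrict (Set.Ico (0 : ℝ) 1)) := ⟨by simp⟩

/-- The discrete form at the sampling point `θ`. -/
noncomputable def s97D (δ : ℝ) (K κ n0 n1 : ℕ) (F₀ F₁ F₂ : ℝ × ℝ → ℝ) (θ : ℝ × ℝ × ℝ) : ℝ :=
  ∑ x0 ∈ range (2 ^ K), ∑ x1 ∈ range (2 ^ K), ∑ x2 ∈ range (2 ^ K),
    F₀ (δ * (x0 + θ.1), δ * (x1 + θ.2.1)) * F₁ (δ * (x1 + θ.2.1), δ * (x2 + θ.2.2)) *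
      F₂ (δ * (x2 + θ.2.2), δ * (x0 + θ.1)) * (hs κ n0 x0 * hs κ n1 x1 * hs κ (n0 ^^^ n1) x2)

variable {F₀ F₁ F₂ : ℝ × ℝ → ℝ}

theorem s97D_bm (h₀ : S97BM F₀) (h₁ : S97BM F₁) (h₂ : S97BM F₂) (δ : ℝ) (K κ n0 n1 : ℕ) :
    S97BM (s97D δ K κ n0 n1 F₀ F₁ F₂) :=
  S97BM.sum _ fun _ => S97BM.sum _ fun _ => S97BM.sum _ fun _ =>
    (((h₀.comp (by fun_prop)).mul (h₁.comp (by fun_prop))).mul (h₂.comp (by fun_prop))).mul
      (S97BM.const _)

theorem s97_localForm (h₀ : S97BM F₀) (h₁ : S97BM F₁) (h₂ : S97BM F₂) (k0 : ℤ) {κ K n0 n1 : ℕ}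
    (hκ : κ < K) (hn0 : n0 < 2 ^ (K - 1 - κ)) (hn1 : n1 < 2 ^ (K - 1 - κ)) :
    localForm (k0 + κ + 1) n0 n1 (n0 ^^^ n1) F₀ F₁ F₂ =
      (2 ^ k0) ^ 2 * ((∫ θ, s97D (2 ^ k0) K κ n0 n1 F₀ F₁ F₂ θ ∂s97P) / 2 ^ (κ + 1)) := by
  have hδ : (0 : ℝ) < 2 ^ k0 := by positivity
  have hn2 := Nat.xor_lt_two_pow hn0 hn1
  have hs1 := s97_samp hδ (2 ^ K)
  have hs3 := hs1.prod (hs1.prod hs1)
  have hΦ : S97BM fun w : ℝ × ℝ × ℝ => F₀ (w.1, w.2.1) * F₁ (w.2.1, w.2.2) * F₂ (w.2.2, w.1) *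
      (haarSign (k0 + κ + 1) n0 w.1 * haarSign (k0 + κ + 1) n1 w.2.1 *
        haarSign (k0 + κ + 1) (n0 ^^^ n1) w.2.2) :=
    (((h₀.comp (by fun_prop)).mul (h₁.comp (by fun_prop))).mul (h₂.comp (by fun_prop))).mul
      ((((s97_haar_bm _ _).comp (by fun_prop)).mul ((s97_haar_bm _ _).comp (by fun_prop))).mul
        ((s97_haar_bm _ _).comp (by fun_prop)))
  have h1 := (s97_iter _ hΦ).trans (hs3.integral hΦ)
  have h2 : ∀ {n : ℕ} (g : ℝ → ℝ), n < 2 ^ (K - 1 - κ) →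
      (∀ x, haarSign (k0 + κ + 1) n x = 0 → g x = 0) → ∫ x in interval (k0 + κ + 1) n, g x =
        ∫ x in Set.Ico (0 : ℝ) (2 ^ k0 * ((2 ^ K : ℕ) : ℝ)), g x := fun g hn hg =>
    (setIntegral_eq_of_subset_of_forall_sdiff_eq_zero measurableSet_Ico
      (s97_interval_subset k0 hκ hn) fun x hx => hg x (s97_haar_zero hx.2)).symm
  unfold localForm
  rw [h2 _ hn0 fun x hx => by simp [hx]]
  simp only at h1
  have h3 : ∀ x₀, ∫ x₁ in interval (k0 + κ + 1) n1, ∫ x₂ in interval (k0 + κ + 1) (n0 ^^^ n1),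
      F₀ (x₀, x₁) * F₁ (x₁, x₂) * F₂ (x₂, x₀) * (haarSign (k0 + κ + 1) n0 x₀ *
        haarSign (k0 + κ + 1) n1 x₁ * haarSign (k0 + κ + 1) (n0 ^^^ n1) x₂) =
      ∫ x₁ in Set.Ico (0 : ℝ) (2 ^ k0 * ((2 ^ K : ℕ) : ℝ)),
        ∫ x₂ in Set.Ico (0 : ℝ) (2 ^ k0 * ((2 ^ K : ℕ) : ℝ)),
      F₀ (x₀, x₁) * F₁ (x₁, x₂) * F₂ (x₂, x₀) * (haarSign (k0 + κ + 1) n0 x₀ *
        haarSign (k0 + κ + 1) n1 x₁ * haarSign (k0 + κ + 1) (n0 ^^^ n1) x₂) := fun x₀ => by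
    rw [h2 _ hn1 fun x hx => by simp [hx]]
    refine integral_congr_ae (Filter.Eventually.of_forall fun x₁ => ?_)
    exact h2 _ hn2 fun x hx => by simp [hx]
  simp only [h3]
  rw [h1]
  have hae : ∀ᵐ θ ∂(volume.restrict (Set.Ico (0 : ℝ) 1)), θ ∈ Set.Ico (0 : ℝ) 1 :=
    ae_restrict_mem measurableSet_Ico
  have a1 : ∀ᵐ θ ∂s97P, θ.1 ∈ Set.Ico (0 : ℝ) 1 :=
    measurePreserving_fst.quasiMeasurePreserving.ae hae
  have a2 : ∀ᵐ θ ∂s97P, θ.2.1 ∈ Set.Ico (0 : ℝ) 1 :=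
    (measurePreserving_fst.comp measurePreserving_snd).quasiMeasurePreserving.ae hae
  have a3 : ∀ᵐ θ ∂s97P, θ.2.2 ∈ Set.Ico (0 : ℝ) 1 :=
    (measurePreserving_snd.comp measurePreserving_snd).quasiMeasurePreserving.ae hae
  rw [integral_congr_ae (g := s97D (2 ^ k0) K κ n0 n1 F₀ F₁ F₂) (by
    filter_upwards [a1, a2, a3] with θ b1 b2 b3
    simp only [Finset.sum_product, Prod.map, s97D, s97_haar_eq _ _ _ _ b1, s97_haar_eq _ _ _ _ b2,
      s97_haar_eq _ _ _ _ b3])]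
  rw [zpow_neg, zpow_add_one₀ two_ne_zero, zpow_add₀ two_ne_zero, zpow_natCast, pow_succ _ κ]
  field_simp

theorem s97_cube {F : ℝ × ℝ → ℝ} (h : S97BM F)
    (hi : IntegrableOn (fun z => |F z| ^ 3) (Set.Ici 0 ×ˢ Set.Ici 0)) {δ : ℝ} (hδ : 0 < δ) (N : ℕ)
    {q : ℝ × ℝ × ℝ → ℝ × ℝ} (hq : MeasurePreserving q s97P
      ((volume.restrict (Set.Ico (0 : ℝ) 1)).prod (volume.restrict (Set.Ico (0 : ℝ) 1)))) :
    δ ^ 2 * ∫ θ, ∑ x ∈ range N, ∑ y ∈ range N, |F (δ * (x + (q θ).1), δ * (y + (q θ).2))| ^ 3 ∂s97P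
      ≤ ∫ z in Set.Ici 0 ×ˢ Set.Ici 0, |F z| ^ 3 := by
  have hs1 := s97_samp hδ N
  have h1 := (hs1.prod hs1).integral h.cube
  have hb : S97BM fun θ : ℝ × ℝ =>
      ∑ x ∈ range N, ∑ y ∈ range N, |F (δ * (x + θ.1), δ * (y + θ.2))| ^ 3 :=
    S97BM.sum _ fun _ => S97BM.sum _ fun _ => h.cube.comp (by fun_prop)
  have h2 := integral_map (μ := s97P) hq.measurable.aemeasurable hb.1.aestronglyMeasurable
  rw [hq.map_eq] at h2
  simp only [Finset.sum_product, Prod.map] at h1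
  rw [← h2, sq, ← h1, Measure.prod_restrict, ← Measure.volume_eq_prod]
  refine setIntegral_mono_set hi (Filter.Eventually.of_forall fun z => by positivity)
    (LE.le.eventuallyLE ?_)
  exact Set.prod_mono Set.Ico_subset_Ici_self Set.Ico_subset_Ici_self

theorem s97_sum_le (S : Finset (ℤ × ℕ × ℕ)) (κ : ℤ × ℕ × ℕ → ℕ) (K : ℕ) (T : ℕ → ℕ → ℕ → ℝ)
    (hT : ∀ a b c, 0 ≤ T a b c)
    (hK : ∀ i ∈ S, κ i < K ∧ i.2.1 < 2 ^ (K - 1 - κ i) ∧ i.2.2 < 2 ^ (K - 1 - κ i))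
    (hinj : ∀ i ∈ S, ∀ j ∈ S, κ i = κ j → i.1 = j.1) :
    ∑ i ∈ S, T (κ i) i.2.1 i.2.2 ≤ ∑ a ∈ range K, ∑ b ∈ range (2 ^ (K - 1 - a)),
      ∑ c ∈ range (2 ^ (K - 1 - a)), T a b c := by
  classical
  have h1 : Set.InjOn (fun i : ℤ × ℕ × ℕ => (⟨κ i, i.2⟩ : Σ _ : ℕ, ℕ × ℕ)) S := by
    intro i hi j hj hij
    simp only [Sigma.mk.injEq, heq_eq_eq] at hij
    exact Prod.ext (hinj i hi j hj hij.1) hij.2
  have h2 : ∑ a ∈ range K, ∑ b ∈ range (2 ^ (K - 1 - a)), ∑ c ∈ range (2 ^ (K - 1 - a)), T a b c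
      = ∑ z ∈ (range K).sigma fun a => range (2 ^ (K - 1 - a)) ×ˢ range (2 ^ (K - 1 - a)),
        T z.1 z.2.1 z.2.2 := by
    rw [Finset.sum_sigma]
    simp only [Finset.sum_product]
  rw [h2, ← Finset.sum_image (f := fun z : Σ _ : ℕ, ℕ × ℕ => T z.1 z.2.1 z.2.2) h1]
  refine Finset.sum_le_sum_of_subset_of_nonneg (fun z hz => ?_) fun _ _ _ => hT _ _ _
  obtain ⟨i, hi, rfl⟩ := Finset.mem_image.1 hz
  simpa using hK i hi

theorem s97_main (h₀ : S97BM F₀) (h₁ : S97BM F₁) (h₂ : S97BM F₂)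
    (i₀ : IntegrableOn (fun z => |F₀ z| ^ 3) (Set.Ici 0 ×ˢ Set.Ici 0))
    (i₁ : IntegrableOn (fun z => |F₁ z| ^ 3) (Set.Ici 0 ×ˢ Set.Ici 0))
    (i₂ : IntegrableOn (fun z => |F₂ z| ^ 3) (Set.Ici 0 ×ˢ Set.Ici 0)) (S : Finset (ℤ × ℕ × ℕ)) :
    ∑ i ∈ S, |localForm i.1 i.2.1 i.2.2 (i.2.1 ^^^ i.2.2) F₀ F₁ F₂| ≤
      4 * Real.pi * ((∫ z in Set.Ici 0 ×ˢ Set.Ici 0, |F₀ z| ^ 3) +
        (∫ z in Set.Ici 0 ×ˢ Set.Ici 0, |F₁ z| ^ 3) + ∫ z in Set.Ici 0 ×ˢ Set.Ici 0, |F₂ z| ^ 3) := by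
  obtain ⟨k0, hk0⟩ := (S.image fun i => i.1 - 1).bddBelow
  have hk : ∀ i ∈ S, k0 + ((i.1 - k0 - 1).toNat : ℕ) + 1 = i.1 := fun i hi => by
    have := hk0 (Finset.mem_coe.2 (Finset.mem_image_of_mem _ hi))
    omega
  obtain ⟨K, hK0⟩ := (S.image fun i => (i.1 - k0 - 1).toNat + 1 + i.2.1 + i.2.2).bddAbove
  have hK : ∀ i ∈ S, (i.1 - k0 - 1).toNat < K ∧ i.2.1 < 2 ^ (K - 1 - (i.1 - k0 - 1).toNat) ∧
      i.2.2 < 2 ^ (K - 1 - (i.1 - k0 - 1).toNat) := fun i hi => by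
    have := hK0 (Finset.mem_coe.2 (Finset.mem_image_of_mem _ hi))
    exact ⟨by omega, Nat.lt_two_pow_self.trans_le (Nat.pow_le_pow_right two_pos (by omega)),
      Nat.lt_two_pow_self.trans_le (Nat.pow_le_pow_right two_pos (by omega))⟩
  have hδ : (0 : ℝ) < 2 ^ k0 := by positivity
  set δ : ℝ := 2 ^ k0 with hδ'
  have hD := s97D_bm h₀ h₁ h₂ δ K
  have c₀ : S97BM fun θ : ℝ × ℝ × ℝ => ∑ x ∈ range (2 ^ K), ∑ y ∈ range (2 ^ K),
      |F₀ (δ * (x + θ.1), δ * (y + θ.2.1))| ^ 3 :=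
    S97BM.sum _ fun _ => S97BM.sum _ fun _ => h₀.cube.comp (by fun_prop)
  have c₁ : S97BM fun θ : ℝ × ℝ × ℝ => ∑ x ∈ range (2 ^ K), ∑ y ∈ range (2 ^ K),
      |F₁ (δ * (x + θ.2.1), δ * (y + θ.2.2))| ^ 3 :=
    S97BM.sum _ fun _ => S97BM.sum _ fun _ => h₁.cube.comp (by fun_prop)
  have c₂ : S97BM fun θ : ℝ × ℝ × ℝ => ∑ x ∈ range (2 ^ K), ∑ y ∈ range (2 ^ K),
      |F₂ (δ * (x + θ.2.2), δ * (y + θ.1))| ^ 3 :=
    S97BM.sum _ fun _ => S97BM.sum _ fun _ => h₂.cube.comp (by fun_prop)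
  have b₀ := s97_cube h₀ i₀ hδ (2 ^ K) ((MeasurePreserving.id _).prod measurePreserving_fst)
  have b₁ := s97_cube h₁ i₁ hδ (2 ^ K) measurePreserving_snd
  have b₂ := s97_cube h₂ i₂ hδ (2 ^ K)
    (Measure.measurePreserving_swap.comp ((MeasurePreserving.id _).prod measurePreserving_snd))
  have hE : ∀ κ n0 n1 : ℕ, S97BM fun θ => |s97D δ K κ n0 n1 F₀ F₁ F₂ θ| / 2 ^ (κ + 1) :=
    fun κ n0 n1 => (hD κ n0 n1).abs.mul (S97BM.const _)
  calc _ ≤ ∑ i ∈ S, δ ^ 2 * ∫ θ, |s97D δ K (i.1 - k0 - 1).toNat i.2.1 i.2.2 F₀ F₁ F₂ θ| /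
          2 ^ ((i.1 - k0 - 1).toNat + 1) ∂s97P := by
        refine Finset.sum_le_sum fun i hi => ?_
        have e := s97_localForm h₀ h₁ h₂ k0 (hK i hi).1 (hK i hi).2.1 (hK i hi).2.2
        rw [hk i hi] at e
        rw [e, abs_mul, abs_of_nonneg (sq_nonneg _), integral_div, abs_div,
          abs_of_pos (by positivity : (0 : ℝ) < 2 ^ (_ + 1))]
        gcongr
        exact abs_integral_le_integral_abs
    _ = δ ^ 2 * ∫ θ, ∑ i ∈ S, |s97D δ K (i.1 - k0 - 1).toNat i.2.1 i.2.2 F₀ F₁ F₂ θ| /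
          2 ^ ((i.1 - k0 - 1).toNat + 1) ∂s97P := by
        rw [integral_finsetSum _ fun i _ => (hE _ _ _).integrable _, Finset.mul_sum]
    _ ≤ δ ^ 2 * ∫ θ, 4 * Real.pi * (∑ x ∈ range (2 ^ K), ∑ y ∈ range (2 ^ K),
          |F₀ (δ * (x + θ.1), δ * (y + θ.2.1))| ^ 3 + ∑ x ∈ range (2 ^ K), ∑ y ∈ range (2 ^ K),
          |F₁ (δ * (x + θ.2.1), δ * (y + θ.2.2))| ^ 3 + ∑ x ∈ range (2 ^ K), ∑ y ∈ range (2 ^ K),
          |F₂ (δ * (x + θ.2.2), δ * (y + θ.1))| ^ 3) ∂s97P := by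
        refine mul_le_mul_of_nonneg_left (integral_mono
          ((S97BM.sum _ fun _ => hE _ _ _).integrable _)
          (((S97BM.const _).mul ((c₀.add c₁).add c₂)).integrable _) fun θ => ?_) (sq_nonneg _)
        refine le_trans ?_ (dyadic_discrete K (fun x y => F₀ (δ * (x + θ.1), δ * (y + θ.2.1)))
          (fun x y => F₁ (δ * (x + θ.2.1), δ * (y + θ.2.2)))
          fun x y => F₂ (δ * (x + θ.2.2), δ * (y + θ.1)))
        refine s97_sum_le S (fun i => (i.1 - k0 - 1).toNat) K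
          (fun κ n0 n1 => |s97D δ K κ n0 n1 F₀ F₁ F₂ θ| / 2 ^ (κ + 1))
          (fun _ _ _ => by positivity) hK fun i hi j hj hij => ?_
        have e1 := hk i hi
        have e2 := hk j hj
        omega
    _ ≤ _ := by
        rw [integral_const_mul, integral_add ((c₀.add c₁).integrable _) (c₂.integrable _),
          integral_add (c₀.integrable _) (c₁.integrable _), mul_left_comm, mul_add (δ ^ 2),
          mul_add (δ ^ 2)]
        exact mul_le_mul_of_nonneg_left (add_le_add (add_le_add b₀ b₁) b₂) (by positivity)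

theorem s97_localForm_smul (a b c : ℝ) (k : ℤ) (n0 n1 n2 : ℕ) :
    localForm k n0 n1 n2 (fun z => a * F₀ z) (fun z => b * F₁ z) (fun z => c * F₂ z) =
      a * b * c * localForm k n0 n1 n2 F₀ F₁ F₂ := by
  unfold localForm
  rw [mul_left_comm]
  simp only [← integral_const_mul]
  congr 1
  funext x₀
  congr 1
  funext x₁
  congr 1
  funext x₂
  ring

theorem s97_homog {S a b c : ℝ} (ha : 0 ≤ a) (hb : 0 ≤ b) (hc : 0 ≤ c)
    (h : ∀ s t u : ℝ, 0 < s → 0 < t → 0 < u →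
      s * t * u * S ≤ 4 * Real.pi * (s ^ 3 * a + t ^ 3 * b + u ^ 3 * c)) :
    S ≤ 40 * a ^ (1 / 3 : ℝ) * b ^ (1 / 3 : ℝ) * c ^ (1 / 3 : ℝ) := by
  have key : ∀ {x ε : ℝ}, 0 ≤ x → 0 < ε → (x ^ (1 / 3 : ℝ) + ε)⁻¹ ^ 3 * x ≤ 1 := by
    intro x ε hx hε
    have h0 : 0 ≤ x ^ (1 / 3 : ℝ) := Real.rpow_nonneg hx _
    have h1 : (x ^ (1 / 3 : ℝ)) ^ 3 = x := by
      rw [one_div]; exact_mod_cast Real.rpow_inv_natCast_pow hx (n := 3) (by norm_num)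
    rw [inv_pow, inv_mul_le_iff₀ (by positivity), mul_one]
    calc x = (x ^ (1 / 3 : ℝ)) ^ 3 := h1.symm
      _ ≤ _ := pow_le_pow_left₀ h0 (by linarith) 3
  set α := a ^ (1 / 3 : ℝ)
  set β := b ^ (1 / 3 : ℝ)
  set γ := c ^ (1 / 3 : ℝ)
  have hα : 0 ≤ α := Real.rpow_nonneg ha _
  have hβ : 0 ≤ β := Real.rpow_nonneg hb _
  have hγ : 0 ≤ γ := Real.rpow_nonneg hc _
  have h1 : ∀ ε : ℝ, 0 < ε → S ≤ 40 * (α + ε) * (β + ε) * (γ + ε) := fun ε hε => by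
    have h2 := h (α + ε)⁻¹ (β + ε)⁻¹ (γ + ε)⁻¹ (by positivity) (by positivity) (by positivity)
    have h3 : 4 * Real.pi * ((α + ε)⁻¹ ^ 3 * a + (β + ε)⁻¹ ^ 3 * b + (γ + ε)⁻¹ ^ 3 * c)
        ≤ 4 * Real.pi * 3 :=
      mul_le_mul_of_nonneg_left (by linarith [key ha hε, key hb hε, key hc hε]) (by positivity)
    have h4 : (α + ε)⁻¹ * (β + ε)⁻¹ * (γ + ε)⁻¹ * S ≤ 40 := by linarith [Real.pi_lt_d2]
    rw [← mul_inv, ← mul_inv, inv_mul_le_iff₀ (by positivity)] at h4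
    linarith
  have h5 : Filter.Tendsto (fun ε : ℝ => 40 * (α + ε) * (β + ε) * (γ + ε)) (nhdsWithin 0 (Set.Ioi 0))
      (nhds (40 * (α + 0) * (β + 0) * (γ + 0))) :=
    (Continuous.tendsto (by fun_prop) 0).mono_left nhdsWithin_le_nhds
  simpa using ge_of_tendsto h5 (eventually_nhdsWithin_of_forall h1)

theorem s97_integrable {F : ℝ × ℝ → ℝ} (h : S97BM F) (hc : HasCompactSupport F) :
    Integrable fun z => |F z| ^ 3 := by
  obtain ⟨h1, M, h2⟩ := h.cube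
  rw [← integrableOn_iff_integrable_of_support_subset (s := tsupport F) fun z hz =>
    subset_tsupport F fun h0 => hz (by simp [h0])]
  exact Measure.integrableOn_of_bounded hc.isCompact.measure_lt_top.ne h1.aestronglyMeasurable
    (Filter.Eventually.of_forall h2)

theorem s97_final (h₀ : S97BM F₀) (h₁ : S97BM F₁) (h₂ : S97BM F₂) (c₀ : HasCompactSupport F₀)
    (c₁ : HasCompactSupport F₁) (c₂ : HasCompactSupport F₂) (S : Finset (ℤ × ℕ × ℕ)) :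
    ∑ i ∈ S, |localForm i.1 i.2.1 i.2.2 (i.2.1 ^^^ i.2.2) F₀ F₁ F₂| ≤
      40 * (∫ z in Set.Ici 0 ×ˢ Set.Ici 0, |F₀ z| ^ 3) ^ (1 / 3 : ℝ) *
        (∫ z in Set.Ici 0 ×ˢ Set.Ici 0, |F₁ z| ^ 3) ^ (1 / 3 : ℝ) *
        (∫ z in Set.Ici 0 ×ˢ Set.Ici 0, |F₂ z| ^ 3) ^ (1 / 3 : ℝ) := by
  refine s97_homog (integral_nonneg fun _ => by positivity) (integral_nonneg fun _ => by positivity)
    (integral_nonneg fun _ => by positivity) fun s t u hs ht hu => ?_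
  have e : ∀ {F : ℝ × ℝ → ℝ} {s : ℝ}, 0 < s → ∀ z, |s * F z| ^ 3 = s ^ 3 * |F z| ^ 3 :=
    fun hs z => by rw [abs_mul, abs_of_pos hs, mul_pow]
  have hi : ∀ {F : ℝ × ℝ → ℝ} {s : ℝ}, 0 < s → S97BM F → HasCompactSupport F →
      IntegrableOn (fun z => |s * F z| ^ 3) (Set.Ici 0 ×ˢ Set.Ici 0) := fun hs h hc => by
    simp only [e hs]
    exact ((s97_integrable h hc).const_mul _).integrableOn
  have h := s97_main ((S97BM.const s).mul h₀) ((S97BM.const t).mul h₁) ((S97BM.const u).mul h₂)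
    (hi hs h₀ c₀) (hi ht h₁ c₁) (hi hu h₂ c₂) S
  simp only [s97_localForm_smul, mul_pow, integral_const_mul, abs_mul, abs_of_pos hs,
    abs_of_pos ht, abs_of_pos hu, ← Finset.mul_sum] at h
  exact h

end Crest.Agent.R072
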