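import Crest.Agent.R072.DT
import Crest.Agent.R072.Meas

/-! Row 72: from the lattice to the plane. -/

set_option autoImplicit false

open MeasureTheory
open scoped ENNReal

namespace Crest.Agent.R072

open Crest.AnalysisR

/-- The rescaled integrand. -/
noncomputable def trK (F G : ℝ × ℝ → ℂ) (δ ε R : ℝ) (z : ℝ × ℝ) (s : ℝ) : ℂ :=
  if ε < |s| ∧ |s| < R then F (z.1 + δ * s, z.2) * G (z.1, z.2 + δ * s) / (s : ℂ) else 0

/-- The lattice sum. -/
noncomputable def trD (F G : ℝ × ℝ → ℂ) (δ ε R : ℝ) (N : ℕ) (z : ℝ × ℝ) (θ : ℝ) : ℂ :=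
  ∑ n ∈ Finset.Ico (-(N : ℤ)) N, trK F G δ ε R z (n + θ)

lemma tr_scale (F G : ℝ × ℝ → ℂ) {K : ℝ} (hK : 0 < K) (ε R : ℝ) (z : ℝ × ℝ) :
    annularTriangularHT F G ε R z = ∫ s, trK F G K⁻¹ (K * ε) (K * R) z s := by
  have m : MeasurableSet {t : ℝ | ε < |t| ∧ |t| < R} := by measurability
  have e : ∀ s, trK F G K⁻¹ (K * ε) (K * R) z s = K⁻¹ • {t : ℝ | ε < |t| ∧ |t| < R}.indicator
      (fun t => F (z.1 + t, z.2) * G (z.1, z.2 + t) / (t : ℂ)) (K⁻¹ * s) := by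
    intro s
    have hK' : (K : ℂ) ≠ 0 := by exact_mod_cast hK.ne'
    simp only [trK, Set.indicator_apply, Set.mem_ofPred_eq, abs_mul, abs_of_pos (inv_pos.2 hK),
      lt_inv_mul_iff₀ hK, inv_mul_lt_iff₀ hK]
    split_ifs
    · rw [Complex.real_smul]; push_cast; field_simp
    · simp
  simp only [e]
  rw [integral_smul, Measure.integral_comp_mul_left, inv_inv, abs_of_pos hK, smul_smul,
    inv_mul_cancel₀ hK.ne', one_smul, integral_indicator m, annularTriangularHT]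

lemma tr_unfold1 (g : ℝ → ℂ) (N : ℕ) (hg : ∀ s, (N : ℝ) ≤ |s| → g s = 0) :
    ‖∫ s, g s‖ₑ ≤ ∫⁻ θ in Set.Ico (0 : ℝ) 1, ‖∑ n ∈ Finset.Ico (-(N : ℤ)) N, g (n + θ)‖ₑ := by
  by_cases hi : Integrable g
  swap
  · simp [integral_undef hi]
  have h1 := hi.hasSum_intervalIntegral_comp_add_int
  have h2 : HasSum (fun n : ℤ => ∫ x in (0 : ℝ)..1, g (x + n))
      (∑ n ∈ Finset.Ico (-(N : ℤ)) N, ∫ x in (0 : ℝ)..1, g (x + n)) := by
    refine hasSum_sum_of_ne_finset_zero fun n hn => ?_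
    rw [intervalIntegral.integral_congr (g := fun _ => 0) fun x hx => hg _ ?_]
    · simp
    rw [Set.uIcc_of_le zero_le_one] at hx
    rw [Finset.mem_Ico, not_and_or, not_le, not_lt] at hn
    rcases hn with h | h
    · have : (n : ℝ) + 1 ≤ -N := by exact_mod_cast h
      exact le_trans (by linarith [hx.2]) (neg_le_abs _)
    · have : (N : ℝ) ≤ n := by exact_mod_cast h
      exact le_trans (by linarith [hx.1]) (le_abs_self _)
  rw [h1.unique h2, ← intervalIntegral.integral_finsetSum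
      fun n _ => (hi.comp_add_right _).intervalIntegrable,
    intervalIntegral.integral_of_le zero_le_one, restrict_Ico_eq_restrict_Ioc]
  simp only [add_comm]
  exact enorm_integral_le_lintegral_enorm _

lemma tr_measurable_D {F G : ℝ × ℝ → ℂ} (hF : Measurable F) (hG : Measurable G) (δ ε R : ℝ)
    (N : ℕ) : Measurable fun p : (ℝ × ℝ) × ℝ => trD F G δ ε R N p.1 p.2 := by
  unfold trD trK
  refine Finset.measurable_sum _ fun n _ => Measurable.ite (by measurability) ?_ measurable_const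
  fun_prop

/-- The lattice point of index `k`. -/
def trP (δ : ℝ) (k : ℤ × ℤ) : ℝ × ℝ := (δ * k.1, δ * k.2)

/-- The index of the cell of a point. -/
noncomputable def trI (δ : ℝ) (z : ℝ × ℝ) : ℤ × ℤ := (⌊z.1 / δ⌋, ⌊z.2 / δ⌋)

lemma tr_unfold2 {δ : ℝ} (hδ : 0 < δ) {h : ℝ × ℝ → ℝ≥0∞} (hh : Measurable h) :
    ∫⁻ z, h z = ∫⁻ u in trI δ ⁻¹' {0}, ∑' k : ℤ × ℤ, h (u + trP δ k) := by
  have m : Measurable (trI δ) := by unfold trI; fun_prop
  rw [lintegral_tsum fun k => by fun_prop, ← setLIntegral_univ,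
    ← Set.preimage_univ (f := trI δ), ← Set.iUnion_of_singleton, Set.preimage_iUnion,
    lintegral_iUnion (fun k => m (measurableSet_singleton k)) (pairwise_disjoint_fiber _)]
  refine tsum_congr fun k => ?_
  rw [← (measurePreserving_add_right volume (trP δ k)).setLIntegral_comp_preimage_emb
    (measurableEmbedding_addRight _)]
  congr 2
  ext u
  simp [trI, trP, Prod.ext_iff, add_div, mul_div_cancel_left₀ _ hδ.ne']

lemma tr_tsum_iSup {α ι : Type} [Nonempty ι] (f : α → ι → ℝ≥0∞) {B : ℝ≥0∞}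
    (h : ∀ (s : Finset α) (c : α → ι), ∑ a ∈ s, f a (c a) ≤ B) : ∑' a, ⨆ i, f a i ≤ B := by
  classical
  rw [ENNReal.tsum_eq_iSup_sum]
  refine iSup_le fun s => le_trans (Finset.sum_le_sum (g := fun a => ⨆ c : α → ι, f a (c a))
    fun a _ => iSup_le fun i => le_iSup_of_le (fun _ => i) le_rfl) ?_
  rw [ENNReal.finsetSum_iSup fun c c' => ⟨fun a => if f a (c a) ≤ f a (c' a) then c' a else c a,
    fun a => ?_⟩]
  · exact iSup_le (h s)
  · dsimp only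
    split_ifs with h
    exacts [⟨h, le_rfl⟩, ⟨le_rfl, le_of_not_ge h⟩]

lemma tr_rpow_iSup {ι : Sort*} (f : ι → ℝ≥0∞) :
    (⨆ i, f i) ^ (3 / 2 : ℝ) = ⨆ i, f i ^ (3 / 2 : ℝ) :=
  (ENNReal.orderIsoRpow (3 / 2) (by norm_num)).map_iSup f

lemma tr_jensen {f : ℝ → ℝ≥0∞} (hf : Measurable f) :
    (∫⁻ θ in Set.Ico (0 : ℝ) 1, f θ) ^ (3 / 2 : ℝ) ≤
      ∫⁻ θ in Set.Ico (0 : ℝ) 1, f θ ^ (3 / 2 : ℝ) := by
  have := ENNReal.lintegral_mul_le_Lp_mul_Lq (volume.restrict (Set.Ico (0 : ℝ) 1))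
    (p := 3 / 2) (q := 3) (Real.holderConjugate_iff.2 ⟨by norm_num, by norm_num⟩)
    hf.aemeasurable (g := 1) aemeasurable_const
  simp only [mul_one, Pi.one_apply, ENNReal.one_rpow, lintegral_const, MeasurableSet.univ,
    Measure.restrict_apply, Set.univ_inter, Real.volume_Ico, sub_zero, ENNReal.ofReal_one] at this
  refine (ENNReal.rpow_le_rpow this (by norm_num)).trans (le_of_eq ?_)
  rw [← ENNReal.rpow_mul]
  norm_num

/-- Families of at most `n` disjoint annuli with radii in `[1 / K, K]`. -/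
abbrev TrCfg (n K : ℕ) : Type :=
  {c : (m : ℕ) × ((Fin m → ℚ) × (Fin m → ℚ)) // c.1 ≤ n ∧
    (∀ j, 1 ≤ K * c.2.1 j ∧ c.2.1 j < c.2.2 j ∧ c.2.2 j ≤ K) ∧
    ∀ i j, i ≠ j → c.2.2 i ≤ c.2.1 j ∨ c.2.2 j ≤ c.2.1 i}

instance (n K : ℕ) : Nonempty (TrCfg n K) :=
  ⟨⟨⟨0, Fin.elim0, Fin.elim0⟩, Nat.zero_le _, fun j => j.elim0, fun j => j.elim0⟩⟩

/-- The truncated annulus count. -/
noncomputable def trS (n K : ℕ) (F G : ℝ × ℝ → ℂ) (z : ℝ × ℝ) : ℝ≥0∞ :=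
  ⨆ c : TrCfg n K, ∑ j, ‖annularTriangularHT F G (c.1.2.1 j) (c.1.2.2 j) z‖ₑ

/-- Its lattice version. -/
noncomputable def trPsi (n K : ℕ) (F G : ℝ × ℝ → ℂ) (z : ℝ × ℝ) (θ : ℝ) : ℝ≥0∞ :=
  ⨆ c : TrCfg n K, ∑ j, ‖trD F G (K : ℝ)⁻¹ (K * c.1.2.1 j) (K * c.1.2.2 j) (K * K) z θ‖ₑ

lemma tr_count_le (n : ℕ) (F G : ℝ × ℝ → ℂ) (z : ℝ × ℝ) :
    annulusCount n F G z ≤ ⨆ K, trS n (K + 1) F G z := by
  refine iSup₂_le fun m hm => iSup₂_le fun ε R => iSup₂_le fun h1 h2 => ?_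
  obtain ⟨K, hK⟩ := exists_nat_ge (∑ j, (1 / ε j + R j))
  have h3 : ∀ j, 1 / ε j + R j ≤ K := fun j => le_trans (Finset.single_le_sum
    (f := fun j => 1 / ε j + R j) (fun j _ => by
      have := h1 j
      have := one_div_pos.2 this.1
      linarith) (Finset.mem_univ j)) hK
  refine le_iSup_of_le K (le_iSup_of_le ⟨⟨m, ε, R⟩, hm, fun j => ?_, h2⟩ le_rfl)
  have a := h1 j
  have b := one_div_pos.2 a.1
  have c := h3 j
  push_cast
  exact ⟨(div_le_iff₀ a.1).1 (by linarith), a.2, by linarith⟩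

lemma tr_mono (n : ℕ) (F G : ℝ × ℝ → ℂ) (z : ℝ × ℝ) {K K' : ℕ} (h : K ≤ K') :
    trS n K F G z ≤ trS n K' F G z := by
  refine iSup_le fun c => le_iSup_of_le ⟨c.1, c.2.1, fun j => ?_, c.2.2.2⟩ le_rfl
  obtain ⟨a, b, d⟩ := c.2.2.1 j
  have h' : (K : ℚ) ≤ K' := by exact_mod_cast h
  have e : 0 ≤ c.1.2.1 j := by
    by_contra h
    nlinarith [Nat.cast_nonneg (α := ℚ) K]
  exact ⟨a.trans (mul_le_mul_of_nonneg_right h' e), b, d.trans h'⟩

lemma tr_measurable_Psi {F G : ℝ × ℝ → ℂ} (hF : Measurable F) (hG : Measurable G) (n K : ℕ) :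
    Measurable fun p : (ℝ × ℝ) × ℝ => trPsi n K F G p.1 p.2 :=
  Measurable.iSup fun _ => Finset.measurable_sum _ fun _ _ => (tr_measurable_D hF hG _ _ _ _).enorm

lemma tr_S_le {F G : ℝ × ℝ → ℂ} (hF : Measurable F) (hG : Measurable G) (n : ℕ) {K : ℕ}
    (hK : 0 < K) (z : ℝ × ℝ) : trS n K F G z ≤ ∫⁻ θ in Set.Ico (0 : ℝ) 1, trPsi n K F G z θ := by
  have hK' : (0 : ℝ) < K := by exact_mod_cast hK
  refine iSup_le fun c => le_trans ?_ (lintegral_mono fun θ => le_iSup _ c)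
  have m : ∀ δ ε R N, Measurable fun θ => ‖trD F G δ ε R N z θ‖ₑ := fun δ ε R N =>
    ((tr_measurable_D hF hG δ ε R N).comp measurable_prodMk_left).enorm
  rw [lintegral_finsetSum _ fun j _ => m _ _ _ _]
  refine Finset.sum_le_sum fun j _ => ?_
  rw [tr_scale F G hK']
  refine tr_unfold1 _ (K * K) fun s hs => if_neg fun h => ?_
  have : ((c.1.2.2 j : ℚ) : ℝ) ≤ K := by exact_mod_cast (c.2.2.1 j).2.2
  push_cast at hs
  nlinarith [h.2]

lemma tr_dHT (F G : ℝ × ℝ → ℂ) (δ ε R θ : ℝ) (N : ℕ) (u : ℝ × ℝ) (k : ℤ × ℤ) :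
    trD F G δ ε R N (u + trP δ k) θ = dHT (fun k => F (u + trP δ k + (δ * θ, 0)))
      (fun k => G (u + trP δ k + (0, δ * θ))) θ ε R N k := by
  refine Finset.sum_congr rfl fun n _ => ?_
  unfold trK
  congr 4 <;> ext <;> simp [trP] <;> ring

lemma tr_unfold3 {δ : ℝ} (hδ : 0 < δ) {h f g : ℝ × ℝ → ℝ≥0∞} (hh : Measurable h)
    (hf : Measurable f) (hg : Measurable g) {C : ℝ≥0∞} (hC : C ≠ ∞) (a b : ℝ × ℝ)
    (H : ∀ u, ∑' k : ℤ × ℤ, h (u + trP δ k) ≤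
      C * (∑' k : ℤ × ℤ, f (u + trP δ k + a) + ∑' k : ℤ × ℤ, g (u + trP δ k + b))) :
    ∫⁻ z, h z ≤ C * ((∫⁻ z, f z) + ∫⁻ z, g z) := by
  have mf : Measurable fun z => f (z + a) := hf.comp (measurable_add_const a)
  have mg : Measurable fun z => g (z + b) := hg.comp (measurable_add_const b)
  have m : Measurable fun u => ∑' k : ℤ × ℤ, f (u + trP δ k + a) :=
    Measurable.tsum fun k => mf.comp (measurable_add_const _)
  rw [← lintegral_add_right_eq_self f a, ← lintegral_add_right_eq_self g b, tr_unfold2 hδ mf,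
    tr_unfold2 hδ mg, tr_unfold2 hδ hh, ← lintegral_add_left m, ← lintegral_const_mul' _ _ hC]
  exact lintegral_mono H

theorem cont_add : ∃ c : ℝ, 0 ≤ c ∧ ∀ n : ℕ, 1 ≤ n → ∀ F G : ℝ × ℝ → ℂ,
    Measurable F → Measurable G →
      ∫⁻ z, annulusCount n F G z ^ (3 / 2 : ℝ) ≤
        ENNReal.ofReal ((c * √n) ^ (3 / 2 : ℝ)) * ((∫⁻ z, ‖F z‖ₑ ^ 3) + ∫⁻ z, ‖G z‖ₑ ^ 3) := by
  obtain ⟨c, hc, H⟩ := DT
  refine ⟨c, hc, fun n hn F G hF hG => ?_⟩
  have mS : ∀ K, Measurable fun z => trS n K F G z ^ (3 / 2 : ℝ) := fun K =>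
    (Measurable.iSup fun _ => Finset.measurable_sum _ fun _ _ =>
      (measurable_annularHT hF hG _ _).enorm).pow_const _
  refine (lintegral_mono fun z => ENNReal.rpow_le_rpow (tr_count_le n F G z) (by norm_num)).trans ?_
  simp only [tr_rpow_iSup]
  rw [lintegral_iSup (fun K => mS (K + 1)) fun K K' h z =>
    ENNReal.rpow_le_rpow (tr_mono n F G z (Nat.succ_le_succ h)) (by norm_num)]
  refine iSup_le fun K => ?_
  obtain ⟨K, hK, e⟩ : ∃ K', 0 < K' ∧ K + 1 = K' := ⟨_, K.succ_pos, rfl⟩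
  rw [e]
  have hK' : (0 : ℝ) < K := by exact_mod_cast hK
  have mP : Measurable (Function.uncurry (trPsi n K F G)) := tr_measurable_Psi hF hG n K
  have mP1 : ∀ z, Measurable fun θ => trPsi n K F G z θ := fun z =>
    mP.of_uncurry_left
  have mP2 : ∀ θ, Measurable fun z => trPsi n K F G z θ ^ (3 / 2 : ℝ) := fun θ =>
    mP.of_uncurry_right.pow_const _
  have mP3 : Measurable (Function.uncurry fun z θ => trPsi n K F G z θ ^ (3 / 2 : ℝ)) :=
    mP.pow_const _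
  refine (lintegral_mono fun z => (ENNReal.rpow_le_rpow (tr_S_le hF hG n hK z) (by norm_num)).trans
    (tr_jensen (mP1 z))).trans ?_
  rw [lintegral_lintegral_swap mP3.aemeasurable]
  refine (setLIntegral_mono' (g := fun _ => ENNReal.ofReal ((c * √n) ^ (3 / 2 : ℝ)) *
    ((∫⁻ z, ‖F z‖ₑ ^ 3) + ∫⁻ z, ‖G z‖ₑ ^ 3)) measurableSet_Ico fun θ hθ => ?_).trans (by simp)
  refine tr_unfold3 (inv_pos.2 hK') (mP2 θ) (hF.enorm.pow_const 3) (hG.enorm.pow_const 3)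
    ENNReal.ofReal_ne_top ((K : ℝ)⁻¹ * θ, 0) (0, (K : ℝ)⁻¹ * θ) fun u => ?_
  simp only [trPsi, tr_rpow_iSup, tr_dHT]
  refine tr_tsum_iSup _ fun s ch => H n (K * K) θ hn hθ.1 hθ.2 _ _ s (fun k => (ch k).1.1)
    (fun k j => K * (ch k).1.2.1 j) (fun k j => K * (ch k).1.2.2 j) (fun k => (ch k).2.1)
    (fun k j => ?_) fun k i j hij => ?_
  · obtain ⟨a, b, d⟩ := (ch k).2.2.1 j
    refine ⟨by exact_mod_cast a, mul_lt_mul_of_pos_left (by exact_mod_cast b) hK', ?_⟩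
    push_cast
    exact mul_le_mul_of_nonneg_left (by exact_mod_cast d) hK'.le
  · exact ((ch k).2.2.2 i j hij).imp
      (fun h => mul_le_mul_of_nonneg_left (by exact_mod_cast h) hK'.le)
      fun h => mul_le_mul_of_nonneg_left (by exact_mod_cast h) hK'.le

end Crest.Agent.R072
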