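import Crest.Agent.R072.Meas

/-! Row 72: the `r`-variation bound from the bound for the annulus count. -/

set_option autoImplicit false

open MeasureTheory
open scoped ENNReal

namespace Crest.Agent.R072

open Crest.AnalysisR

lemma var_rpow_sum_le {ι : Type*} (s : Finset ι) (x : ι → ℝ≥0∞) {q : ℝ} (hq : 0 < q)
    (hq1 : q ≤ 1) : (∑ i ∈ s, x i) ^ q ≤ ∑ i ∈ s, x i ^ q := by
  classical
  induction s using Finset.induction_on with
  | empty => simp [ENNReal.zero_rpow_of_pos hq]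
  | insert a s ha ih =>
    rw [Finset.sum_insert ha, Finset.sum_insert ha]
    exact (ENNReal.rpow_add_le_add_rpow _ _ hq.le hq1).trans (by gcongr)

/-- dyadic grouping by rank -/
lemma var_rank {ι : Type*} [Fintype ι] (a : ι → ℝ≥0∞) (S : ℕ → ℝ≥0∞)
    (hS : ∀ B : Finset ι, ∑ j ∈ B, a j ≤ S B.card) {r : ℝ} (hr : 0 ≤ r) :
    ∃ I : Finset ℕ, ∑ j, a j ^ r ≤ ∑ i ∈ I, 2 ^ (i + 1) * (S (2 ^ i) / 2 ^ i) ^ r := by
  classical
  set N : ι → ℕ := fun j => (Finset.univ.filter fun j' => a j ≤ a j').card with hN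
  have hN0 : ∀ j, N j ≠ 0 := fun j => Finset.card_ne_zero.2 ⟨j, by simp⟩
  set g : ι → ℕ := fun j => Nat.log 2 (N j) with hg
  refine ⟨Finset.univ.image g, ?_⟩
  rw [← Finset.sum_fiberwise_of_maps_to (g := g) (t := Finset.univ.image g)
    (fun j hj => Finset.mem_image_of_mem g hj)]
  refine Finset.sum_le_sum fun i _ => ?_
  have h1 : ∀ j ∈ Finset.univ.filter fun j => g j = i, a j ^ r ≤ (S (2 ^ i) / 2 ^ i) ^ r := by
    intro j hj
    have hj' : g j = i := (Finset.mem_filter.1 hj).2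
    have hle : 2 ^ i ≤ N j := hj' ▸ Nat.pow_log_le_self 2 (hN0 j)
    obtain ⟨B, hB, hBc⟩ := Finset.exists_subset_card_eq hle
    refine ENNReal.rpow_le_rpow ?_ hr
    rw [ENNReal.le_div_iff_mul_le (Or.inl (by simp)) (Or.inl (by simp))]
    have h2 : B.card • a j ≤ ∑ j ∈ B, a j :=
      Finset.card_nsmul_le_sum B a (a j) fun j' hj' => (Finset.mem_filter.1 (hB hj')).2
    have h3 := hS B
    rw [hBc] at h2 h3
    rw [nsmul_eq_mul, mul_comm] at h2
    simpa using h2.trans h3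
  have h2 : (Finset.univ.filter fun j => g j = i).card ≤ 2 ^ (i + 1) := by
    rcases (Finset.univ.filter fun j => g j = i).eq_empty_or_nonempty with h | h
    · rw [h]; simp
    · obtain ⟨j, hj, hmin⟩ := Finset.exists_min_image _ a h
      have hj' : g j = i := (Finset.mem_filter.1 hj).2
      have hlt : N j < 2 ^ (i + 1) := hj' ▸ Nat.lt_pow_succ_log_self (by norm_num) (N j)
      refine le_trans (Finset.card_le_card fun j' hj'' => ?_) hlt.le
      exact Finset.mem_filter.2 ⟨Finset.mem_univ _, hmin j' hj''⟩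
  refine (Finset.sum_le_card_nsmul _ _ _ h1).trans ?_
  rw [nsmul_eq_mul]
  gcongr
  exact_mod_cast h2

lemma var_sub_le (F G : ℝ × ℝ → ℂ) (z : ℝ × ℝ) {J : ℕ} {t : Fin (J + 2) → ℚ} (ht : StrictMono t)
    (h0 : 0 < t 0) (B : Finset (Fin (J + 1))) :
    ∑ j ∈ B, ‖annularTriangularHT F G (t (Fin.castSucc j) : ℝ) (t (Fin.succ j) : ℝ) z‖ₑ ≤
      annulusCount B.card F G z := by
  set e : Fin B.card → Fin (J + 1) := fun k => (B.equivFin.symm k : Fin (J + 1)) with he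
  have hinj : Function.Injective e := Subtype.val_injective.comp B.equivFin.symm.injective
  rw [← Finset.sum_coe_sort B, ← B.equivFin.symm.sum_comp]
  unfold annulusCount
  refine le_iSup₂_of_le B.card le_rfl ?_
  refine le_iSup₂_of_le (fun k => t (Fin.castSucc (e k))) (fun k => t (Fin.succ (e k))) ?_
  refine le_iSup₂_of_le (fun k => ⟨h0.trans_le (ht.monotone (Fin.zero_le _)),
    ht Fin.castSucc_lt_succ⟩) (fun i j hij => ?_) le_rfl
  rcases lt_or_gt_of_ne (hinj.ne hij) with h | h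
  · exact Or.inl (ht.monotone (Fin.succ_le_castSucc_iff.2 h))
  · exact Or.inr (ht.monotone (Fin.succ_le_castSucc_iff.2 h))

lemma var_pointwise {r : ℝ} (hr : 2 < r) (F G : ℝ × ℝ → ℂ) (z : ℝ × ℝ) :
    annularVariation r F G z ^ (3 / 2 : ℝ) ≤
      ∑' i : ℕ, ((2 ^ (i + 1)) ^ (1 / r) / 2 ^ i) ^ (3 / 2 : ℝ) *
        annulusCount (2 ^ i) F G z ^ (3 / 2 : ℝ) := by
  have hr0 : 0 < r := by linarith
  rw [← ENNReal.le_rpow_inv_iff (by norm_num)]
  unfold annularVariation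
  refine iSup₂_le fun J t => iSup₂_le fun ht h0 => ?_
  rw [ENNReal.le_rpow_inv_iff (by norm_num)]
  obtain ⟨I, hI⟩ := var_rank _ (fun n => annulusCount n F G z) (var_sub_le F G z ht h0) hr0.le
  rw [← ENNReal.rpow_mul]
  have hq : 0 < 1 / r * (3 / 2) := by positivity
  have hq1 : 1 / r * (3 / 2) ≤ 1 := by
    rw [div_mul_eq_mul_div, div_le_one hr0]; linarith
  refine (ENNReal.rpow_le_rpow hI hq.le).trans ((var_rpow_sum_le I _ hq hq1).trans ?_)
  refine le_trans (Finset.sum_le_sum fun i _ => le_of_eq ?_) (ENNReal.sum_le_tsum I)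
  rw [← ENNReal.mul_rpow_of_nonneg _ _ (by norm_num : (0 : ℝ) ≤ 3 / 2), ENNReal.rpow_mul,
    ENNReal.mul_rpow_of_nonneg _ _ (by positivity), ← ENNReal.rpow_mul, mul_one_div_cancel hr0.ne',
    ENNReal.rpow_one]
  congr 1
  simp only [div_eq_mul_inv]
  ring

lemma var_real {r : ℝ} (hr : 2 < r) (C : ℝ) :
    ∃ A ρ : ℝ, 0 ≤ ρ ∧ ρ < 1 ∧ ∀ i : ℕ,
      ((2 : ℝ) ^ (i + 1)) ^ (1 / r) / 2 ^ i *
        (C * Real.sqrt ((2 ^ i : ℕ) : ℝ) * Real.log (2 + ((2 ^ i : ℕ) : ℝ))) ≤ A * ρ ^ i := by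
  have hr0 : 0 < r := by linarith
  set δ : ℝ := (1 / 2 - 1 / r) / 2 with hδ
  have hδ0 : 0 < δ := by
    have : 1 / r < 1 / 2 := one_div_lt_one_div_of_lt (by norm_num) hr
    rw [hδ]; linarith
  refine ⟨2 ^ (1 / r) * |C| * (3 ^ δ / δ), 2 ^ (-δ), by positivity,
    Real.rpow_lt_one_of_one_lt_of_neg (by norm_num) (by linarith), fun i => ?_⟩
  push_cast
  rw [← Real.rpow_natCast ((2 : ℝ) ^ (-δ)), ← Real.rpow_mul (by norm_num), mul_comm (-δ),
    Real.rpow_mul (by norm_num), Real.rpow_natCast, pow_succ']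
  have hx1 : (1 : ℝ) ≤ 2 ^ i := one_le_pow₀ (by norm_num)
  generalize (2 : ℝ) ^ i = x at hx1
  have hx0 : 0 < x := by linarith
  have hlog : Real.log (2 + x) ≤ 3 ^ δ / δ * x ^ δ := by
    refine (Real.log_le_rpow_div (by linarith) hδ0).trans ?_
    rw [div_mul_eq_mul_div, ← Real.mul_rpow (by norm_num) hx0.le]
    gcongr
    linarith
  have hlog0 : 0 ≤ Real.log (2 + x) := Real.log_nonneg (by linarith)
  have e : x ^ (-δ) = x ^ (1 / r) / x * x ^ (1 / 2 : ℝ) * x ^ δ := by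
    rw [← Real.rpow_sub_one hx0.ne', ← Real.rpow_add hx0, ← Real.rpow_add hx0]
    congr 1
    rw [hδ]; ring
  rw [Real.mul_rpow (by norm_num) hx0.le, Real.sqrt_eq_rpow, e]
  calc 2 ^ (1 / r) * x ^ (1 / r) / x * (C * x ^ (1 / 2 : ℝ) * Real.log (2 + x))
      ≤ 2 ^ (1 / r) * x ^ (1 / r) / x * (|C| * x ^ (1 / 2 : ℝ) * (3 ^ δ / δ * x ^ δ)) := by
        gcongr
        exact le_abs_self C
    _ = _ := by ring

lemma var_const {r : ℝ} (hr : 2 < r) (C : ℝ) :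
    ∑' i : ℕ, (((2 : ℝ≥0∞) ^ (i + 1)) ^ (1 / r) / 2 ^ i *
      ENNReal.ofReal (C * Real.sqrt ((2 ^ i : ℕ) : ℝ) * Real.log (2 + ((2 ^ i : ℕ) : ℝ)))) ^
        (3 / 2 : ℝ) ≠ ∞ := by
  have hr0 : 0 < r := by linarith
  obtain ⟨A, ρ, h0, h1, h⟩ := var_real hr C
  refine ne_top_of_le_ne_top (b := ∑' i : ℕ, ENNReal.ofReal |A| ^ (3 / 2 : ℝ) *
    (ENNReal.ofReal ρ ^ (3 / 2 : ℝ)) ^ i) ?_ (ENNReal.tsum_le_tsum fun i => ?_)
  · rw [ENNReal.tsum_mul_left, ENNReal.tsum_geometric]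
    refine ENNReal.mul_ne_top (ENNReal.rpow_ne_top_of_nonneg (by norm_num) ENNReal.ofReal_ne_top)
      (ENNReal.inv_ne_top.2 ?_)
    exact (tsub_pos_of_lt (ENNReal.rpow_lt_one (ENNReal.ofReal_lt_one.2 h1) (by norm_num))).ne'
  · rw [← ENNReal.rpow_natCast (ENNReal.ofReal ρ ^ (3 / 2 : ℝ)), ← ENNReal.rpow_mul,
      mul_comm (3 / 2 : ℝ), ENNReal.rpow_mul, ENNReal.rpow_natCast,
      ← ENNReal.mul_rpow_of_nonneg _ _ (by norm_num)]
    refine ENNReal.rpow_le_rpow ?_ (by norm_num)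
    have e : ((2 : ℝ≥0∞) ^ (i + 1)) ^ (1 / r) / 2 ^ i =
        ENNReal.ofReal (((2 : ℝ) ^ (i + 1)) ^ (1 / r) / 2 ^ i) := by
      rw [ENNReal.ofReal_div_of_pos (by positivity),
        ← ENNReal.ofReal_rpow_of_nonneg (by positivity) (by positivity),
        ENNReal.ofReal_pow (by norm_num), ENNReal.ofReal_pow (by norm_num), ENNReal.ofReal_ofNat]
    rw [e, ← ENNReal.ofReal_mul (by positivity), ← ENNReal.ofReal_pow h0,
      ← ENNReal.ofReal_mul (abs_nonneg A)]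
    refine ENNReal.ofReal_le_ofReal ((h i).trans ?_)
    gcongr
    exact le_abs_self A

theorem var_of_count
    (h : ∃ C : ℝ, ∀ n : ℕ, 1 ≤ n → ∀ F G : ℝ × ℝ → ℂ,
      MemLp F 3 volume → MemLp G 3 volume →
        (∫⁻ z, annulusCount n F G z ^ (3 / 2 : ℝ)) ^ (2 / 3 : ℝ) ≤
          ENNReal.ofReal (C * Real.sqrt n * Real.log (2 + n)) * eLpNorm F 3 volume *
            eLpNorm G 3 volume) (r : ℝ) (hr : 2 < r) :
    ∃ C : ℝ, ∀ F G : ℝ × ℝ → ℂ, MemLp F 3 volume → MemLp G 3 volume →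
      (∫⁻ z, annularVariation r F G z ^ (3 / 2 : ℝ)) ^ (2 / 3 : ℝ) ≤
        ENNReal.ofReal C * eLpNorm F 3 volume * eLpNorm G 3 volume := by
  obtain ⟨C, hC⟩ := h
  have hK := var_const hr C
  set K := ∑' i : ℕ, (((2 : ℝ≥0∞) ^ (i + 1)) ^ (1 / r) / 2 ^ i *
      ENNReal.ofReal (C * Real.sqrt ((2 ^ i : ℕ) : ℝ) * Real.log (2 + ((2 ^ i : ℕ) : ℝ)))) ^
        (3 / 2 : ℝ) with hKdef
  refine ⟨(K ^ (2 / 3 : ℝ)).toReal, fun F G hF hG => ?_⟩
  have e23 : (2 / 3 : ℝ) = (3 / 2 : ℝ)⁻¹ := by norm_num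
  rw [ENNReal.ofReal_toReal (ENNReal.rpow_ne_top_of_nonneg (by norm_num) hK), mul_assoc, e23,
    ENNReal.rpow_inv_le_iff (by norm_num), ENNReal.mul_rpow_of_nonneg _ _ (by norm_num),
    ENNReal.rpow_inv_rpow (by norm_num)]
  have hm : ∀ n, AEMeasurable (fun z => annulusCount n F G z ^ (3 / 2 : ℝ)) volume := fun n =>
    (aemeasurable_annulusCount hF.1 hG.1 n).pow_const _
  refine (lintegral_mono (var_pointwise hr F G)).trans ?_
  rw [lintegral_tsum fun i => (hm _).const_mul _, hKdef, ← ENNReal.tsum_mul_right]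
  refine ENNReal.tsum_le_tsum fun i => ?_
  have h1 := hC (2 ^ i) Nat.one_le_two_pow F G hF hG
  rw [e23, ENNReal.rpow_inv_le_iff (by norm_num), mul_assoc,
    ENNReal.mul_rpow_of_nonneg _ _ (by norm_num)] at h1
  rw [lintegral_const_mul'' _ (hm _), ENNReal.mul_rpow_of_nonneg _ _ (by norm_num), mul_assoc]
  gcongr

end Crest.Agent.R072
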